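import Vale.Agent.P212Z.Cpt

/-! Block diagonal operators and column operators on `l^2(Y × ℕ)`. -/

set_option linter.unusedSectionVars false

namespace Vale.Agent.P212Z

open Vale.Agent.P212 Filter Topology
open ContinuousLinearMap hiding proj

variable {Y : Type}

theorem adjoint_slice (y : Y) : adjoint (slice y) = inc y := adjoint_adjoint _

theorem slice_inc_self (y : Y) : slice y ∘L inc y = 1 := by
  ext1 f
  exact adjoint_inc_inc_self y f

theorem slice_inc_ne {y z : Y} (h : y ≠ z) : slice y ∘L inc z = 0 := by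
  ext1 f
  exact adjoint_inc_inc_ne h f

theorem slice_ext {E : Type} [NormedAddCommGroup E] [NormedSpace ℂ E] {T T' : E →L[ℂ] LP Y}
    (h : ∀ y, slice y ∘L T = slice y ∘L T') : T = T' := by
  ext1 f
  refine lp.ext (funext fun j => ?_)
  have h1 := congrArg (fun S : E →L[ℂ] L2 ℕ => (S f : ℕ → ℂ) j.2) (h j.1)
  simp only [comp_apply, slice_apply] at h1
  exact h1

theorem inc_ext {E : Type} [NormedAddCommGroup E] [NormedSpace ℂ E] {T T' : LP Y →L[ℂ] E}
    (h : ∀ y, T ∘L inc y = T' ∘L inc y) : T = T' :=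
  clm_ext_inc fun y f => congrArg (fun S : L2 ℕ →L[ℂ] E => S f) (h y)

theorem bl_def {Y' : Type} (T : LP Y →L[ℂ] LP Y') (q : Y') (p : Y) :
    bl T q p = slice q ∘L T ∘L inc p := rfl

theorem norm_slice_le (y : Y) : ‖slice y‖ ≤ 1 := norm_adjoint_inc_le y

theorem inc_comp_slice (y : Y) : inc y ∘L slice y = proj (Prod.fst ⁻¹' {y}) := by
  have h := pushL2_comp_adjoint (u := fun k : ℕ => (y, k)) (fun _ _ h => (Prod.mk.inj h).2)
  refine h.trans ?_
  congr 1
  ext j
  constructor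
  · rintro ⟨k, rfl⟩
    rfl
  · intro hj
    exact ⟨j.2, Prod.ext (Eq.symm hj) rfl⟩

theorem slice_proj_mem {S : Set Y} {y : Y} (h : y ∈ S) :
    slice y ∘L proj (Prod.fst ⁻¹' S) = slice y := by
  ext1 f
  refine lp.ext (funext fun k => ?_)
  rw [comp_apply, slice_apply, slice_apply, proj_apply_mem]
  exact h

theorem slice_proj_not_mem {S : Set Y} {y : Y} (h : y ∉ S) :
    slice y ∘L proj (Prod.fst ⁻¹' S) = 0 := by
  ext1 f
  refine lp.ext (funext fun k => ?_)
  rw [comp_apply, slice_apply, proj_apply_not_mem]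
  · rfl
  · exact h

/-- Column operators. -/
theorem exists_col {E : Type} [NormedAddCommGroup E] [NormedSpace ℂ E] (K : Y → E →L[ℂ] L2 ℕ)
    {C : ℝ} (hC : 0 ≤ C) (h : ∀ (F : Finset Y) (ξ : E), ∑ y ∈ F, ‖K y ξ‖ ^ 2 ≤ (C * ‖ξ‖) ^ 2) :
    ∃ V : E →L[ℂ] LP Y, (∀ y, slice y ∘L V = K y) ∧ ‖V‖ ≤ C := by
  have h1 := fun ξ => exists_assemble (fun y => K y ξ) (C * ‖ξ‖) (by positivity) (fun F => h F ξ)
  choose hm hn using h1
  let L : E →ₗ[ℂ] LP Y :=
    { toFun := fun ξ => ⟨fun j : Y × ℕ => (K j.1 ξ : ℕ → ℂ) j.2, hm ξ⟩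
      map_add' := fun ξ η => lp.ext (funext fun j => by
        change (K j.1 (ξ + η) : ℕ → ℂ) j.2 = (K j.1 ξ : ℕ → ℂ) j.2 + (K j.1 η : ℕ → ℂ) j.2
        rw [map_add]
        rfl)
      map_smul' := fun c ξ => lp.ext (funext fun j => by
        change (K j.1 (c • ξ) : ℕ → ℂ) j.2 = c • (K j.1 ξ : ℕ → ℂ) j.2
        rw [map_smul]
        rfl) }
  refine ⟨L.mkContinuous C hn, fun y => ?_, LinearMap.mkContinuous_norm_le _ hC _⟩
  ext1 ξ
  refine lp.ext (funext fun k => ?_)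
  rw [comp_apply, slice_apply]
  rfl

/-- The norm of an operator into `l^2(Y × ℕ)` through its rows. -/
theorem norm_le_of_slices {E : Type} [NormedAddCommGroup E] [NormedSpace ℂ E]
    (V : E →L[ℂ] LP Y) {C : ℝ} (hC : 0 ≤ C)
    (h : ∀ (F : Finset Y) (ξ : E), ∑ y ∈ F, ‖slice y (V ξ)‖ ^ 2 ≤ (C * ‖ξ‖) ^ 2) : ‖V‖ ≤ C := by
  obtain ⟨V', h1, h2⟩ := exists_col (fun y => slice y ∘L V) hC h
  rwa [slice_ext h1] at h2

/-- Bounded families of operators. -/
def Bdd (a : Y → OpN) : Prop := ∃ C : ℝ, ∀ y, ‖a y‖ ≤ C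

theorem Bdd.const (F : OpN) : Bdd (fun _ : Y => F) := ⟨‖F‖, fun _ => le_rfl⟩

theorem Bdd.add {a b : Y → OpN} (ha : Bdd a) (hb : Bdd b) : Bdd (fun y => a y + b y) := by
  obtain ⟨C, hC⟩ := ha
  obtain ⟨D, hD⟩ := hb
  exact ⟨C + D, fun y => (norm_add_le _ _).trans (add_le_add (hC y) (hD y))⟩

theorem Bdd.sub {a b : Y → OpN} (ha : Bdd a) (hb : Bdd b) : Bdd (fun y => a y - b y) := by
  obtain ⟨C, hC⟩ := ha
  obtain ⟨D, hD⟩ := hb
  exact ⟨C + D, fun y => (norm_sub_le _ _).trans (add_le_add (hC y) (hD y))⟩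

theorem Bdd.mul {a b : Y → OpN} (ha : Bdd a) (hb : Bdd b) : Bdd (fun y => a y * b y) := by
  obtain ⟨C, hC⟩ := ha
  obtain ⟨D, hD⟩ := hb
  exact ⟨|C| * |D|, fun y => (norm_mul_le _ _).trans (mul_le_mul ((hC y).trans (le_abs_self _))
    ((hD y).trans (le_abs_self _)) (norm_nonneg _) (abs_nonneg _))⟩

theorem Bdd.star {a : Y → OpN} (ha : Bdd a) : Bdd (fun y => star (a y)) := by
  obtain ⟨C, hC⟩ := ha
  exact ⟨C, fun y => (norm_star _).le.trans (hC y)⟩

theorem Bdd.comp {Y' : Type} {a : Y → OpN} (ha : Bdd a) (σ : Y' → Y) :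
    Bdd (fun y => a (σ y)) := by
  obtain ⟨C, hC⟩ := ha
  exact ⟨C, fun y => hC _⟩

theorem exists_dg (a : Y → OpN) {C : ℝ} (hC : 0 ≤ C) (h : ∀ y, ‖a y‖ ≤ C) :
    ∃ T : LP Y →L[ℂ] LP Y, (∀ y, slice y ∘L T = a y ∘L slice y) ∧ ‖T‖ ≤ C := by
  refine exists_col (fun y => a y ∘L slice y) hC fun F ξ => ?_
  calc ∑ y ∈ F, ‖(a y ∘L slice y) ξ‖ ^ 2 ≤ ∑ y ∈ F, C ^ 2 * ‖slice y ξ‖ ^ 2 := by
        refine Finset.sum_le_sum fun y _ => ?_
        rw [← mul_pow]
        refine pow_le_pow_left₀ (norm_nonneg _) ?_ 2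
        exact ((a y).le_opNorm _).trans (mul_le_mul_of_nonneg_right (h y) (norm_nonneg _))
    _ ≤ C ^ 2 * ‖ξ‖ ^ 2 := by
        rw [← Finset.mul_sum]
        exact mul_le_mul_of_nonneg_left (sum_norm_slice_sq_le F ξ) (by positivity)
    _ = (C * ‖ξ‖) ^ 2 := by ring

theorem exists_dg' {a : Y → OpN} (h : Bdd a) :
    ∃ T : LP Y →L[ℂ] LP Y, ∀ y, slice y ∘L T = a y ∘L slice y := by
  obtain ⟨C, hC⟩ := h
  obtain ⟨T, hT, -⟩ := exists_dg a (abs_nonneg C) fun y => (hC y).trans (le_abs_self _)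
  exact ⟨T, hT⟩

open Classical in
/-- The block diagonal operator. -/
noncomputable def dg (a : Y → OpN) : LP Y →L[ℂ] LP Y :=
  if h : Bdd a then (exists_dg' h).choose else 0

theorem slice_dg {a : Y → OpN} (h : Bdd a) (y : Y) : slice y ∘L dg a = a y ∘L slice y := by
  rw [dg, dif_pos h]
  exact (exists_dg' h).choose_spec y

theorem slice_dg_apply {a : Y → OpN} (h : Bdd a) (y : Y) (ξ : LP Y) :
    slice y (dg a ξ) = a y (slice y ξ) :=
  congrArg (fun T : LP Y →L[ℂ] L2 ℕ => T ξ) (slice_dg h y)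

theorem norm_dg_le {a : Y → OpN} {C : ℝ} (hC : 0 ≤ C) (h : ∀ y, ‖a y‖ ≤ C) : ‖dg a‖ ≤ C := by
  obtain ⟨T, hT, hT'⟩ := exists_dg a hC h
  rwa [← slice_ext (fun y => (hT y).trans (slice_dg ⟨C, h⟩ y).symm)]

theorem dg_inc {a : Y → OpN} (h : Bdd a) (y : Y) : dg a ∘L inc y = inc y ∘L a y := by
  refine slice_ext fun z => ?_
  rw [← comp_assoc, slice_dg h, comp_assoc, ← comp_assoc (slice z) (inc y)]
  by_cases hz : z = y
  · subst hz
    rw [slice_inc_self]
    rfl
  · rw [slice_inc_ne hz, comp_zero, zero_comp]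

theorem dg_mul {a b : Y → OpN} (ha : Bdd a) (hb : Bdd b) :
    dg (fun y => a y * b y) = dg a * dg b := by
  refine slice_ext fun y => ?_
  rw [slice_dg (ha.mul hb), mul_def, mul_def, ← comp_assoc, slice_dg ha, comp_assoc, comp_assoc,
    slice_dg hb]

theorem dg_add {a b : Y → OpN} (ha : Bdd a) (hb : Bdd b) :
    dg (fun y => a y + b y) = dg a + dg b := by
  refine slice_ext fun y => ?_
  rw [slice_dg (ha.add hb), comp_add, add_comp, slice_dg ha, slice_dg hb]

theorem dg_sub {a b : Y → OpN} (ha : Bdd a) (hb : Bdd b) :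
    dg (fun y => a y - b y) = dg a - dg b := by
  refine slice_ext fun y => ?_
  rw [slice_dg (ha.sub hb), comp_sub, sub_comp, slice_dg ha, slice_dg hb]

theorem dg_one : dg (fun _ : Y => (1 : OpN)) = 1 := by
  refine slice_ext fun y => ?_
  rw [slice_dg (Bdd.const _)]
  rfl

theorem dg_zero : dg (fun _ : Y => (0 : OpN)) = 0 := by
  refine slice_ext fun y => ?_
  rw [slice_dg (Bdd.const _), zero_comp, comp_zero]

theorem dg_star {a : Y → OpN} (ha : Bdd a) : dg (fun y => star (a y)) = star (dg a) := by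
  refine slice_ext fun y => ?_
  have h := congrArg adjoint (dg_inc ha y)
  rw [adjoint_comp, adjoint_comp] at h
  rw [slice_dg ha.star]
  exact h.symm

theorem bl_dg [DecidableEq Y] {a : Y → OpN} (ha : Bdd a) (y z : Y) :
    bl (dg a) y z = if y = z then a y else 0 := by
  rw [bl_def, ← comp_assoc, slice_dg ha, comp_assoc]
  split_ifs with h
  · subst h
    rw [slice_inc_self]
    rfl
  · rw [slice_inc_ne h, comp_zero]

theorem bl_dg_mul {Y' : Type} {a : Y → OpN} (ha : Bdd a) (T : LP Y' →L[ℂ] LP Y) (y : Y) (z : Y') :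
    bl (dg a ∘L T) y z = a y * bl T y z := by
  rw [bl_def, bl_def, comp_assoc, ← comp_assoc, slice_dg ha]
  rfl

theorem bl_mul_dg {Y' : Type} {a : Y → OpN} (ha : Bdd a) (T : LP Y →L[ℂ] LP Y') (y : Y') (z : Y) :
    bl (T ∘L dg a) y z = bl T y z * a z := by
  rw [bl_def, bl_def, comp_assoc, dg_inc ha]
  rfl

theorem dg_finset [DecidableEq Y] (a : Y → OpN) (F : Finset Y) :
    dg (fun y => if y ∈ F then a y else 0) = ∑ y ∈ F, inc y ∘L a y ∘L slice y := by
  have hb : Bdd (fun y => if y ∈ F then a y else 0) := by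
    refine ⟨∑ y ∈ F, ‖a y‖, fun y => ?_⟩
    beta_reduce
    split_ifs with h
    · exact Finset.single_le_sum (f := fun y => ‖a y‖) (fun _ _ => norm_nonneg _) h
    · rw [norm_zero]
      exact Finset.sum_nonneg fun _ _ => norm_nonneg _
  refine slice_ext fun z => ?_
  rw [slice_dg hb, comp_finsetSum]
  split_ifs with h
  · rw [Finset.sum_eq_single_of_mem z h]
    · rw [← comp_assoc, slice_inc_self]
      rfl
    · intro y _ hy
      rw [← comp_assoc, slice_inc_ne hy.symm, zero_comp]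
  · rw [zero_comp, eq_comm]
    refine Finset.sum_eq_zero fun y hy => ?_
    rw [← comp_assoc, slice_inc_ne (show z ≠ y from fun e => h (e ▸ hy)), zero_comp]

/-- Block diagonal operators with compact blocks which tend to zero are compact. -/
theorem cpt_dg {a : Y → OpN} (h : ∀ y, Cpt (a y)) (h0 : ∀ ε > 0, {y | ε < ‖a y‖}.Finite) :
    Cpt (dg a) := by
  classical
  have hb : Bdd a := by
    obtain ⟨C, hC⟩ := ((h0 1 one_pos).image fun y => ‖a y‖).bddAbove
    refine ⟨max C 1, fun y => ?_⟩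
    by_cases hy : 1 < ‖a y‖
    · exact (hC ⟨y, hy, rfl⟩).trans (le_max_left _ _)
    · exact (not_lt.1 hy).trans (le_max_right _ _)
  refine Cpt.of_approx fun ε hε => ?_
  set F := (h0 ε hε).toFinset with hF
  have hb' : Bdd (fun y => if y ∈ F then a y else 0) := by
    obtain ⟨C, hC⟩ := hb
    refine ⟨|C|, fun y => ?_⟩
    beta_reduce
    split_ifs
    · exact (hC y).trans (le_abs_self _)
    · rw [norm_zero]; exact abs_nonneg _
  refine ⟨dg (fun y => if y ∈ F then a y else 0), ?_, ?_⟩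
  · rw [dg_finset]
    exact Cpt.sum _ _ fun y _ => ((h y).comp_right _).comp_left _
  · rw [← dg_sub hb hb']
    refine norm_dg_le hε.le fun y => ?_
    split_ifs with hy
    · rw [sub_self, norm_zero]; exact hε.le
    · rw [sub_zero]
      by_contra h1
      exact hy ((h0 ε hε).mem_toFinset.2 (not_le.1 h1))

/-- The amplification `1 ⊗ F`. -/
noncomputable def amp (Y : Type) (F : OpN) : LP Y →L[ℂ] LP Y := dg fun _ : Y => F

theorem slice_amp (F : OpN) (y : Y) : slice y ∘L amp Y F = F ∘L slice y :=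
  slice_dg (Bdd.const F) y

theorem amp_inc (F : OpN) (y : Y) : amp Y F ∘L inc y = inc y ∘L F := dg_inc (Bdd.const F) y

theorem amp_mul (F G : OpN) : amp Y (F * G) = amp Y F * amp Y G :=
  dg_mul (Bdd.const F) (Bdd.const G)

theorem amp_add (F G : OpN) : amp Y (F + G) = amp Y F + amp Y G :=
  dg_add (Bdd.const F) (Bdd.const G)

theorem amp_sub (F G : OpN) : amp Y (F - G) = amp Y F - amp Y G :=
  dg_sub (Bdd.const F) (Bdd.const G)

theorem amp_star (F : OpN) : amp Y (star F) = star (amp Y F) := dg_star (Bdd.const F)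

theorem amp_one : amp Y 1 = 1 := dg_one

theorem amp_zero : amp Y 0 = 0 := dg_zero

theorem norm_amp_le' (F : OpN) : ‖amp Y F‖ ≤ ‖F‖ := norm_dg_le (norm_nonneg _) fun _ => le_rfl

theorem continuous_amp : Continuous (amp Y) := by
  refine (LipschitzWith.of_dist_le_mul (K := 1) fun F G => ?_).continuous
  rw [dist_eq_norm, dist_eq_norm, ← amp_sub, NNReal.coe_one, one_mul]
  exact norm_amp_le' _

theorem bl_amp [DecidableEq Y] (F : OpN) (y z : Y) :
    bl (amp Y F) y z = if y = z then F else 0 := bl_dg (Bdd.const F) y z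

theorem bl_amp_mul (F : OpN) (T : LP Y →L[ℂ] LP Y) (y z : Y) :
    bl (amp Y F * T) y z = F * bl T y z := bl_dg_mul (Bdd.const F) T y z

theorem bl_mul_amp (F : OpN) (T : LP Y →L[ℂ] LP Y) (y z : Y) :
    bl (T * amp Y F) y z = bl T y z * F := bl_mul_dg (Bdd.const F) T y z

/-- A compression to finitely many rows. -/
theorem proj_mul_eq_sum {E : Type} [NormedAddCommGroup E] [NormedSpace ℂ E]
    (N : E →L[ℂ] LP Y) (S : Set Y) (F : Finset Y)
    (hF : ∀ y ∈ F, y ∈ S) (h : ∀ y ∈ S, y ∉ F → slice y ∘L N = 0) :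
    proj (Prod.fst ⁻¹' S) ∘L N = ∑ y ∈ F, inc y ∘L slice y ∘L N := by
  refine slice_ext fun z => ?_
  rw [comp_finsetSum, ← comp_assoc]
  by_cases hz : z ∈ F
  · rw [slice_proj_mem (hF z hz), Finset.sum_eq_single_of_mem z hz]
    · rw [← comp_assoc, slice_inc_self]
      rfl
    · intro y _ hy
      rw [← comp_assoc, slice_inc_ne hy.symm, zero_comp]
  · have h1 : ∑ y ∈ F, slice z ∘L inc y ∘L slice y ∘L N = 0 := by
      refine Finset.sum_eq_zero fun y hy => ?_
      rw [← comp_assoc, slice_inc_ne (show z ≠ y from fun e => hz (e ▸ hy)), zero_comp]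
    rw [h1]
    by_cases hS : z ∈ S
    · rw [slice_proj_mem hS, h z hS hz]
    · rw [slice_proj_not_mem hS, zero_comp]

end Vale.Agent.P212Z
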