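import Vale.Agent.P212Z.Final

/-! From the working model to the definitions of the statement. -/

set_option linter.unusedSectionVars false

namespace Vale.Agent.P212Z

open Vale.Agent.P212 Vale.Agent.P212.H268 ZeroAtInfty Matrix
open ContinuousLinearMap hiding proj

section Pres

variable {S G : Type*} {E : S → S → Prop} {D : S → S → S → Prop} [AddCommGroup G]

/-- The homomorphism given by its values on the generators. -/
def Pres.lift (f : S → G) (hE : ∀ a b, E a b → f a = f b)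
    (hD : ∀ a b c, D a b c → f c = f a + f b) : Pres E D →+ G :=
  QuotientAddGroup.lift _ (FreeAbelianGroup.lift f) ((AddSubgroup.closure_le _).2 (by
    rintro _ (⟨a, b, h, rfl⟩ | ⟨a, b, c, h, rfl⟩)
    · simp [hE a b h]
    · simp [hD a b c h]))

theorem Pres.lift_of (f : S → G) (hE : ∀ a b, E a b → f a = f b)
    (hD : ∀ a b c, D a b c → f c = f a + f b) (a : S) :
    Pres.lift f hE hD (Pres.of E D a) = f a :=
  FreeAbelianGroup.lift_apply_of f a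

theorem Pres.hom_ext {f g : Pres E D →+ G} (h : ∀ a, f (Pres.of E D a) = g (Pres.of E D a)) :
    f = g :=
  QuotientAddGroup.addMonoidHom_ext _ (FreeAbelianGroup.lift_ext _ _ h)

end Pres

section Cyc

variable {A B : Type} [NonUnitalCStarAlgebra A] [NonUnitalCStarAlgebra B] {H : Type}
  [NormedAddCommGroup H] [InnerProductSpace ℂ H] [CompleteSpace H]

/-- The cycle of a Fredholm module. -/
noncomputable def ofF (c : Kas.Fredholm A H) : Cycle A :=
  ⟨@GradedRep.mk A _ H _ _ _ c.prop.separable c.γ c.prop.γ_star c.prop.γ_sq c.ρ c.prop.even, c.F,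
    ⟨c.prop.odd, c.prop.sq, c.prop.sa, c.prop.comm⟩⟩

/-- The cycle in the working model. -/
noncomputable def toOld (c : Kas.Cyc A) : Cycle A :=
  @ofF A _ c.H c.nacg c.ips c.cs c.fm

/-- The cycle in the model of the statement. -/
noncomputable def ofOld (c : Cycle A) : Kas.Cyc A :=
  ⟨c.M.H, ⟨c.M.γ, c.M.ρ, c.F, ⟨c.M.separable, c.M.γ_star, c.M.γ_sq, c.M.even, c.fredholm.odd,
    c.fredholm.sq, c.fredholm.sa, c.fredholm.comm⟩⟩⟩

theorem toOld_ofOld (c : Cycle A) : toOld (ofOld c) = c := rfl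

theorem KK.rel {z : FreeAbelianGroup (Cycle A)} (h : z ∈ KKRel A) :
    (QuotientAddGroup.mk z : KK A) = 0 :=
  (QuotientAddGroup.eq_zero_iff _).2 (AddSubgroup.subset_closure h)

theorem fred_of {a c : Kas.Fredholm A H} (h1 : c.γ = a.γ) (h2 : c.ρ = a.ρ) :
    IsFredholm (ofF a).M c.F := by
  have h := c.prop
  rw [h1, h2] at h
  exact ⟨h.odd, h.sq, h.sa, h.comm⟩

theorem ofF_eq {a c : Kas.Fredholm A H} (h1 : c.γ = a.γ) (h2 : c.ρ = a.ρ) :
    ofF c = ⟨(ofF a).M, c.F, fred_of h1 h2⟩ := by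
  obtain ⟨γ, ρ, F, h⟩ := c
  dsimp only at h1 h2
  subst h1 h2
  rfl

theorem cls_sim : ∀ a b : Kas.Cyc A, a.Sim b → KK.cls (toOld a) = KK.cls (toOld b) := by
  rintro _ _ (⟨a, b, u, h1, h2⟩ | ⟨_, _, c, rfl, rfl, h1, h2⟩) <;> rw [← sub_eq_zero]
  · exact KK.rel (Or.inl (Or.inl ⟨ofF a, ofF b, u, ⟨h1.iso, h1.γ, h1.ρ, h1.F⟩, h2, rfl⟩))
  · refine KK.rel (Or.inl (Or.inr ⟨(ofF (c 0)).M, ⟨fun t => (c t).F, h2⟩,
      fun t => fred_of (h1 t).1 (h1 t).2, ?_⟩))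
    exact congrArg (fun z => FreeAbelianGroup.of (ofF (c 0)) - FreeAbelianGroup.of z)
      (ofF_eq (h1 1).1 (h1 1).2)

theorem cls_sum : ∀ a b c : Kas.Cyc A, a.IsSum b c →
    KK.cls (toOld c) = KK.cls (toOld a) + KK.cls (toOld b) := by
  rintro _ _ _ ⟨a, b, c, v, w, h1, h2, h3⟩
  rw [← sub_eq_zero, ← sub_sub]
  exact KK.rel (Or.inr ⟨ofF a, ofF b, ofF c, v, w, ⟨h1.iso, h1.γ, h1.ρ, h1.F⟩,
    ⟨h2.iso, h2.γ, h2.ρ, h2.F⟩, h3, rfl⟩)

variable (A) in
/-- The comparison map. -/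
noncomputable def kkTo : Kas.KK A →+ KK A := Pres.lift (fun c => KK.cls (toOld c)) cls_sim cls_sum

theorem kkTo_of (c : Kas.Cyc A) : kkTo A (Pres.of _ _ c) = KK.cls (toOld c) :=
  Pres.lift_of _ _ _ c

theorem kkTo_comap (φ : B →⋆ₙₐ[ℂ] A) :
    (kkTo B).comp (Kas.KK.comap φ) = (KK.comap φ).comp (kkTo A) := Pres.hom_ext fun c => by
  rw [AddMonoidHom.comp_apply, AddMonoidHom.comp_apply, kkTo_of, KK.comap_cls, Kas.KK.comap,
    Pres.map_of, kkTo_of]
  rfl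

end Cyc

section KX

variable {X : Type} [MetricSpace X] [BddGeometry X]

variable (X) in
/-- The comparison map. -/
noncomputable def kxTo : Kas.KX0 X →+ KX0 X :=
  AddCommGroup.DirectLimit.map (fun r => kkTo C₀(Rips X r, ℂ))
    fun _ _ h => kkTo_comap (ripsRes h)

theorem kxTo_cls (r : ℝ) (c : Kas.Cyc C₀(Rips X r, ℂ)) :
    kxTo X (Kas.KX0.cls r c) = KX0.cls r (toOld c) :=
  (AddCommGroup.DirectLimit.map_apply_of _ _ _).trans (congrArg _ (kkTo_of c))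

theorem Kas.KX0.hom_ext {G : Type*} [AddCommGroup G] {f g : Kas.KX0 X →+ G}
    (h : ∀ r c, f (Kas.KX0.cls r c) = g (Kas.KX0.cls r c)) : f = g :=
  AddCommGroup.DirectLimit.hom_ext _ fun r => Pres.hom_ext fun c => h r c

end KX

section Idx

variable {R S A : Type} [Ring R] [Ring S] [NonUnitalCStarAlgebra A]

theorem indexE_map (ψ : R →+* S) (p₀ p₁ T U : R) :
    (indexE p₀ p₁ T U).map ψ = indexE (ψ p₀) (ψ p₁) (ψ T) (ψ U) := by
  unfold indexE
  rw [Matrix.map_mul, Matrix.map_mul]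
  congr 1
  · congr 1 <;> ext a b <;> fin_cases a <;> fin_cases b <;> simp [map_ofNat]
  · ext a b
    fin_cases a <;> fin_cases b <;> simp [map_ofNat]

theorem diffIdem_map (ψ : R →+* S) (i : S → A) (e f : Matrix (Fin 2) (Fin 2) R) :
    diffIdem i (e.map ψ) (f.map ψ) = diffIdem (fun T => i (ψ T)) e f := by
  unfold diffIdem
  congr 1
  rw [← Matrix.map_one ψ (map_zero ψ) (map_one ψ), ← Matrix.map_sub _ (map_sub ψ),
    ← Matrix.map_sub _ (map_sub ψ), ← Matrix.map_zero ψ (map_zero ψ), ← fromBlocks_map,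
    ← fromBlocks_map, ← Matrix.map_mul, ← Matrix.map_mul, Matrix.map_map]
  rfl

theorem IsIndex.map (ψ : R →+* S) {i : S → A} {p₀ p₁ Φ : R} {z : KC A}
    (h : IsIndex i (ψ p₀) (ψ p₁) (ψ Φ) z) : IsIndex (fun T => i (ψ T)) p₀ p₁ Φ z := by
  obtain ⟨D, O, hD, hO, h1, h2⟩ := h
  refine ⟨D, O, hD, hO, h1.trans ?_, h2⟩
  rw [← diffIdem_map, indexE_map, map_mul, map_mul, map_mul, map_mul]
  congr 1
  ext a b
  fin_cases a <;> fin_cases b <;> simp

theorem IsIndex.unique {i : R → A} {p₀ p₁ Φ : R} {z z' : KC A} (h : IsIndex i p₀ p₁ Φ z)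
    (h' : IsIndex i p₀ p₁ Φ z') : z = z' := by
  obtain ⟨D, O, hD, hO, e1, e2, e3⟩ := h
  obtain ⟨D', O', hD', hO', e1', e2', e3'⟩ := h'
  refine Subtype.ext (e3.trans (Eq.trans ?_ e3'.symm))
  rw [KZero.cls_congr hD hD' (e1.trans e1'.symm), KZero.cls_congr hO hO' (e2.trans e2'.symm)]

end Idx

section Amp

variable {H K E : Type} [NormedAddCommGroup H] [InnerProductSpace ℂ H] [CompleteSpace H]
  [NormedAddCommGroup K] [InnerProductSpace ℂ K] [CompleteSpace K]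
  [NormedAddCommGroup E] [InnerProductSpace ℂ E] [CompleteSpace E]

theorem repr_basis {J : Type} (b : HilbertBasis J ℂ H) (j : J) : b.repr (b j) = stdB J j := by
  rw [stdB_apply]
  exact @HilbertBasis.repr_self _ _ _ _ _ _ (fun a b => Classical.propDecidable (a = b)) b j

theorem inner_repr {J : Type} (b : HilbertBasis J ℂ H) (T : H →L[ℂ] H) (j k : J) :
    inner ℂ (stdBasis J j) (b.repr.conjStarAlgEquiv T (stdBasis J k)) =
      inner ℂ (b j) (T (b k)) := by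
  change inner ℂ (stdB J j) (b.repr (T (b.repr.symm (stdB J k)))) = _
  rw [← repr_basis b, ← repr_basis b, LinearIsometryEquiv.symm_apply_apply,
    LinearIsometryEquiv.inner_map_map]

theorem entries_iff {X : Type} (b : HilbertBasis (X × ℕ) ℂ H) (e : HilbertBasis ℕ ℂ K)
    (T : H →L[ℂ] H) {M : X → X → K →L[ℂ] K} {M' : X → X → L2 ℕ →L[ℂ] L2 ℕ}
    (h : ∀ x y, e.repr.conjStarAlgEquiv (M x y) = M' x y) :
    Kas.HasEntries b e T M ↔ HasEntries (b.repr.conjStarAlgEquiv T) M' := by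
  refine forall₄_congr fun x y m n => ?_
  rw [inner_repr, ← h, inner_repr]

theorem conj_sandwich (V : K ≃ₗᵢ[ℂ] L2 ℕ) (w : E →L[ℂ] K) (T : E →L[ℂ] E) :
    V.conjStarAlgEquiv (w ∘L T ∘L Kas.adj w) =
      ((V : K →L[ℂ] L2 ℕ) ∘L w) ∘L T ∘L adjoint ((V : K →L[ℂ] L2 ℕ) ∘L w) := by
  rw [adjoint_comp, V.adjoint_eq_symm]
  rfl

theorem amp_iff {X : Type} [MetricSpace X] [BddGeometry X] {r : ℝ}
    (b : HilbertBasis (X × ℕ) ℂ H) (e : HilbertBasis ℕ ℂ K)
    (c : Kas.Fredholm C₀(Rips X r, ℂ) E) (w : E →L[ℂ] K) (p₀ p₁ Φ : H →L[ℂ] H) :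
    Kas.IsAmplification b e (bary r) c w p₀ p₁ Φ ↔
      IsAmplification (ofF c) ((e.repr : K →L[ℂ] L2 ℕ) ∘L w) (b.repr.conjStarAlgEquiv p₀)
        (b.repr.conjStarAlgEquiv p₁) (b.repr.conjStarAlgEquiv Φ) := by
  classical
  have h0 : adjoint ((e.repr : K →L[ℂ] L2 ℕ) ∘L w) ∘L ((e.repr : K →L[ℂ] L2 ℕ) ∘L w) =
      Kas.adj w ∘L w := by
    rw [adjoint_comp, e.repr.adjoint_eq_symm]
    ext1 ξ
    exact congrArg (adjoint w) (e.repr.symm_apply_apply (w ξ))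
  have h1 := fun T (M : X → X → E →L[ℂ] E) =>
    entries_iff b e T fun x y => conj_sandwich e.repr w (M x y)
  have h2 := entries_iff b e Φ (M := fun x y => if x = y then w ∘L c.F ∘L Kas.adj w else 0)
    (M' := fun x y => if x = y then ((e.repr : K →L[ℂ] L2 ℕ) ∘L w) ∘L c.F ∘L
      adjoint ((e.repr : K →L[ℂ] L2 ℕ) ∘L w) else 0) fun x y => by
    split_ifs
    · exact conj_sandwich _ _ _
    · exact map_zero _
  exact ⟨fun h => ⟨h0.trans h.iso, (h1 _ _).1 h.even, (h1 _ _).1 h.odd, h2.1 h.op⟩,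
    fun h => ⟨h0.symm.trans h.1, (h1 _ _).2 h.2.1, (h1 _ _).2 h.2.2.1, h2.2 h.2.2.2⟩⟩

end Amp

section Main

variable {X H A : Type} [MetricSpace X] [BddGeometry X] [NormedAddCommGroup H]
  [InnerProductSpace ℂ H] [CompleteSpace H] [NonUnitalCStarAlgebra A]
  {b : HilbertBasis (X × ℕ) ℂ H} {i : (H →L[ℂ] H) → A}

theorem cpl_of (h : IsRoeCompletion b i) :
    H35.Cpl fun T : BX X => i (b.repr.symm.conjStarAlgEquiv T) := by
  have hU : ∀ j, b.repr (b j) = stdB (X × ℕ) (Equiv.refl _ j) := repr_basis b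
  have hU' : ∀ j, b.repr.symm (stdB (X × ℕ) j) = b (Equiv.refl _ j) := fun j =>
    b.repr.symm_apply_eq.2 (hU j).symm
  have hR : ∀ T : BX X, IsRoe (gX X) T → IsRoeOp b (b.repr.symm.conjStarAlgEquiv T) :=
    fun T hT => H35.isRoeOp_conj (fun _ => rfl) hU' ((isRoeOp_iff T).2 hT)
  refine ⟨fun S T hS hT => ?_, h.2.1.mono ?_, fun T hT => ?_⟩
  · have h1 := h.1 _ _ (hR S hS) (hR T hT)
    simp only [map_add, map_mul, map_star, map_smul]
    exact h1
  · rintro _ ⟨T, hT, rfl⟩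
    exact ⟨_, (isRoeOp_iff _).1 (H35.isRoeOp_conj (fun _ => rfl) hU hT),
      congrArg i (H35.conj_symm_conj T)⟩
  · exact (StarAlgEquiv.norm_map b.repr.symm.conjStarAlgEquiv T).symm.le.trans (h.2.2 _ (hR T hT))

theorem isAssembly_of {μ : KX0 X →+ KCStar A}
    (h : IsAssembly (fun T : BX X => i (b.repr.symm.conjStarAlgEquiv T)) μ) :
    Kas.IsAssembly b i (μ.comp (kxTo X)) := by
  intro r E K _ _ _ _ _ _ e c
  refine ⟨?_, fun w p₀ p₁ Φ hw => ?_⟩
  · obtain ⟨w, p₀, p₁, Φ, hw⟩ := (h r (ofF c)).1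
    refine ⟨(e.repr.symm : L2 ℕ →L[ℂ] K) ∘L w, b.repr.symm.conjStarAlgEquiv p₀,
      b.repr.symm.conjStarAlgEquiv p₁, b.repr.symm.conjStarAlgEquiv Φ, (amp_iff ..).2 ?_⟩
    have h1 : (e.repr : K →L[ℂ] L2 ℕ) ∘L (e.repr.symm : L2 ℕ →L[ℂ] K) ∘L w = w :=
      ContinuousLinearMap.ext fun ξ => e.repr.apply_symm_apply (w ξ)
    rw [H35.conj_conj_symm, H35.conj_conj_symm, H35.conj_conj_symm]
    exact h1.symm ▸ hw
  · have h1 := IsIndex.map (b.repr.conjStarAlgEquiv : (H →L[ℂ] H) →+* BX X)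
      (z := μ (KX0.cls r (ofF c))) ((h r (ofF c)).2 _ _ _ _ ((amp_iff ..).1 hw))
    have h2 : (fun T => i (b.repr.symm.conjStarAlgEquiv (b.repr.conjStarAlgEquiv T))) = i :=
      funext fun T => congrArg i (H35.conj_symm_conj T)
    have h3 : (μ.comp (kxTo X)) (Kas.KX0.cls r ⟨E, c⟩) = μ (KX0.cls r (ofF c)) :=
      congrArg μ (kxTo_cls r _)
    exact h3.symm ▸ h2 ▸ h1

theorem Kas.IsAssembly.unique {μ μ' : Kas.KX0 X →+ KC A} (h : Kas.IsAssembly b i μ)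
    (h' : Kas.IsAssembly b i μ') : μ = μ' := by
  refine Kas.KX0.hom_ext fun r c => ?_
  obtain ⟨E, c⟩ := c
  obtain ⟨w, p₀, p₁, Φ, hw⟩ := (h r E _ (stdB ℕ) c).1
  exact ((h r E _ (stdB ℕ) c).2 w p₀ p₁ Φ hw).unique ((h' r E _ (stdB ℕ) c).2 w p₀ p₁ Φ hw)

end Main

theorem kasparov : ∃ (X : Type) (_ : MetricSpace X) (_ : BddGeometry X) (_ : UnifDiscrete X),
    (∃ (H A : Type) (_ : NormedAddCommGroup H) (_ : InnerProductSpace ℂ H)
      (_ : CompleteSpace H) (_ : NonUnitalCStarAlgebra A) (b : HilbertBasis (X × ℕ) ℂ H)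
      (i : (H →L[ℂ] H) → A), IsMaxRoe b i) ∧
    (∃ (H A : Type) (_ : NormedAddCommGroup H) (_ : InnerProductSpace ℂ H)
      (_ : CompleteSpace H) (_ : NonUnitalCStarAlgebra A) (b : HilbertBasis (X × ℕ) ℂ H)
      (i : (H →L[ℂ] H) → A), IsReducedRoe b i) ∧
    ∀ (H A : Type) [NormedAddCommGroup H] [InnerProductSpace ℂ H] [CompleteSpace H]
      [NonUnitalCStarAlgebra A] (b : HilbertBasis (X × ℕ) ℂ H) (i : (H →L[ℂ] H) → A),
      IsMaxRoe b i ∨ IsReducedRoe b i →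
      ∃ μ : Kas.KX0 X →+ KC A, Kas.IsAssembly b i μ ∧
        (∀ μ', Kas.IsAssembly b i μ' → μ' = μ) ∧ ¬ RatInj μ ∧ BigKer μ := by
  obtain ⟨τ⟩ := exists_tower
  refine ⟨XT τ, inferInstance, inferInstance, inferInstance,
    ⟨_, _, _, _, inferInstance, inferInstance, _, _, isMaxRoe_model⟩,
    ⟨_, _, _, _, inferInstance, inferInstance, _, H35.redF (XT τ), H35.exists_reduced (XT τ)⟩,
    fun H A _ _ _ _ b i h => ?_⟩
  have hi := cpl_of (h.elim isRoeCompletion_of_isMaxRoe isRoeCompletion_of_isReducedRoe)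
  have h1 := isAssembly_of (isAssembly_mu hi.hom)
  obtain ⟨ι, hι⟩ := exists_inj_real
  have h2 : ∀ a, kxTo (XT τ) (Kas.KX0.cls 2 (ofOld (wit τ (seg (ι a))))) =
      KX0.cls 2 (wit τ (seg (ι a))) := fun a => kxTo_cls 2 _
  have h3 : LinearIndependent ℤ fun a => Kas.KX0.cls 2 (ofOld (wit τ (seg (ι a)))) := by
    refine LinearIndependent.of_comp (kxTo (XT τ)).toIntLinearMap ?_
    have h4 : ⇑(kxTo (XT τ)).toIntLinearMap ∘ (fun a => Kas.KX0.cls 2 (ofOld (wit τ (seg (ι a))))) =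
        (fun α => KX0.cls 2 (wit τ (seg α))) ∘ ι := funext h2
    rw [h4]
    exact (indep_wit τ).comp ι hι
  have h4 : ∀ a, ((mu hi.hom).comp (kxTo (XT τ))) (Kas.KX0.cls 2 (ofOld (wit τ (seg (ι a))))) =
      0 := fun a => (congrArg (mu hi.hom) (h2 a)).trans (mu_wit τ _ hi)
  refine ⟨_, h1, fun μ' h' => h'.unique h1, not_inj_rat _ _ (h4 0) fun n hn => ?_, _, h3, h4⟩
  exact linearIndependent_iff'.1 h3 {0} (fun _ => n) (by rw [Finset.sum_singleton]; exact hn) 0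
    (Finset.mem_singleton_self _)

end Vale.Agent.P212Z
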