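import Vale.Agent.P212.Bdl.B2

/-! Compact operators, the Calkin quotient, and conjugation by isometries. -/

set_option linter.unusedSectionVars false

namespace Vale.Agent.P212Z

open Vale.Agent.P212 ContinuousLinearMap Filter Topology

section Cpt

variable {E F G : Type} [NormedAddCommGroup E] [NormedSpace ℂ E] [NormedAddCommGroup F]
  [NormedSpace ℂ F] [NormedAddCommGroup G] [NormedSpace ℂ G]

/-- Compactness of a bounded operator. -/
def Cpt (T : E →L[ℂ] F) : Prop := IsCompactOperator T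

theorem Cpt.zero : Cpt (0 : E →L[ℂ] F) := isCompactOperator_zero

theorem Cpt.add {S T : E →L[ℂ] F} (hS : Cpt S) (hT : Cpt T) : Cpt (S + T) :=
  IsCompactOperator.add hS hT

theorem Cpt.neg {S : E →L[ℂ] F} (hS : Cpt S) : Cpt (-S) := IsCompactOperator.neg hS

theorem Cpt.sub {S T : E →L[ℂ] F} (hS : Cpt S) (hT : Cpt T) : Cpt (S - T) :=
  IsCompactOperator.sub hS hT

theorem Cpt.smul {S : E →L[ℂ] F} (hS : Cpt S) (c : ℂ) : Cpt (c • S) := IsCompactOperator.smul hS c

theorem Cpt.comp_left {T : E →L[ℂ] F} (hT : Cpt T) (S : F →L[ℂ] G) : Cpt (S ∘L T) :=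
  IsCompactOperator.clm_comp hT S

theorem Cpt.comp_right {T : F →L[ℂ] G} (hT : Cpt T) (S : E →L[ℂ] F) : Cpt (T ∘L S) :=
  IsCompactOperator.comp_clm hT S

theorem Cpt.mul_left {T : E →L[ℂ] E} (hT : Cpt T) (S : E →L[ℂ] E) : Cpt (S * T) :=
  hT.comp_left S

theorem Cpt.mul_right {T : E →L[ℂ] E} (hT : Cpt T) (S : E →L[ℂ] E) : Cpt (T * S) :=
  hT.comp_right S

theorem Cpt.sum {ι : Type} (s : Finset ι) (T : ι → E →L[ℂ] F) (h : ∀ i ∈ s, Cpt (T i)) :
    Cpt (∑ i ∈ s, T i) := by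
  classical
  induction s using Finset.induction_on with
  | empty => rw [Finset.sum_empty]; exact Cpt.zero
  | insert a s ha ih =>
    rw [Finset.sum_insert ha]
    exact (h a (Finset.mem_insert_self _ _)).add
      (ih fun i hi => h i (Finset.mem_insert_of_mem hi))

theorem isClosed_cpt [CompleteSpace F] : IsClosed {T : E →L[ℂ] F | Cpt T} :=
  isClosed_setOfPred_isCompactOperator

theorem Cpt.of_approx [CompleteSpace F] {T : E →L[ℂ] F}
    (h : ∀ ε > 0, ∃ S : E →L[ℂ] F, Cpt S ∧ ‖T - S‖ ≤ ε) : Cpt T := by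
  refine isClosed_cpt.closure_subset (Metric.mem_closure_iff.2 fun ε hε => ?_)
  obtain ⟨S, hS, hTS⟩ := h (ε / 2) (half_pos hε)
  exact ⟨S, hS, by rw [dist_eq_norm]; linarith⟩

/-- The ideal of compact operators. -/
noncomputable def cptI (E : Type) [NormedAddCommGroup E] [NormedSpace ℂ E] :
    TwoSidedIdeal (E →L[ℂ] E) :=
  TwoSidedIdeal.mk' {T | Cpt T} Cpt.zero Cpt.add Cpt.neg (fun h => Cpt.mul_left h _)
    (fun h => Cpt.mul_right h _)

/-- The quotient map to the Calkin algebra. -/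
noncomputable def calk (E : Type) [NormedAddCommGroup E] [NormedSpace ℂ E] :
    (E →L[ℂ] E) →+* (cptI E).ringCon.Quotient := RingCon.mk' _

theorem calk_eq_iff {S T : E →L[ℂ] E} : calk E S = calk E T ↔ Cpt (S - T) := by
  change ((S : (cptI E).ringCon.Quotient) = T) ↔ _
  rw [RingCon.eq, TwoSidedIdeal.rel_iff, cptI, TwoSidedIdeal.mem_mk']
  rfl

theorem calk_eq_zero_iff {S : E →L[ℂ] E} : calk E S = 0 ↔ Cpt S := by
  rw [← map_zero (calk E), calk_eq_iff, sub_zero]

end Cpt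

section Hilb

variable {E F G : Type} [NormedAddCommGroup E] [InnerProductSpace ℂ E] [CompleteSpace E]
  [NormedAddCommGroup F] [InnerProductSpace ℂ F] [CompleteSpace F]
  [NormedAddCommGroup G] [InnerProductSpace ℂ G] [CompleteSpace G]

theorem Cpt.star {T : E →L[ℂ] E} (hT : Cpt T) : Cpt (star T) := isCompactOperator_star hT

theorem Cpt.of_star {T : E →L[ℂ] E} (hT : Cpt (Star.star T)) : Cpt T := by
  have h := hT.star
  rwa [star_star] at h

/-- Conjugation by `w`. -/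
noncomputable def cj (w : E →L[ℂ] F) (T : E →L[ℂ] E) : F →L[ℂ] F := w ∘L T ∘L adjoint w

theorem cj_add (w : E →L[ℂ] F) (S T : E →L[ℂ] E) : cj w (S + T) = cj w S + cj w T := by
  unfold cj
  rw [add_comp, comp_add]

theorem cj_sub (w : E →L[ℂ] F) (S T : E →L[ℂ] E) : cj w (S - T) = cj w S - cj w T := by
  unfold cj
  rw [sub_comp, comp_sub]

theorem cj_smul (w : E →L[ℂ] F) (c : ℂ) (T : E →L[ℂ] E) : cj w (c • T) = c • cj w T := by
  unfold cj
  rw [smul_comp, comp_smul]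

theorem cj_zero (w : E →L[ℂ] F) : cj w 0 = 0 := by
  unfold cj
  rw [zero_comp, comp_zero]

theorem cj_neg (w : E →L[ℂ] F) (T : E →L[ℂ] E) : cj w (-T) = -cj w T := by
  unfold cj
  rw [neg_comp, comp_neg]

theorem cj_star (w : E →L[ℂ] F) (T : E →L[ℂ] E) : cj w (star T) = star (cj w T) := by
  unfold cj
  rw [star_eq_adjoint, star_eq_adjoint, adjoint_comp, adjoint_comp, adjoint_adjoint, comp_assoc]

theorem iso_apply {w : E →L[ℂ] F} (hw : adjoint w ∘L w = 1) (x : E) : adjoint w (w x) = x :=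
  congrArg (fun T : E →L[ℂ] E => T x) hw

theorem cj_mul {w : E →L[ℂ] F} (hw : adjoint w ∘L w = 1) (S T : E →L[ℂ] E) :
    cj w (S * T) = cj w S * cj w T := by
  ext x
  simp only [cj, mul_apply_eq_comp, comp_apply, iso_apply hw]

theorem cj_comp (w : F →L[ℂ] G) (v : E →L[ℂ] F) (T : E →L[ℂ] E) :
    cj (w ∘L v) T = cj w (cj v T) := by
  unfold cj
  rw [adjoint_comp]
  rfl

theorem iso_comp {w : F →L[ℂ] G} {v : E →L[ℂ] F} (hw : adjoint w ∘L w = 1)
    (hv : adjoint v ∘L v = 1) : adjoint (w ∘L v) ∘L (w ∘L v) = 1 := by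
  ext x
  simp only [adjoint_comp, comp_apply, iso_apply hw, iso_apply hv, one_apply_eq_self]

theorem cj_comp_iso {w : E →L[ℂ] F} (hw : adjoint w ∘L w = 1) (T : E →L[ℂ] E) :
    cj w T ∘L w = w ∘L T := by
  ext x
  simp only [cj, comp_apply, iso_apply hw]

theorem adj_comp_cj {w : E →L[ℂ] F} (hw : adjoint w ∘L w = 1) (T : E →L[ℂ] E) :
    adjoint w ∘L cj w T = T ∘L adjoint w := by
  ext x
  simp only [cj, comp_apply, iso_apply hw]

theorem Cpt.cj {T : E →L[ℂ] E} (hT : Cpt T) (w : E →L[ℂ] F) : Cpt (cj w T) :=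
  (hT.comp_right _).comp_left w

theorem norm_iso_le {w : E →L[ℂ] F} (hw : adjoint w ∘L w = 1) : ‖w‖ ≤ 1 := by
  have h1 := norm_adjoint_comp_self w
  rw [hw] at h1
  have h2 : ‖(1 : E →L[ℂ] E)‖ ≤ 1 := norm_id_le
  nlinarith [norm_nonneg w]

theorem norm_cj_le {w : E →L[ℂ] F} (hw : ‖w‖ ≤ 1) (T : E →L[ℂ] E) : ‖cj w T‖ ≤ ‖T‖ := by
  unfold cj
  have h1 : ‖adjoint w‖ ≤ 1 := by rw [LinearIsometryEquiv.norm_map]; exact hw
  calc ‖w ∘L T ∘L adjoint w‖ ≤ ‖w‖ * (‖T‖ * ‖adjoint w‖) :=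
        (opNorm_comp_le _ _).trans (mul_le_mul_of_nonneg_left (opNorm_comp_le _ _) (norm_nonneg _))
    _ ≤ 1 * (‖T‖ * 1) := by gcongr
    _ = ‖T‖ := by ring

theorem continuous_cj (w : E →L[ℂ] F) : Continuous (cj w) := by
  unfold cj
  exact (continuous_id.clm_comp continuous_const).const_clm_comp w

/-- Conjugation by an isometry as a *-homomorphism. -/
noncomputable def cjHom (w : E →L[ℂ] F) (hw : adjoint w ∘L w = 1) :
    (E →L[ℂ] E) →⋆ₙₐ[ℂ] (F →L[ℂ] F) where
  toFun := cj w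
  map_smul' := cj_smul w
  map_zero' := cj_zero w
  map_add' := cj_add w
  map_mul' := cj_mul hw
  map_star' := cj_star w

/-- If `T' v = v T` and `v` is unitary then `T' = v T v*`. -/
theorem eq_cj_of_intertw {v : E →L[ℂ] F} (hv : v ∘L adjoint v = 1) {T : E →L[ℂ] E}
    {T' : F →L[ℂ] F} (h : T' ∘L v = v ∘L T) : T' = cj v T := by
  unfold cj
  rw [← comp_assoc, ← h, comp_assoc, hv]
  rfl

/-- The same for direct sums. -/
theorem eq_cj_add_of_intertw {v : E →L[ℂ] G} {w : F →L[ℂ] G}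
    (hvw : v ∘L adjoint v + w ∘L adjoint w = 1) {T : E →L[ℂ] E} {S : F →L[ℂ] F}
    {T' : G →L[ℂ] G} (h : T' ∘L v = v ∘L T) (h' : T' ∘L w = w ∘L S) :
    T' = cj v T + cj w S := by
  unfold cj
  rw [← comp_assoc, ← comp_assoc, ← h, ← h', comp_assoc, comp_assoc, ← comp_add, hvw]
  rfl

theorem orth_of_sum {v : E →L[ℂ] G} {w : F →L[ℂ] G} (hv : adjoint v ∘L v = 1)
    (hw : adjoint w ∘L w = 1) (hvw : v ∘L adjoint v + w ∘L adjoint w = 1) :
    adjoint v ∘L w = 0 := by
  ext x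
  have h := congrArg (fun T : G →L[ℂ] G => adjoint v (T (w x))) hvw
  simp only [add_apply, comp_apply, map_add, iso_apply hv, iso_apply hw, one_apply_eq_self] at h
  simpa using h

theorem cj_mul_cj_of_orth {v : E →L[ℂ] G} {w : F →L[ℂ] G} (h : adjoint v ∘L w = 0)
    (T : E →L[ℂ] E) (S : F →L[ℂ] F) : cj v T * cj w S = 0 := by
  ext x
  have h1 : ∀ y, adjoint v (w y) = 0 := fun y => congrArg (fun T : F →L[ℂ] E => T y) h
  simp only [cj, mul_apply_eq_comp, comp_apply, h1, map_zero, zero_apply]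

theorem orth_symm {v : E →L[ℂ] G} {w : F →L[ℂ] G} (h : adjoint v ∘L w = 0) :
    adjoint w ∘L v = 0 := by
  have h1 := congrArg adjoint h
  rwa [adjoint_comp, adjoint_adjoint, map_zero] at h1

/-- A separable Hilbert space embeds in `l^2(ℕ)`. -/
theorem exists_iso_L2 (E : Type) [NormedAddCommGroup E] [InnerProductSpace ℂ E] [CompleteSpace E]
    [TopologicalSpace.SeparableSpace E] : ∃ w : E →L[ℂ] L2 ℕ, adjoint w ∘L w = 1 := by
  classical
  obtain ⟨s, b, hb⟩ := exists_hilbertBasis ℂ E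
  have hs : s.Countable := by
    have h1 : (Set.univ : Set s).PairwiseDisjoint fun x : s => Metric.ball (b x) (1 / 2) := by
      intro x _ y _ hxy
      refine Metric.ball_disjoint_ball ?_
      have h2 : ‖b x - b y‖ ^ 2 = 2 := by
        rw [@norm_sub_sq ℂ, b.orthonormal.1, b.orthonormal.1, b.orthonormal.2 hxy]
        norm_num
      rw [dist_eq_norm]
      nlinarith [norm_nonneg (b x - b y)]
    have h2 := h1.countable_of_isOpen (fun _ _ => Metric.isOpen_ball)
      (fun x _ => Metric.nonempty_ball.2 (by norm_num))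
    exact Set.countable_coe_iff.1 (Set.countable_univ_iff.1 h2)
  have : Countable s := hs
  obtain ⟨u, hu⟩ := exists_injective_nat s
  let R : E →L[ℂ] L2 s := b.repr.toContinuousLinearEquiv.toContinuousLinearMap
  have hR : adjoint R ∘L R = 1 := (isometry_iff_adjoint_comp_self R).1 b.repr.isometry
  exact ⟨pushL2 u hu ∘L R, iso_comp (adjoint_pushL2_comp hu) hR⟩

end Hilb

end Vale.Agent.P212Z
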