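import Vale.Agent.P212Z.St

/-! The working model of Kasparov's K-homology, of `KX_0(X)` and of the assembly map. -/

namespace Vale.Agent.P212Z

open Vale.Agent.P212 Matrix ZeroAtInfty ContinuousLinearMap

/-! ### Kasparov's group `KK_0(A, ℂ)` -/

/-- A representation `ρ` of `A` by even operators on a separable graded Hilbert space `H` with
grading operator `γ`. -/
structure GradedRep (A : Type) [NonUnitalCStarAlgebra A] : Type 1 where
  H : Type
  [normed : NormedAddCommGroup H]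
  [inner : InnerProductSpace ℂ H]
  [complete : CompleteSpace H]
  [separable : TopologicalSpace.SeparableSpace H]
  γ : H →L[ℂ] H
  γ_star : star γ = γ
  γ_sq : γ * γ = 1
  ρ : A →⋆ₙₐ[ℂ] (H →L[ℂ] H)
  even : ∀ a, γ * ρ a = ρ a * γ

section KK

variable {A : Type} [NonUnitalCStarAlgebra A]

instance (M : GradedRep A) : NormedAddCommGroup M.H := M.normed

instance (M : GradedRep A) : InnerProductSpace ℂ M.H := M.inner

instance (M : GradedRep A) : CompleteSpace M.H := M.complete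

/-- `(H, ρ, F)` is a graded Fredholm module: `F` is odd, and `(F^2 - 1) ρ(a)`, `(F - F*) ρ(a)`
and `[F, ρ(a)]` are compact. -/
structure IsFredholm (M : GradedRep A) (F : M.H →L[ℂ] M.H) : Prop where
  odd : M.γ * F = -(F * M.γ)
  sq : ∀ a, IsCompactOperator ((F * F - 1) * M.ρ a : M.H →L[ℂ] M.H)
  sa : ∀ a, IsCompactOperator ((F - star F) * M.ρ a : M.H →L[ℂ] M.H)
  comm : ∀ a, IsCompactOperator (F * M.ρ a - M.ρ a * F : M.H →L[ℂ] M.H)

/-- A graded Fredholm module over `A`, that is, a Kasparov `(A, ℂ)`-cycle. -/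
structure Cycle (A : Type) [NonUnitalCStarAlgebra A] : Type 1 where
  M : GradedRep A
  F : M.H →L[ℂ] M.H
  fredholm : IsFredholm M F

/-- `v` is an isometry which intertwines the gradings, the representations and the
operators. -/
def Embeds (a c : Cycle A) (v : a.M.H →L[ℂ] c.M.H) : Prop :=
  adjoint v ∘L v = 1 ∧ c.M.γ ∘L v = v ∘L a.M.γ ∧ (∀ f, c.M.ρ f ∘L v = v ∘L a.M.ρ f) ∧
    c.F ∘L v = v ∘L a.F

/-- The relations: unitary equivalence, operator homotopy, and `[a ⊕ b] = [a] + [b]`. -/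
def KKRel (A : Type) [NonUnitalCStarAlgebra A] : Set (FreeAbelianGroup (Cycle A)) :=
  {z | ∃ (a b : Cycle A) (u : a.M.H →L[ℂ] b.M.H), Embeds a b u ∧ u ∘L adjoint u = 1 ∧
    z = .of a - .of b} ∪
  {z | ∃ (M : GradedRep A) (G : C(unitInterval, M.H →L[ℂ] M.H)) (h : ∀ t, IsFredholm M (G t)),
    z = .of ⟨M, G 0, h 0⟩ - .of ⟨M, G 1, h 1⟩} ∪
  {z | ∃ (a b c : Cycle A) (v : a.M.H →L[ℂ] c.M.H) (w : b.M.H →L[ℂ] c.M.H),
    Embeds a c v ∧ Embeds b c w ∧ v ∘L adjoint v + w ∘L adjoint w = 1 ∧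
    z = .of c - .of a - .of b}

/-- Kasparov's K-homology group `KK_0(A, ℂ) = K^0(A)`. -/
abbrev KK (A : Type) [NonUnitalCStarAlgebra A] : Type 1 :=
  FreeAbelianGroup (Cycle A) ⧸ AddSubgroup.closure (KKRel A)

/-- The class of a cycle. -/
def KK.cls (c : Cycle A) : KK A := QuotientAddGroup.mk (FreeAbelianGroup.of c)

variable {B : Type} [NonUnitalCStarAlgebra B]

/-- The pull back of a representation. -/
noncomputable def GradedRep.comap (φ : B →⋆ₙₐ[ℂ] A) (M : GradedRep A) : GradedRep B :=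
  @GradedRep.mk B _ M.H M.normed M.inner M.complete M.separable M.γ M.γ_star M.γ_sq
    (M.ρ.comp φ) (fun b => M.even (φ b))

theorem IsFredholm.comap (φ : B →⋆ₙₐ[ℂ] A) {M : GradedRep A} {F : M.H →L[ℂ] M.H}
    (h : IsFredholm M F) : IsFredholm (M.comap φ) F :=
  ⟨h.odd, fun b => h.sq (φ b), fun b => h.sa (φ b), fun b => h.comm (φ b)⟩

/-- The pull back of a cycle. -/
noncomputable def Cycle.comap (φ : B →⋆ₙₐ[ℂ] A) (c : Cycle A) : Cycle B :=
  ⟨c.M.comap φ, c.F, c.fredholm.comap φ⟩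

theorem Embeds.comap (φ : B →⋆ₙₐ[ℂ] A) {a c : Cycle A} {v : a.M.H →L[ℂ] c.M.H}
    (h : Embeds a c v) : Embeds (a.comap φ) (c.comap φ) v :=
  ⟨h.1, h.2.1, fun b => h.2.2.1 (φ b), h.2.2.2⟩

theorem kkRel_comap (φ : B →⋆ₙₐ[ℂ] A) :
    AddSubgroup.closure (KKRel A) ≤ (AddSubgroup.closure (KKRel B)).comap
      (FreeAbelianGroup.map (Cycle.comap φ)) := by
  rw [AddSubgroup.closure_le]
  rintro z ((⟨a, b, u, h1, h2, rfl⟩ | ⟨M, G, h, rfl⟩) | ⟨a, b, c, v, w, h1, h2, h3, rfl⟩)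
  · refine AddSubgroup.subset_closure (Or.inl (Or.inl
      ⟨a.comap φ, b.comap φ, u, h1.comap φ, h2, ?_⟩))
    rw [map_sub, FreeAbelianGroup.map_of_apply, FreeAbelianGroup.map_of_apply]
  · refine AddSubgroup.subset_closure (Or.inl (Or.inr
      ⟨M.comap φ, G, fun t => (h t).comap φ, ?_⟩))
    rw [map_sub, FreeAbelianGroup.map_of_apply, FreeAbelianGroup.map_of_apply]
    rfl
  · refine AddSubgroup.subset_closure (Or.inr
      ⟨a.comap φ, b.comap φ, c.comap φ, v, w, h1.comap φ, h2.comap φ, h3, ?_⟩)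
    rw [map_sub, map_sub, FreeAbelianGroup.map_of_apply, FreeAbelianGroup.map_of_apply,
      FreeAbelianGroup.map_of_apply]

/-- Contravariant functoriality of `KK_0(A, ℂ)` in `A`. -/
noncomputable def KK.comap (φ : B →⋆ₙₐ[ℂ] A) : KK A →+ KK B :=
  QuotientAddGroup.map _ _ (FreeAbelianGroup.map (Cycle.comap φ)) (kkRel_comap φ)

end KK

/-- The coarse K-homology group `KX_0(X) = lim_r KK_0(C_0(P_r(X)), ℂ)`. -/
abbrev KX0 (X : Type) [MetricSpace X] [BddGeometry X] : Type 1 :=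
  AddCommGroup.DirectLimit (fun r : ℝ => KK C₀(Rips X r, ℂ)) (fun _ _ h => KK.comap (ripsRes h))

/-- The class in `KX_0(X)` of a cycle over `C_0(P_r(X))`. -/
noncomputable def KX0.cls {X : Type} [MetricSpace X] [BddGeometry X] (r : ℝ)
    (c : Cycle C₀(Rips X r, ℂ)) : KX0 X :=
  AddCommGroup.DirectLimit.of (fun r : ℝ => KK C₀(Rips X r, ℂ))
    (fun _ _ h => KK.comap (ripsRes h)) r (KK.cls c)

/-! ### The assembly map -/

/-- The Hilbert space `l^2(J)`. -/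
abbrev El2 (J : Type) : Type := lp (fun _ : J => ℂ) 2

/-- The standard basis of `l^2(J)`. -/
noncomputable def stdBasis (J : Type) : HilbertBasis J ℂ (El2 J) :=
  HilbertBasis.ofRepr (LinearIsometryEquiv.refl ℂ (El2 J))

/-- The operator `T` on `l^2(X) ⊗ l^2(ℕ) = l^2(X × ℕ)` has the matrix entries `K x y`. -/
def HasEntries {X : Type} (T : El2 (X × ℕ) →L[ℂ] El2 (X × ℕ))
    (K : X → X → El2 ℕ →L[ℂ] El2 ℕ) : Prop :=
  ∀ x y m n, inner ℂ (stdBasis (X × ℕ) (x, m)) (T (stdBasis (X × ℕ) (y, n))) =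
    inner ℂ (stdBasis ℕ m) (K x y (stdBasis ℕ n))

open Classical in
/-- The operators attached to a cycle `c = (H, γ, ρ, F)` over `C_0(P_r(X))` and an isometry
`w : H → l^2(ℕ)`: `p₀` and `p₁` have the entries `w ρ(√(t_x t_y)) (1 ± γ)/2 w*`, where `t_x` are
the barycentric coordinates, and `Φ = 1 ⊗ w F w*`. -/
def IsAmplification {X : Type} [MetricSpace X] [BddGeometry X] {r : ℝ}
    (c : Cycle C₀(Rips X r, ℂ)) (w : c.M.H →L[ℂ] El2 ℕ)
    (p₀ p₁ Φ : El2 (X × ℕ) →L[ℂ] El2 (X × ℕ)) : Prop :=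
  adjoint w ∘L w = 1 ∧
  HasEntries p₀ (fun x y =>
    w ∘L (c.M.ρ (bary r x * bary r y) * ((1 / 2 : ℂ) • (1 + c.M.γ))) ∘L adjoint w) ∧
  HasEntries p₁ (fun x y =>
    w ∘L (c.M.ρ (bary r x * bary r y) * ((1 / 2 : ℂ) • (1 - c.M.γ))) ∘L adjoint w) ∧
  HasEntries Φ (fun x y => if x = y then w ∘L c.F ∘L adjoint w else 0)

/-- `μ : KX_0(X) → K_0(A)` is the coarse assembly map for the completion `i : ℂ[X] → A`: the
image of the class of a cycle is the index `[W (p₀ ⊕ 0) W⁻¹] - [p₁ ⊕ 0]` of the finite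
propagation operator `T = p₁ Φ p₀` (that is, of `∑_x ρ(√t_x) F ρ(√t_x)`) with its parametrix
`S = p₀ Φ p₁`. -/
def IsAssembly {X : Type} [MetricSpace X] [BddGeometry X] {A : Type} [NonUnitalCStarAlgebra A]
    (i : (El2 (X × ℕ) →L[ℂ] El2 (X × ℕ)) → A) (μ : KX0 X →+ KCStar A) : Prop :=
  ∀ (r : ℝ) (c : Cycle C₀(Rips X r, ℂ)),
    (∃ w p₀ p₁ Φ, IsAmplification c w p₀ p₁ Φ) ∧
    ∀ w p₀ p₁ Φ, IsAmplification c w p₀ p₁ Φ →
      ∃ (D O : Matrix (Fin 2 ⊕ Fin 2) (Fin 2 ⊕ Fin 2) (Unitization ℂ A))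
        (hD : D * D = D) (hO : O * O = O),
        D = diffIdem i (indexE p₀ p₁ (p₁ * Φ * p₀) (p₀ * Φ * p₁)) !![p₁, 0; 0, 0] ∧
        O = fromBlocks 1 0 0 0 ∧
        (μ (KX0.cls r c) : KZero (Unitization ℂ A)) = KZero.cls D hD - KZero.cls O hO

end Vale.Agent.P212Z
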