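import Vale.Agent.P212Z.Dbl2

/-! The index class of an element which is invertible modulo an ideal. -/

set_option linter.unusedSectionVars false

namespace Vale.Agent.P212Z

open Vale.Agent.P212 Matrix Filter Topology

section Vec

variable {S : Type} [Ring S] {ι κ μ : Type}

theorem vmv_mul [Fintype κ] (u : ι → S) (v w : κ → S) (x : μ → S) :
    vecMulVec u v * vecMulVec w x = vecMulVec (fun i => u i * (v ⬝ᵥ w)) x := by
  ext i k
  simp only [Matrix.mul_apply, vecMulVec_apply, dotProduct, Finset.mul_sum, Finset.sum_mul,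
    mul_assoc]

/-- The column `(2T - TST, p₀ - ST)`. -/
def xV (p₀ T S' : S) : Fin 2 → S := ![2 * T - T * S' * T, p₀ - S' * T]

/-- The row `(S, p₀ - ST)`. -/
def yV (p₀ T S' : S) : Fin 2 → S := ![S', p₀ - S' * T]

/-- The vector `(p₁, 0)`. -/
def pV (p₁ : S) : Fin 2 → S := ![p₁, 0]

end Vec

section Ind

variable {M Q B : Type} [Ring M] [Algebra ℂ M] [Ring Q] [NormedRing B] [NormedAlgebra ℂ B]
  [CompleteSpace B] (R : Rel M Q B)

/-- An element `T` from `p₀` to `p₁` with a parametrix `S`. -/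
structure IDat where
  p₀ : M
  p₁ : M
  T : M
  S : M
  h₀ : p₀ * p₀ = p₀
  h₁ : p₁ * p₁ = p₁
  T₀ : T * p₀ = T
  T₁ : p₁ * T = T
  S₀ : p₀ * S = S
  S₁ : S * p₁ = S
  ST : R.q (S * T) = R.q p₀
  TS : R.q (T * S) = R.q p₁

variable {R}

theorem IDat.yx (d : IDat R) : yV d.p₀ d.T d.S ⬝ᵥ xV d.p₀ d.T d.S = d.p₀ := by
  have h1 : d.p₀ * (d.S * d.T) = d.S * d.T := by rw [← mul_assoc, d.S₀]
  have h2 : d.S * d.T * d.p₀ = d.S * d.T := by rw [mul_assoc, d.T₀]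
  simp only [dotProduct, Fin.sum_univ_two, xV, yV, cons_val_zero, cons_val_one]
  have h3 : d.S * (2 * d.T - d.T * d.S * d.T) + (d.p₀ - d.S * d.T) * (d.p₀ - d.S * d.T) =
      2 * (d.S * d.T) + d.p₀ * d.p₀ - d.p₀ * (d.S * d.T) - d.S * d.T * d.p₀ := by noncomm_ring
  rw [h3, h1, h2, d.h₀]
  noncomm_ring

theorem IDat.x_mul (d : IDat R) (i : Fin 2) : xV d.p₀ d.T d.S i * d.p₀ = xV d.p₀ d.T d.S i := by
  fin_cases i
  · change (2 * d.T - d.T * d.S * d.T) * d.p₀ = 2 * d.T - d.T * d.S * d.T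
    rw [sub_mul, mul_assoc, mul_assoc, d.T₀]
  · change (d.p₀ - d.S * d.T) * d.p₀ = d.p₀ - d.S * d.T
    rw [sub_mul, mul_assoc, d.T₀, d.h₀]

theorem IDat.pp (d : IDat R) : pV d.p₁ ⬝ᵥ pV d.p₁ = d.p₁ := by
  simp only [dotProduct, Fin.sum_univ_two, pV, cons_val_zero, cons_val_one, d.h₁, mul_zero,
    add_zero]

theorem IDat.p_mul (d : IDat R) (i : Fin 2) : pV d.p₁ i * d.p₁ = pV d.p₁ i := by
  fin_cases i
  · exact d.h₁
  · exact zero_mul _

theorem IDat.q_xS (d : IDat R) (i : Fin 2) :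
    R.q (xV d.p₀ d.T d.S i * d.S) = R.q (pV d.p₁ i) := by
  fin_cases i
  · change R.q ((2 * d.T - d.T * d.S * d.T) * d.S) = R.q d.p₁
    have h : (2 * d.T - d.T * d.S * d.T) * d.S = 2 * (d.T * d.S) - d.T * d.S * (d.T * d.S) := by
      noncomm_ring
    rw [h, map_sub, map_mul, map_mul _ (d.T * d.S), d.TS, ← map_mul R.q d.p₁, d.h₁, map_ofNat,
      two_mul, add_sub_cancel_right]
  · change R.q ((d.p₀ - d.S * d.T) * d.S) = R.q 0
    rw [map_mul, map_sub, d.ST, sub_self, zero_mul, map_zero]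

theorem IDat.q_Ty (d : IDat R) (i : Fin 2) :
    R.q (d.T * yV d.p₀ d.T d.S i) = R.q (pV d.p₁ i) := by
  fin_cases i
  · exact d.TS
  · change R.q (d.T * (d.p₀ - d.S * d.T)) = R.q 0
    rw [map_mul, map_sub, d.ST, sub_self, mul_zero, map_zero]

theorem IDat.q_y (d : IDat R) (i : Fin 2) :
    R.q (yV d.p₀ d.T d.S i) = R.q (d.S * pV d.p₁ i) := by
  fin_cases i
  · change R.q d.S = R.q (d.S * d.p₁)
    rw [d.S₁]
  · change R.q (d.p₀ - d.S * d.T) = R.q (d.S * 0)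
    rw [map_sub, d.ST, sub_self, mul_zero, map_zero]

theorem IDat.q_x (d : IDat R) (i : Fin 2) :
    R.q (xV d.p₀ d.T d.S i) = R.q (pV d.p₁ i * d.T) := by
  fin_cases i
  · change R.q (2 * d.T - d.T * d.S * d.T) = R.q (d.p₁ * d.T)
    rw [map_sub, map_mul _ (d.T * d.S), d.TS, ← map_mul R.q d.p₁, d.T₁, map_mul, map_ofNat,
      two_mul, add_sub_cancel_right]
  · change R.q (d.p₀ - d.S * d.T) = R.q (0 * d.T)
    rw [map_sub, d.ST, sub_self, zero_mul, map_zero]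

/-- The pair of idempotents of the index. -/
def IDat.pair (d : IDat R) : IPair R (Fin 2) where
  e := vecMulVec (xV d.p₀ d.T d.S) (yV d.p₀ d.T d.S)
  f := vecMulVec (pV d.p₁) (pV d.p₁)
  he := by rw [vmv_mul, d.yx]; simp only [d.x_mul]
  hf := by rw [vmv_mul, d.pp]; simp only [d.p_mul]
  h := by
    ext i k
    simp only [Matrix.map_apply, vecMulVec_apply]
    rw [map_mul, d.q_y, ← map_mul, ← mul_assoc, map_mul, d.q_xS, ← map_mul]

/-- The index class. -/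
noncomputable def IDat.ind (d : IDat R) : K0 B := d.pair.del

/-- The characterisation of the index class. -/
theorem IDat.ind_eq (d : IDat R) {κ : Type} [Fintype κ] [DecidableEq κ] (w : IPair R κ)
    (x y a b : κ → M) (he : w.e = vecMulVec x y) (hyx : y ⬝ᵥ x = d.p₀)
    (hf : w.f = vecMulVec a b) (hba : b ⬝ᵥ a = d.p₁)
    (hx : ∀ i, R.q (x i) = R.q (a i * d.T)) (hy : ∀ i, R.q (y i) = R.q (d.S * b i)) :
    d.ind = w.del := by
  refine IPair.del_mvn d.pair w (vecMulVec (xV d.p₀ d.T d.S) y) (vecMulVec (pV d.p₁) b)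
    (vecMulVec x (yV d.p₀ d.T d.S)) (vecMulVec a (pV d.p₁)) ?_ ?_ ?_ ?_ ?_ ?_
  · rw [vmv_mul, hyx]
    simp only [d.x_mul]
    rfl
  · rw [vmv_mul, d.yx, ← w.he, he, vmv_mul, hyx]
  · rw [vmv_mul, hba]
    simp only [d.p_mul]
    rfl
  · rw [vmv_mul, d.pp, ← w.hf, hf, vmv_mul, hba]
  · ext i k
    simp only [Matrix.map_apply, vecMulVec_apply]
    rw [map_mul, hy, ← map_mul, ← mul_assoc, map_mul, d.q_xS, ← map_mul]
  · ext i k
    simp only [Matrix.map_apply, vecMulVec_apply]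
    rw [map_mul, hx, ← map_mul, mul_assoc, map_mul, d.q_Ty, ← map_mul]

/-- Transport of the index class along equivalences of idempotents. -/
theorem IDat.ind_transport (d d' : IDat R) (a₀ b₀ a₁ b₁ : M) (h1 : a₀ * b₀ = d.p₀)
    (h2 : b₀ * a₀ = d'.p₀) (h3 : a₁ * b₁ = d.p₁) (h4 : b₁ * a₁ = d'.p₁)
    (hT : R.q d'.T = R.q (b₁ * d.T * a₀)) (hS : R.q d'.S = R.q (b₀ * d.S * a₁)) :
    d.ind = d'.ind := by
  have c₀ : d.p₀ * a₀ = a₀ * d'.p₀ := by rw [← h1, ← h2, mul_assoc]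
  have c₁ : d.p₁ * a₁ = a₁ * d'.p₁ := by rw [← h3, ← h4, mul_assoc]
  have e₀ : d'.p₀ * b₀ = b₀ * d.p₀ := by rw [← h1, ← h2, mul_assoc]
  have e₁ : d'.p₁ * b₁ = b₁ * d.p₁ := by rw [← h3, ← h4, mul_assoc]
  refine d.ind_eq d'.pair (fun i => xV d'.p₀ d'.T d'.S i * b₀) (fun i => a₀ * yV d'.p₀ d'.T d'.S i)
    (fun i => pV d'.p₁ i * b₁) (fun i => a₁ * pV d'.p₁ i) ?_ ?_ ?_ ?_ ?_ ?_
  · ext i k
    change xV d'.p₀ d'.T d'.S i * yV d'.p₀ d'.T d'.S k =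
      xV d'.p₀ d'.T d'.S i * b₀ * (a₀ * yV d'.p₀ d'.T d'.S k)
    rw [mul_assoc, ← mul_assoc b₀, h2, ← mul_assoc, d'.x_mul]
  · have : (fun i => a₀ * yV d'.p₀ d'.T d'.S i) ⬝ᵥ (fun i => xV d'.p₀ d'.T d'.S i * b₀) =
        a₀ * (yV d'.p₀ d'.T d'.S ⬝ᵥ xV d'.p₀ d'.T d'.S) * b₀ := by
      simp only [dotProduct, Finset.mul_sum, Finset.sum_mul, mul_assoc]
    rw [this, d'.yx, ← c₀, mul_assoc, h1, d.h₀]
  · ext i k
    change pV d'.p₁ i * pV d'.p₁ k = pV d'.p₁ i * b₁ * (a₁ * pV d'.p₁ k)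
    rw [mul_assoc, ← mul_assoc b₁, h4, ← mul_assoc, d'.p_mul]
  · have : (fun i => a₁ * pV d'.p₁ i) ⬝ᵥ (fun i => pV d'.p₁ i * b₁) =
        a₁ * (pV d'.p₁ ⬝ᵥ pV d'.p₁) * b₁ := by
      simp only [dotProduct, Finset.mul_sum, Finset.sum_mul, mul_assoc]
    rw [this, d'.pp, ← c₁, mul_assoc, h3, d.h₁]
  · intro i
    rw [map_mul, d'.q_x, map_mul, hT, ← map_mul, ← map_mul]
    congr 1
    calc _ = pV d'.p₁ i * b₁ * (d.T * (a₀ * b₀)) := by simp only [mul_assoc]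
      _ = _ := by rw [h1, d.T₀]
  · intro i
    rw [map_mul, d'.q_y, map_mul, hS, ← map_mul, ← map_mul]
    congr 1
    calc _ = (a₀ * b₀) * d.S * (a₁ * pV d'.p₁ i) := by simp only [mul_assoc]
      _ = _ := by rw [h1, d.S₀]

/-- The index class depends only on the classes modulo the ideal. -/
theorem IDat.ind_perturb (d d' : IDat R) (h₀ : d'.p₀ = d.p₀) (h₁ : d'.p₁ = d.p₁)
    (hT : R.q d'.T = R.q d.T) (hS : R.q d'.S = R.q d.S) : d.ind = d'.ind :=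
  d.ind_transport d' d.p₀ d.p₀ d.p₁ d.p₁ d.h₀ (h₀ ▸ d.h₀) d.h₁ (h₁ ▸ d.h₁)
    (by rw [d.T₁, d.T₀, hT]) (by rw [d.S₀, d.S₁, hS])

/-- The index of an invertible element vanishes. -/
theorem IDat.ind_eq_zero (d : IDat R) (h₀ : d.S * d.T = d.p₀) (h₁ : d.T * d.S = d.p₁) :
    d.ind = 0 := by
  let w : IPair R Unit := ⟨Matrix.of fun _ _ => d.p₁, Matrix.of fun _ _ => d.p₁,
    by ext i k; simp [Matrix.mul_apply, d.h₁], by ext i k; simp [Matrix.mul_apply, d.h₁], rfl⟩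
  rw [← w.del_self rfl]
  refine d.ind_eq w (fun _ => d.T) (fun _ => d.S) (fun _ => d.p₁) (fun _ => d.p₁) ?_ ?_ ?_ ?_
    (fun _ => by rw [d.T₁]) (fun _ => by rw [d.S₁])
  · ext i k
    exact h₁.symm
  · simp [dotProduct, h₀]
  · ext i k
    exact d.h₁.symm
  · simp [dotProduct, d.h₁]

theorem vmv_sum {S ι κ : Type} [Ring S] (x y : ι → S) (x' y' : κ → S)
    (h : ∀ i k, x i * y' k = 0) (h' : ∀ k i, x' k * y i = 0) :
    fromBlocks (vecMulVec x y) 0 0 (vecMulVec x' y') = vecMulVec (Sum.elim x x') (Sum.elim y y') := by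
  ext i k
  rcases i with i | i <;> rcases k with k | k
  · rfl
  · exact (h i k).symm
  · exact (h' i k).symm
  · rfl

/-- Additivity of the index class for orthogonal sums. -/
theorem IDat.ind_add (d a b : IDat R) (h₀ : d.p₀ = a.p₀ + b.p₀) (h₁ : d.p₁ = a.p₁ + b.p₁)
    (hT : d.T = a.T + b.T) (hS : d.S = a.S + b.S) (o₀ : a.p₀ * b.p₀ = 0) (o₀' : b.p₀ * a.p₀ = 0)
    (o₁ : a.p₁ * b.p₁ = 0) (o₁' : b.p₁ * a.p₁ = 0) : d.ind = a.ind + b.ind := by
  have y_mul : ∀ (c : IDat R) (i : Fin 2), c.p₀ * yV c.p₀ c.T c.S i = yV c.p₀ c.T c.S i := by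
    intro c i
    fin_cases i
    · exact c.S₀
    · change c.p₀ * (c.p₀ - c.S * c.T) = c.p₀ - c.S * c.T
      rw [mul_sub, ← mul_assoc, c.S₀, c.h₀]
  have p_mul' : ∀ (c : IDat R) (i : Fin 2), c.p₁ * pV c.p₁ i = pV c.p₁ i := by
    intro c i
    fin_cases i
    · exact c.h₁
    · exact mul_zero _
  have k1 : ∀ c c' : IDat R, c.p₀ * c'.p₀ = 0 → ∀ i k,
      xV c.p₀ c.T c.S i * yV c'.p₀ c'.T c'.S k = 0 := by
    intro c c' h i k
    rw [← c.x_mul, ← y_mul c', mul_assoc, ← mul_assoc c.p₀, h, zero_mul, mul_zero]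
  have k2 : ∀ c c' : IDat R, c.p₁ * c'.p₁ = 0 → ∀ i k, pV c.p₁ i * pV c'.p₁ k = 0 := by
    intro c c' h i k
    rw [← c.p_mul, ← p_mul' c', mul_assoc, ← mul_assoc c.p₁, h, zero_mul, mul_zero]
  have k3 : ∀ c c' : IDat R, c.p₁ * c'.p₁ = 0 → ∀ i, pV c.p₁ i * c'.T = 0 := by
    intro c c' h i
    rw [← c.p_mul, ← c'.T₁, mul_assoc, ← mul_assoc c.p₁, h, zero_mul, mul_zero]
  have k4 : ∀ c c' : IDat R, c'.p₁ * c.p₁ = 0 → ∀ i, c'.S * pV c.p₁ i = 0 := by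
    intro c c' h i
    rw [← p_mul' c, ← c'.S₁, mul_assoc, ← mul_assoc c'.p₁, h, zero_mul, mul_zero]
  unfold IDat.ind
  rw [← IPair.del_sum]
  refine d.ind_eq (a.pair.sum b.pair) (Sum.elim (xV a.p₀ a.T a.S) (xV b.p₀ b.T b.S))
    (Sum.elim (yV a.p₀ a.T a.S) (yV b.p₀ b.T b.S)) (Sum.elim (pV a.p₁) (pV b.p₁))
    (Sum.elim (pV a.p₁) (pV b.p₁)) (vmv_sum _ _ _ _ (k1 a b o₀) (k1 b a o₀')) ?_
    (vmv_sum _ _ _ _ (k2 a b o₁) (k2 b a o₁')) ?_ ?_ ?_
  · rw [sumElim_dotProduct_sumElim, a.yx, b.yx, h₀]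
  · rw [sumElim_dotProduct_sumElim, a.pp, b.pp, h₁]
  · rintro (i | i)
    · change R.q (xV a.p₀ a.T a.S i) = R.q (pV a.p₁ i * d.T)
      rw [hT, mul_add, k3 a b o₁, add_zero, a.q_x]
    · change R.q (xV b.p₀ b.T b.S i) = R.q (pV b.p₁ i * d.T)
      rw [hT, mul_add, k3 b a o₁', zero_add, b.q_x]
  · rintro (i | i)
    · change R.q (yV a.p₀ a.T a.S i) = R.q (d.S * pV a.p₁ i)
      rw [hS, add_mul, k4 a b o₁', add_zero, a.q_y]
    · change R.q (yV b.p₀ b.T b.S i) = R.q (d.S * pV b.p₁ i)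
      rw [hS, add_mul, k4 b a o₁, zero_add, b.q_y]

/-- Homotopy invariance of the index class. Here `Adm` is a ring of admissible paths. -/
theorem IDat.ind_path {T : Type} [TopologicalSpace T] [PreconnectedSpace T]
    (Adm : Subring (T → M)) (hconst : ∀ a : M, (fun _ => a) ∈ Adm)
    (hcont : ∀ γ ∈ Adm, (∀ t, R.q (γ t) = 0) → Continuous fun t => R.j (γ t))
    (d : T → IDat R) (h₀ : (fun t => (d t).p₀) ∈ Adm) (h₁ : (fun t => (d t).p₁) ∈ Adm)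
    (hT : (fun t => (d t).T) ∈ Adm) (hS : (fun t => (d t).S) ∈ Adm) (s t : T) :
    (d s).ind = (d t).ind := by
  unfold IDat.ind IPair.del
  congr 1
  refine cls_eq_of_path (fun t => (d t).pair.dP.map R.L)
    (fun t => mapMat_idem R.L (d t).pair.dP_idem) (fun i k => ?_) s t
  let p₀ : Adm := ⟨_, h₀⟩
  let p₁ : Adm := ⟨_, h₁⟩
  let T' : Adm := ⟨_, hT⟩
  let S' : Adm := ⟨_, hS⟩
  let ev : T → (Adm →+* M) := fun t => (Pi.evalRingHom (fun _ => M) t).comp Adm.subtype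
  let D := dM (vecMulVec (xV p₀ T' S') (yV p₀ T' S')) (vecMulVec (pV p₁) (pV p₁))
  have hD : ∀ t, D.map (ev t) = dM (d t).pair.e (d t).pair.f := by
    intro t
    rw [dM_map]
    congr 1
    · ext a b
      fin_cases a <;> fin_cases b <;> rfl
    · ext a b
      fin_cases a <;> fin_cases b <;> rfl
  have h1 : (fun t => ((d t).pair.dP.map R.L) i k) = fun t => algebraMap ℂ B (oM (Fin 2) ℂ i k) +
      R.j ((((D i k : Adm) : T → M) - (fun _ => algebraMap ℂ M (oM (Fin 2) ℂ i k)) : T → M) t) := by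
    funext t
    have h2 : ((D i k : Adm) : T → M) t = dM (d t).pair.e (d t).pair.f i k :=
      congrFun (congrFun (hD t) i) k
    rw [Pi.sub_apply, h2]
    rfl
  rw [h1]
  refine continuous_const.add (hcont _ (Adm.sub_mem (D i k).2 (hconst _)) fun t => ?_)
  have h2 : ((D i k : Adm) : T → M) t = dM (d t).pair.e (d t).pair.f i k :=
    congrFun (congrFun (hD t) i) k
  rw [Pi.sub_apply, h2, map_sub, sub_eq_zero]
  exact congrFun (congrFun (d t).pair.dq i) k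

end Ind

section Small

variable {M Q B : Type} [NormedRing M] [Algebra ℂ M] [CompleteSpace M] [Ring Q] [NormedRing B]
  [NormedAlgebra ℂ B] [CompleteSpace B] {R : Rel M Q B}

theorem exists_corner_inv {p N : M} (hp : p * N = N) (hp' : N * p = N) (h : ‖N‖ < 1) :
    ∃ u : M, u * (p - N) = p ∧ (p - N) * u = p ∧ p * u = u * p := by
  set v : Mˣ := Units.oneSub N h with hv
  have h1 : (v : M) = 1 - N := by rw [hv, Units.val_oneSub]
  have h2 : p * v = p - N := by rw [h1, mul_sub, mul_one, hp]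
  have h3 : v * p = p - N := by rw [h1, sub_mul, one_mul, hp']
  refine ⟨(↑v⁻¹ : M), ?_, ?_, ?_⟩
  · rw [← h3, ← mul_assoc, Units.inv_mul, one_mul]
  · rw [← h2, mul_assoc, Units.mul_inv, mul_one]
  · calc p * ↑v⁻¹ = ↑v⁻¹ * (v * p) * ↑v⁻¹ := by rw [← mul_assoc, Units.inv_mul, one_mul]
      _ = ↑v⁻¹ * (p * v) * ↑v⁻¹ := by rw [h2, h3]
      _ = ↑v⁻¹ * p := by rw [mul_assoc, mul_assoc, Units.mul_inv, mul_one]

/-- The index vanishes if the parametrix is an approximate inverse. -/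
theorem IDat.ind_eq_zero_of_small (d : IDat R) (h₀ : ‖d.p₀ - d.S * d.T‖ < 1)
    (h₁ : ‖d.p₁ - d.T * d.S‖ < 1) : d.ind = 0 := by
  obtain ⟨u, u1, -, u3⟩ := exists_corner_inv (p := d.p₀) (N := d.p₀ - d.S * d.T)
    (by rw [mul_sub, d.h₀, ← mul_assoc, d.S₀]) (by rw [sub_mul, d.h₀, mul_assoc, d.T₀]) h₀
  obtain ⟨v, -, v2, v3⟩ := exists_corner_inv (p := d.p₁) (N := d.p₁ - d.T * d.S)
    (by rw [mul_sub, d.h₁, ← mul_assoc, d.T₁]) (by rw [sub_mul, d.h₁, mul_assoc, d.S₁]) h₁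
  rw [sub_sub_cancel] at u1 v2
  have a1 : u * d.S * d.T = d.p₀ := by rw [mul_assoc, u1]
  have a2 : d.T * (d.S * v) = d.p₁ := by rw [← mul_assoc, v2]
  have a3 : u * d.S = d.S * v := by
    calc u * d.S = u * d.S * (d.T * (d.S * v)) := by rw [a2, mul_assoc, d.S₁]
      _ = u * d.S * d.T * (d.S * v) := by simp only [mul_assoc]
      _ = d.S * v := by rw [a1, ← mul_assoc, d.S₀]
  let d' : IDat R := ⟨d.p₀, d.p₁, d.T, u * d.S, d.h₀, d.h₁, d.T₀, d.T₁,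
    by rw [← mul_assoc, u3, mul_assoc, d.S₀], by rw [mul_assoc, d.S₁], by rw [a1],
    by rw [a3, a2]⟩
  rw [d.ind_perturb d' rfl rfl rfl ?_]
  · exact d'.ind_eq_zero a1 (by change d.T * (u * d.S) = d.p₁; rw [a3, a2])
  · change R.q (u * d.S) = R.q d.S
    calc R.q (u * d.S) = R.q (u * d.S) * R.q (d.T * d.S) := by
          rw [d.TS, ← map_mul, mul_assoc, d.S₁]
      _ = R.q d.S := by rw [← map_mul, ← mul_assoc, a1, d.S₀]

end Small

end Vale.Agent.P212Z
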