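import Vale.Agent.P212Z.Part
import Vale.Agent.P212Z.Ind
import Vale.Agent.P212Z.Defs

/-! Local index maps on Kasparov's group. -/

set_option linter.unusedSectionVars false

namespace Vale.Agent.P212Z

open Vale.Agent.P212 Filter Topology
open ContinuousLinearMap hiding proj

section Ctx

variable {M Q B : Type} [Ring M] [Algebra ℂ M] [Ring Q] [NormedRing B] [NormedAlgebra ℂ B]
  [CompleteSpace B]

theorem IDat.ind_congr {R : Rel M Q B} (d d' : IDat R) (h₀ : d'.p₀ = d.p₀) (h₁ : d'.p₁ = d.p₁)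
    (hT : d'.T = d.T) (hS : d'.S = d.S) : d.ind = d'.ind :=
  d.ind_perturb d' h₀ h₁ (by rw [hT]) (by rw [hS])

/-- An algebra of families of operators on `l^2(Y × ℕ)` in which Fredholm modules over `A` can
be localized. -/
structure Ctx (R : Rel M Q B) (A : Type) [NonUnitalCStarAlgebra A] (Y Θ : Type) where
  ev : M →+* (Θ → (LP Y →L[ℂ] LP Y))
  inj : Function.Injective ev
  π : Θ → Part A Y
  am : OpN → M
  ev_am : ∀ U t, ev (am U) t = amp Y U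
  P : (A →⋆ₙₐ[ℂ] OpN) → M
  ev_P : ∀ ρ t, ev (P ρ) t = (π t).P ρ
  q_zero : ∀ m, (∀ t, (π t).LCs (ev m t)) → R.q m = 0
  Adm : Subring (unitInterval → M)
  hconst : ∀ a, (fun _ => a) ∈ Adm
  hcont : ∀ γ ∈ Adm, (∀ t, R.q (γ t) = 0) → Continuous fun t => R.j (γ t)
  am_adm : ∀ G : unitInterval → OpN, Continuous G → (fun t => am (G t)) ∈ Adm

variable {R : Rel M Q B} {A : Type} [NonUnitalCStarAlgebra A] {Y Θ : Type} (C : Ctx R A Y Θ)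

theorem Ctx.ext' {a b : M} (h : ∀ t, C.ev a t = C.ev b t) : a = b := C.inj (funext h)

theorem Ctx.P_idem (ρ : A →⋆ₙₐ[ℂ] OpN) : C.P ρ * C.P ρ = C.P ρ :=
  C.ext' fun t => by rw [map_mul, Pi.mul_apply, C.ev_P, Part.P_idem]

theorem Ctx.am_mul (U V : OpN) : C.am (U * V) = C.am U * C.am V :=
  C.ext' fun t => by rw [map_mul, Pi.mul_apply, C.ev_am, C.ev_am, C.ev_am, amp_mul]

theorem Ctx.am_add (U V : OpN) : C.am (U + V) = C.am U + C.am V :=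
  C.ext' fun t => by rw [map_add, Pi.add_apply, C.ev_am, C.ev_am, C.ev_am, amp_add]

theorem Ctx.am_zero : C.am 0 = 0 :=
  C.ext' fun t => by rw [map_zero, Pi.zero_apply, C.ev_am, amp_zero]

theorem Ctx.P_conj {ρ ρ' : A →⋆ₙₐ[ℂ] OpN} {x : OpN} (h : ∀ a, ρ' a = x * ρ a * star x) :
    C.P ρ' = C.am x * C.P ρ * C.am (star x) :=
  C.ext' fun t => by
    rw [map_mul, map_mul, Pi.mul_apply, Pi.mul_apply, C.ev_P, C.ev_P, C.ev_am, C.ev_am,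
      Part.P_conj _ h]

theorem Ctx.am_P {ρ : A →⋆ₙₐ[ℂ] OpN} {x : OpN} (h : ∀ a, x * ρ a = ρ a) :
    C.am x * C.P ρ = C.P ρ :=
  C.ext' fun t => by rw [map_mul, Pi.mul_apply, C.ev_P, C.ev_am, Part.amp_P _ h]

theorem Ctx.P_am {ρ : A →⋆ₙₐ[ℂ] OpN} {x : OpN} (h : ∀ a, ρ a * x = ρ a) :
    C.P ρ * C.am x = C.P ρ :=
  C.ext' fun t => by rw [map_mul, Pi.mul_apply, C.ev_P, C.ev_am, Part.P_amp _ h]

theorem Ctx.P_add {ρ ρ' ρ'' : A →⋆ₙₐ[ℂ] OpN} (h : ∀ a, ρ'' a = ρ a + ρ' a) :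
    C.P ρ'' = C.P ρ + C.P ρ' :=
  C.ext' fun t => by rw [map_add, Pi.add_apply, C.ev_P, C.ev_P, C.ev_P, Part.P_add _ h]

theorem Ctx.q_ST (d : Quad A) :
    R.q (C.P d.ρ₀ * C.am d.U' * C.P d.ρ₁ * (C.P d.ρ₁ * C.am d.U * C.P d.ρ₀)) = R.q (C.P d.ρ₀) := by
  rw [← sub_eq_zero, ← map_sub]
  refine C.q_zero _ fun t => ?_
  simp only [map_sub, map_mul, Pi.sub_apply, Pi.mul_apply, C.ev_P, C.ev_am]
  exact (C.π t).lcs_ST d

/-- The localized operator of a module. -/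
noncomputable def Ctx.dat (d : Quad A) : IDat R where
  p₀ := C.P d.ρ₀
  p₁ := C.P d.ρ₁
  T := C.P d.ρ₁ * C.am d.U * C.P d.ρ₀
  S := C.P d.ρ₀ * C.am d.U' * C.P d.ρ₁
  h₀ := C.P_idem _
  h₁ := C.P_idem _
  T₀ := by rw [mul_assoc, C.P_idem]
  T₁ := by rw [← mul_assoc, ← mul_assoc, C.P_idem]
  S₀ := by rw [← mul_assoc, ← mul_assoc, C.P_idem]
  S₁ := by rw [mul_assoc, C.P_idem]
  ST := C.q_ST d
  TS := C.q_ST d.swap

theorem Ctx.conj_aux {ρ₀ ρ₁ ρ₀' ρ₁' : A →⋆ₙₐ[ℂ] OpN} {x U : OpN}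
    (h₀ : ∀ a, ρ₀' a = x * ρ₀ a * star x) (h₁ : ∀ a, ρ₁' a = x * ρ₁ a * star x)
    (k₀ : ∀ a, star x * x * ρ₀ a = ρ₀ a) (k₁ : ∀ a, ρ₁ a * (star x * x) = ρ₁ a) :
    C.P ρ₁' * C.am (x * U * star x) * C.P ρ₀' =
      C.am x * C.P ρ₁ * (C.P ρ₁ * C.am U * C.P ρ₀) * (C.P ρ₀ * C.am (star x)) := by
  have e₀ := C.am_P k₀
  have e₁ := C.P_am k₁
  rw [C.am_mul] at e₀ e₁
  rw [C.P_conj h₀, C.P_conj h₁, C.am_mul, C.am_mul]
  calc _ = C.am x * (C.P ρ₁ * (C.am (star x) * C.am x)) * C.am U *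
        (C.am (star x) * C.am x * C.P ρ₀) * C.am (star x) := by simp only [mul_assoc]
    _ = C.am x * (C.P ρ₁ * C.P ρ₁) * C.am U * (C.P ρ₀ * C.P ρ₀) * C.am (star x) := by
        rw [e₀, e₁, C.P_idem, C.P_idem]
    _ = _ := by simp only [mul_assoc]

theorem right_of_left {ρ : A →⋆ₙₐ[ℂ] OpN} {e : OpN} (he : star e = e)
    (k : ∀ a, e * ρ a = ρ a) (a : A) : ρ a * e = ρ a := by
  have h := congrArg star (k (star a))
  rwa [star_mul, he, ← map_star, star_star] at h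

theorem Ctx.ind_conj (d d' : Quad A) (x : OpN) (h₀ : ∀ a, d'.ρ₀ a = x * d.ρ₀ a * star x)
    (h₁ : ∀ a, d'.ρ₁ a = x * d.ρ₁ a * star x) (hU : d'.U = x * d.U * star x)
    (hU' : d'.U' = x * d.U' * star x) (k₀ : ∀ a, star x * x * d.ρ₀ a = d.ρ₀ a)
    (k₁ : ∀ a, star x * x * d.ρ₁ a = d.ρ₁ a) : (C.dat d).ind = (C.dat d').ind := by
  have hs : star (star x * x) = star x * x := by rw [star_mul, star_star]
  have l₀ := right_of_left hs k₀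
  have l₁ := right_of_left hs k₁
  have e : ∀ {ρ : A →⋆ₙₐ[ℂ] OpN}, (∀ a, star x * x * ρ a = ρ a) →
      C.P ρ * C.am (star x) * (C.am x * C.P ρ) = C.P ρ := by
    intro ρ k
    rw [mul_assoc, ← mul_assoc (C.am (star x)), ← C.am_mul, C.am_P k, C.P_idem]
  have e' : ∀ {ρ ρ' : A →⋆ₙₐ[ℂ] OpN}, (∀ a, ρ' a = x * ρ a * star x) →
      C.am x * C.P ρ * (C.P ρ * C.am (star x)) = C.P ρ' := by
    intro ρ ρ' k
    rw [C.P_conj k, mul_assoc, ← mul_assoc (C.P ρ), C.P_idem, mul_assoc]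
  refine IDat.ind_transport _ _ (C.P d.ρ₀ * C.am (star x)) (C.am x * C.P d.ρ₀)
    (C.P d.ρ₁ * C.am (star x)) (C.am x * C.P d.ρ₁) (e k₀) (e' h₀) (e k₁) (e' h₁) ?_ ?_
  · change R.q (C.P d'.ρ₁ * C.am d'.U * C.P d'.ρ₀) = _
    rw [hU, C.conj_aux h₀ h₁ k₀ l₁]
    rfl
  · change R.q (C.P d'.ρ₀ * C.am d'.U' * C.P d'.ρ₁) = _
    rw [hU', C.conj_aux h₁ h₀ k₁ l₀]
    rfl

theorem Ctx.add_aux {ρ₀ ρ₁ σ₀ σ₁ : A →⋆ₙₐ[ℂ] OpN} {U V e f : OpN} (hef : e * f = 0)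
    (hfe : f * e = 0) (a₀ : ∀ a, e * ρ₀ a = ρ₀ a) (a₁ : ∀ a, ρ₁ a * e = ρ₁ a)
    (b₀ : ∀ a, f * σ₀ a = σ₀ a) (b₁ : ∀ a, σ₁ a * f = σ₁ a)
    (u₀ : U * e = U) (u₁ : e * U = U) (v₀ : V * f = V) (v₁ : f * V = V) :
    (C.P ρ₁ + C.P σ₁) * C.am (U + V) * (C.P ρ₀ + C.P σ₀) =
      C.P ρ₁ * C.am U * C.P ρ₀ + C.P σ₁ * C.am V * C.P σ₀ := by
  have h1 : C.P ρ₁ * C.am V = 0 := by
    rw [← C.P_am a₁, mul_assoc, ← C.am_mul, ← v₁, ← mul_assoc e, hef, zero_mul, C.am_zero,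
      mul_zero]
  have h2 : C.P σ₁ * C.am U = 0 := by
    rw [← C.P_am b₁, mul_assoc, ← C.am_mul, ← u₁, ← mul_assoc f, hfe, zero_mul, C.am_zero,
      mul_zero]
  have h3 : C.am U * C.P σ₀ = 0 := by
    rw [← C.am_P b₀, ← mul_assoc, ← C.am_mul, ← u₀, mul_assoc U, hef, mul_zero, C.am_zero,
      zero_mul]
  have h4 : C.am V * C.P ρ₀ = 0 := by
    rw [← C.am_P a₀, ← mul_assoc, ← C.am_mul, ← v₀, mul_assoc V, hfe, mul_zero, C.am_zero,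
      zero_mul]
  have h5 : (C.P ρ₁ + C.P σ₁) * C.am (U + V) = C.P ρ₁ * C.am U + C.P σ₁ * C.am V := by
    rw [C.am_add, add_mul, mul_add, mul_add, h1, h2, add_zero, zero_add]
  rw [h5, add_mul, mul_add, mul_add, mul_assoc _ _ (C.P σ₀), h3,
    mul_assoc _ (C.am V) (C.P ρ₀), h4, mul_zero, mul_zero, add_zero, zero_add]

theorem Ctx.orth_aux {ρ σ : A →⋆ₙₐ[ℂ] OpN} {e f : OpN} (hef : e * f = 0)
    (a₁ : ∀ a, ρ a * e = ρ a) (b₀ : ∀ a, f * σ a = σ a) : C.P ρ * C.P σ = 0 := by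
  rw [← C.P_am a₁, ← C.am_P b₀, mul_assoc, ← mul_assoc (C.am e), ← C.am_mul, hef, C.am_zero,
    zero_mul, mul_zero]

/-- The module lives under the projection `e`. -/
structure Quad.Under (d : Quad A) (e : OpN) : Prop where
  l₀ : ∀ a, e * d.ρ₀ a = d.ρ₀ a
  r₀ : ∀ a, d.ρ₀ a * e = d.ρ₀ a
  l₁ : ∀ a, e * d.ρ₁ a = d.ρ₁ a
  r₁ : ∀ a, d.ρ₁ a * e = d.ρ₁ a
  lU : e * d.U = d.U
  rU : d.U * e = d.U
  lU' : e * d.U' = d.U'
  rU' : d.U' * e = d.U'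

theorem Ctx.ind_add (d a b : Quad A) {e f : OpN} (hef : e * f = 0) (hfe : f * e = 0)
    (ha : a.Under e) (hb : b.Under f) (h₀ : ∀ x, d.ρ₀ x = a.ρ₀ x + b.ρ₀ x)
    (h₁ : ∀ x, d.ρ₁ x = a.ρ₁ x + b.ρ₁ x) (hU : d.U = a.U + b.U) (hU' : d.U' = a.U' + b.U') :
    (C.dat d).ind = (C.dat a).ind + (C.dat b).ind := by
  refine IDat.ind_add _ _ _ (C.P_add h₀) (C.P_add h₁) ?_ ?_ (C.orth_aux hef ha.r₀ hb.l₀)
    (C.orth_aux hfe hb.r₀ ha.l₀) (C.orth_aux hef ha.r₁ hb.l₁) (C.orth_aux hfe hb.r₁ ha.l₁)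
  · change C.P d.ρ₁ * C.am d.U * C.P d.ρ₀ = _
    rw [C.P_add h₀, C.P_add h₁, hU,
      C.add_aux hef hfe ha.l₀ ha.r₁ hb.l₀ hb.r₁ ha.rU ha.lU hb.rU hb.lU]
    rfl
  · change C.P d.ρ₀ * C.am d.U' * C.P d.ρ₁ = _
    rw [C.P_add h₀, C.P_add h₁, hU',
      C.add_aux hef hfe ha.l₁ ha.r₀ hb.l₁ hb.r₀ ha.rU' ha.lU' hb.rU' hb.lU']
    rfl

theorem Ctx.ind_path (d : unitInterval → Quad A) (h₀ : ∀ t, (d t).ρ₀ = (d 0).ρ₀)
    (h₁ : ∀ t, (d t).ρ₁ = (d 0).ρ₁) (hU : Continuous fun t => (d t).U)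
    (hU' : Continuous fun t => (d t).U') : (C.dat (d 0)).ind = (C.dat (d 1)).ind := by
  have e₀ : (fun t => C.P (d t).ρ₀) ∈ C.Adm := by
    simp only [h₀]
    exact C.hconst _
  have e₁ : (fun t => C.P (d t).ρ₁) ∈ C.Adm := by
    simp only [h₁]
    exact C.hconst _
  exact IDat.ind_path C.Adm C.hconst C.hcont (fun t => C.dat (d t)) e₀ e₁
    (C.Adm.mul_mem (C.Adm.mul_mem e₁ (C.am_adm _ hU)) e₀)
    (C.Adm.mul_mem (C.Adm.mul_mem e₀ (C.am_adm _ hU')) e₁) 0 1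

end Ctx

section Cyc

variable {A : Type} [NonUnitalCStarAlgebra A]

/-- The compression of a representation by a projection which commutes with it. -/
noncomputable def cutHom {H : Type} [NormedAddCommGroup H] [InnerProductSpace ℂ H]
    [CompleteSpace H] (ρ : A →⋆ₙₐ[ℂ] (H →L[ℂ] H)) (e : H →L[ℂ] H) (he : e * e = e)
    (hs : star e = e) (hc : ∀ a, e * ρ a = ρ a * e) : A →⋆ₙₐ[ℂ] (H →L[ℂ] H) where
  toFun a := ρ a * e
  map_smul' c a := by rw [map_smul, smul_mul_assoc]; rfl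
  map_zero' := by rw [map_zero, zero_mul]
  map_add' a b := by rw [map_add, add_mul]
  map_mul' a b := by
    rw [map_mul, mul_assoc (ρ a) e, ← mul_assoc e, hc, mul_assoc (ρ b), he, mul_assoc]
  map_star' a := by rw [star_mul, hs, ← map_star, hc]

/-- The projection onto the even part. -/
noncomputable def GradedRep.e₀ (M : GradedRep A) : M.H →L[ℂ] M.H := (1 / 2 : ℂ) • (1 + M.γ)

/-- The projection onto the odd part. -/
noncomputable def GradedRep.e₁ (M : GradedRep A) : M.H →L[ℂ] M.H := (1 / 2 : ℂ) • (1 - M.γ)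

theorem GradedRep.e₀_idem (M : GradedRep A) : M.e₀ * M.e₀ = M.e₀ := by
  unfold GradedRep.e₀
  rw [smul_mul_smul_comm, add_mul, mul_add, mul_add, M.γ_sq]
  simp only [one_mul, mul_one]
  rw [add_comm M.γ 1, ← two_smul ℂ (1 + M.γ), smul_smul]
  norm_num

theorem GradedRep.e₁_idem (M : GradedRep A) : M.e₁ * M.e₁ = M.e₁ := by
  unfold GradedRep.e₁
  rw [smul_mul_smul_comm, sub_mul, mul_sub, mul_sub, M.γ_sq]
  simp only [one_mul, mul_one]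
  rw [show 1 - M.γ - (M.γ - 1) = (1 - M.γ) + (1 - M.γ) by abel, ← two_smul ℂ (1 - M.γ), smul_smul]
  norm_num

theorem star_half : star (1 / 2 : ℂ) = 1 / 2 := by simp

theorem GradedRep.e₀_star (M : GradedRep A) : star M.e₀ = M.e₀ := by
  unfold GradedRep.e₀
  rw [star_smul, star_half, star_add, star_one, M.γ_star]

theorem GradedRep.e₁_star (M : GradedRep A) : star M.e₁ = M.e₁ := by
  unfold GradedRep.e₁
  rw [star_smul, star_half, star_sub, star_one, M.γ_star]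

theorem GradedRep.e₀_comm (M : GradedRep A) (a : A) : M.e₀ * M.ρ a = M.ρ a * M.e₀ := by
  unfold GradedRep.e₀
  rw [smul_mul_assoc, mul_smul_comm, add_mul, mul_add, M.even, one_mul, mul_one]

theorem GradedRep.e₁_comm (M : GradedRep A) (a : A) : M.e₁ * M.ρ a = M.ρ a * M.e₁ := by
  unfold GradedRep.e₁
  rw [smul_mul_assoc, mul_smul_comm, sub_mul, mul_sub, M.even, one_mul, mul_one]

theorem Cycle.e₁_F (c : Cycle A) : c.M.e₁ * c.F = c.F * c.M.e₀ := by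
  unfold GradedRep.e₀ GradedRep.e₁
  rw [smul_mul_assoc, mul_smul_comm, sub_mul, mul_add, c.fredholm.odd, one_mul, mul_one,
    sub_neg_eq_add]

theorem Cycle.e₀_F (c : Cycle A) : c.M.e₀ * c.F = c.F * c.M.e₁ := by
  unfold GradedRep.e₀ GradedRep.e₁
  rw [smul_mul_assoc, mul_smul_comm, add_mul, mul_sub, c.fredholm.odd, one_mul, mul_one,
    sub_eq_add_neg]

/-- The even part of the representation, on `l^2(ℕ)`. -/
noncomputable def GradedRep.ρ₀ (M : GradedRep A) (w : M.H →L[ℂ] L2 ℕ)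
    (hw : adjoint w ∘L w = 1) : A →⋆ₙₐ[ℂ] OpN :=
  (cjHom w hw).comp (cutHom M.ρ M.e₀ M.e₀_idem M.e₀_star M.e₀_comm)

/-- The odd part of the representation, on `l^2(ℕ)`. -/
noncomputable def GradedRep.ρ₁ (M : GradedRep A) (w : M.H →L[ℂ] L2 ℕ)
    (hw : adjoint w ∘L w = 1) : A →⋆ₙₐ[ℂ] OpN :=
  (cjHom w hw).comp (cutHom M.ρ M.e₁ M.e₁_idem M.e₁_star M.e₁_comm)

theorem GradedRep.ρ₀_apply (M : GradedRep A) (w : M.H →L[ℂ] L2 ℕ) (hw : adjoint w ∘L w = 1)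
    (a : A) : M.ρ₀ w hw a = cj w (M.ρ a * M.e₀) := rfl

theorem GradedRep.ρ₁_apply (M : GradedRep A) (w : M.H →L[ℂ] L2 ℕ) (hw : adjoint w ∘L w = 1)
    (a : A) : M.ρ₁ w hw a = cj w (M.ρ a * M.e₁) := rfl

theorem quad_aux (c : Cycle A) {w : c.M.H →L[ℂ] L2 ℕ} (hw : adjoint w ∘L w = 1)
    {e e' : c.M.H →L[ℂ] c.M.H} (h : e' * c.F = c.F * e) (a : A) :
    Cpt (cj w c.F * cj w (c.M.ρ a * e) - cj w (c.M.ρ a * e') * cj w c.F) := by
  rw [← cj_mul hw, ← cj_mul hw, ← cj_sub, mul_assoc, h, ← mul_assoc, ← mul_assoc, ← sub_mul]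
  exact (Cpt.mul_right (c.fredholm.comm a) e).cj w

theorem quad_aux' (c : Cycle A) {w : c.M.H →L[ℂ] L2 ℕ} (hw : adjoint w ∘L w = 1)
    (e : c.M.H →L[ℂ] c.M.H) (a : A) :
    Cpt ((cj w c.F * cj w c.F - 1) * cj w (c.M.ρ a * e)) := by
  rw [sub_mul, one_mul, ← cj_mul hw, ← cj_mul hw, ← cj_sub, ← mul_assoc, ← sub_mul]
  have h := c.fredholm.sq a
  rw [sub_mul, one_mul] at h
  exact (Cpt.mul_right h e).cj w

/-- The ungraded picture of a cycle. -/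
noncomputable def Cycle.quad (c : Cycle A) (w : c.M.H →L[ℂ] L2 ℕ) (hw : adjoint w ∘L w = 1) :
    Quad A where
  ρ₀ := c.M.ρ₀ w hw
  ρ₁ := c.M.ρ₁ w hw
  U := cj w c.F
  U' := cj w c.F
  c₀ := quad_aux c hw c.e₁_F
  c₁ := quad_aux c hw c.e₀_F
  i₀ := quad_aux' c hw c.M.e₀
  i₁ := quad_aux' c hw c.M.e₁

theorem GradedRep.exists_w (M : GradedRep A) : ∃ w : M.H →L[ℂ] L2 ℕ, adjoint w ∘L w = 1 :=
  @exists_iso_L2 M.H _ _ _ M.separable

theorem cj_eq_conj {H : Type} [NormedAddCommGroup H] [InnerProductSpace ℂ H] [CompleteSpace H]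
    {w : H →L[ℂ] L2 ℕ} (w' : H →L[ℂ] L2 ℕ) (hw : adjoint w ∘L w = 1) (T : H →L[ℂ] H) :
    cj w' T = (w' ∘L adjoint w) * cj w T * star (w' ∘L adjoint w) := by
  ext1 x
  simp only [cj, star_eq_adjoint, adjoint_comp, adjoint_adjoint, mul_apply_eq_comp, comp_apply,
    iso_apply hw]

theorem conj_cj {H : Type} [NormedAddCommGroup H] [InnerProductSpace ℂ H] [CompleteSpace H]
    {w w' : H →L[ℂ] L2 ℕ} (hw : adjoint w ∘L w = 1) (hw' : adjoint w' ∘L w' = 1)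
    (T : H →L[ℂ] H) : star (w' ∘L adjoint w) * (w' ∘L adjoint w) * cj w T = cj w T := by
  ext1 x
  simp only [cj, star_eq_adjoint, adjoint_comp, adjoint_adjoint, mul_apply_eq_comp, comp_apply,
    iso_apply hw, iso_apply hw']

theorem Embeds.intertw₀ {a c : Cycle A} {v : a.M.H →L[ℂ] c.M.H} (h : Embeds a c v) (x : A) :
    (c.M.ρ x * c.M.e₀) ∘L v = v ∘L (a.M.ρ x * a.M.e₀) := by
  have h1 : c.M.e₀ ∘L v = v ∘L a.M.e₀ := by
    unfold GradedRep.e₀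
    rw [smul_comp, comp_smul, add_comp, comp_add, h.2.1]
    rfl
  rw [mul_def, mul_def, comp_assoc, h1, ← comp_assoc, h.2.2.1, comp_assoc]

theorem Embeds.intertw₁ {a c : Cycle A} {v : a.M.H →L[ℂ] c.M.H} (h : Embeds a c v) (x : A) :
    (c.M.ρ x * c.M.e₁) ∘L v = v ∘L (a.M.ρ x * a.M.e₁) := by
  have h1 : c.M.e₁ ∘L v = v ∘L a.M.e₁ := by
    unfold GradedRep.e₁
    rw [smul_comp, comp_smul, sub_comp, comp_sub, h.2.1]
    rfl
  rw [mul_def, mul_def, comp_assoc, h1, ← comp_assoc, h.2.2.1, comp_assoc]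

theorem Cycle.quad_under (c : Cycle A) (w : c.M.H →L[ℂ] L2 ℕ) (hw : adjoint w ∘L w = 1) :
    (c.quad w hw).Under (cj w 1) := by
  have h1 : ∀ T, cj w 1 * cj w T = cj w T := fun T => by rw [← cj_mul hw, one_mul]
  have h2 : ∀ T, cj w T * cj w 1 = cj w T := fun T => by rw [← cj_mul hw, mul_one]
  exact ⟨fun _ => h1 _, fun _ => h2 _, fun _ => h1 _, fun _ => h2 _, h1 _, h2 _, h1 _, h2 _⟩

variable {M Q B : Type} [Ring M] [Algebra ℂ M] [Ring Q] [NormedRing B] [NormedAlgebra ℂ B]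
  [CompleteSpace B] {R : Rel M Q B} {Y Θ : Type} (C : Ctx R A Y Θ)

theorem Ctx.ind_w (c : Cycle A) {w w' : c.M.H →L[ℂ] L2 ℕ} (hw : adjoint w ∘L w = 1)
    (hw' : adjoint w' ∘L w' = 1) : (C.dat (c.quad w hw)).ind = (C.dat (c.quad w' hw')).ind :=
  C.ind_conj _ _ (w' ∘L adjoint w) (fun _ => cj_eq_conj w' hw _) (fun _ => cj_eq_conj w' hw _)
    (cj_eq_conj w' hw _) (cj_eq_conj w' hw _) (fun _ => conj_cj hw hw' _)
    (fun _ => conj_cj hw hw' _)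

/-- The local index of a cycle. -/
noncomputable def Ctx.cyc (c : Cycle A) : K0 B :=
  (C.dat (c.quad c.M.exists_w.choose c.M.exists_w.choose_spec)).ind

theorem Ctx.cyc_eq (c : Cycle A) {w : c.M.H →L[ℂ] L2 ℕ} (hw : adjoint w ∘L w = 1) :
    C.cyc c = (C.dat (c.quad w hw)).ind := C.ind_w c _ hw

theorem Ctx.cyc_rel : AddSubgroup.closure (KKRel A) ≤ (FreeAbelianGroup.lift C.cyc).ker := by
  rw [AddSubgroup.closure_le]
  rintro z ((⟨a, b, u, h1, h2, rfl⟩ | ⟨N, G, h, rfl⟩) | ⟨a, b, c, v, v', h1, h2, h3, rfl⟩)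
  · change FreeAbelianGroup.lift C.cyc _ = 0
    rw [map_sub, FreeAbelianGroup.lift_apply_of, FreeAbelianGroup.lift_apply_of, sub_eq_zero]
    obtain ⟨w, hw⟩ := b.M.exists_w
    rw [C.cyc_eq b hw, C.cyc_eq a (iso_comp hw h1.1)]
    have e₀ : (b.quad w hw).ρ₀ = (a.quad (w ∘L u) (iso_comp hw h1.1)).ρ₀ := by
      ext1 x
      change cj w (b.M.ρ x * b.M.e₀) = cj (w ∘L u) (a.M.ρ x * a.M.e₀)
      rw [cj_comp, eq_cj_of_intertw h2 (h1.intertw₀ x)]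
    have e₁ : (b.quad w hw).ρ₁ = (a.quad (w ∘L u) (iso_comp hw h1.1)).ρ₁ := by
      ext1 x
      change cj w (b.M.ρ x * b.M.e₁) = cj (w ∘L u) (a.M.ρ x * a.M.e₁)
      rw [cj_comp, eq_cj_of_intertw h2 (h1.intertw₁ x)]
    have e₂ : cj w b.F = cj (w ∘L u) a.F := by
      rw [cj_comp, ← eq_cj_of_intertw h2 h1.2.2.2]
    refine IDat.ind_congr _ _ (congrArg C.P e₀) (congrArg C.P e₁) ?_ ?_
    · change C.P _ * C.am (cj w b.F) * C.P _ = C.P _ * C.am (cj (w ∘L u) a.F) * C.P _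
      rw [e₀, e₁, e₂]
    · change C.P _ * C.am (cj w b.F) * C.P _ = C.P _ * C.am (cj (w ∘L u) a.F) * C.P _
      rw [e₀, e₁, e₂]
  · change FreeAbelianGroup.lift C.cyc _ = 0
    rw [map_sub, FreeAbelianGroup.lift_apply_of, FreeAbelianGroup.lift_apply_of, sub_eq_zero]
    obtain ⟨w, hw⟩ := N.exists_w
    rw [C.cyc_eq ⟨N, G 0, h 0⟩ hw, C.cyc_eq ⟨N, G 1, h 1⟩ hw]
    have hc : Continuous fun t => cj w (G t) := (continuous_cj w).comp G.continuous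
    exact C.ind_path (fun t => (⟨N, G t, h t⟩ : Cycle A).quad w hw) (fun _ => rfl)
      (fun _ => rfl) hc hc
  · change FreeAbelianGroup.lift C.cyc _ = 0
    rw [map_sub, map_sub, FreeAbelianGroup.lift_apply_of, FreeAbelianGroup.lift_apply_of,
      FreeAbelianGroup.lift_apply_of, sub_sub, sub_eq_zero]
    obtain ⟨w, hw⟩ := c.M.exists_w
    rw [C.cyc_eq c hw, C.cyc_eq a (iso_comp hw h1.1), C.cyc_eq b (iso_comp hw h2.1)]
    have o1 : adjoint (w ∘L v) ∘L (w ∘L v') = 0 := by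
      rw [adjoint_comp, comp_assoc, ← comp_assoc (adjoint w), hw]
      exact orth_of_sum h1.1 h2.1 h3
    have e₂ : cj w c.F = cj (w ∘L v) a.F + cj (w ∘L v') b.F := by
      rw [cj_comp, cj_comp, ← cj_add, ← eq_cj_add_of_intertw h3 h1.2.2.2 h2.2.2.2]
    refine C.ind_add _ _ _ (cj_mul_cj_of_orth o1 1 1) (cj_mul_cj_of_orth (orth_symm o1) 1 1)
      (a.quad_under _ _) (b.quad_under _ _) (fun x => ?_) (fun x => ?_) e₂ e₂
    · change cj w (c.M.ρ x * c.M.e₀) = cj (w ∘L v) (a.M.ρ x * a.M.e₀) +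
        cj (w ∘L v') (b.M.ρ x * b.M.e₀)
      rw [cj_comp, cj_comp, ← cj_add, eq_cj_add_of_intertw h3 (h1.intertw₀ x) (h2.intertw₀ x)]
    · change cj w (c.M.ρ x * c.M.e₁) = cj (w ∘L v) (a.M.ρ x * a.M.e₁) +
        cj (w ∘L v') (b.M.ρ x * b.M.e₁)
      rw [cj_comp, cj_comp, ← cj_add, eq_cj_add_of_intertw h3 (h1.intertw₁ x) (h2.intertw₁ x)]

/-- The local index map. -/
noncomputable def Ctx.hom : KK A →+ K0 B :=
  QuotientAddGroup.lift _ (FreeAbelianGroup.lift C.cyc) C.cyc_rel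

theorem Ctx.hom_cls (c : Cycle A) {w : c.M.H →L[ℂ] L2 ℕ} (hw : adjoint w ∘L w = 1) :
    C.hom (KK.cls c) = (C.dat (c.quad w hw)).ind := by
  rw [← C.cyc_eq c hw]
  exact FreeAbelianGroup.lift_apply_of C.cyc c

theorem KK.hom_ext {G : Type*} [AddCommGroup G] {f g : KK A →+ G}
    (h : ∀ c, f (KK.cls c) = g (KK.cls c)) : f = g := by
  refine QuotientAddGroup.addMonoidHom_ext _ ?_
  exact FreeAbelianGroup.lift_ext _ _ h

theorem KK.comap_cls {A' : Type} [NonUnitalCStarAlgebra A'] (φ : A' →⋆ₙₐ[ℂ] A) (c : Cycle A) :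
    KK.comap φ (KK.cls c) = KK.cls (c.comap φ) := by
  unfold KK.comap KK.cls
  rw [QuotientAddGroup.map_mk, FreeAbelianGroup.map_of_apply]

/-- The pull back of a module. -/
noncomputable def Quad.comap {A' : Type} [NonUnitalCStarAlgebra A'] (φ : A' →⋆ₙₐ[ℂ] A)
    (d : Quad A) : Quad A' :=
  ⟨d.ρ₀.comp φ, d.ρ₁.comp φ, d.U, d.U', fun a => d.c₀ (φ a), fun a => d.c₁ (φ a),
    fun a => d.i₀ (φ a), fun a => d.i₁ (φ a)⟩

theorem Quad.comap_ρ₀ {A' : Type} [NonUnitalCStarAlgebra A'] (φ : A' →⋆ₙₐ[ℂ] A)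
    (d : Quad A) (a : A') : (d.comap φ).ρ₀ a = d.ρ₀ (φ a) := rfl

theorem Quad.comap_ρ₁ {A' : Type} [NonUnitalCStarAlgebra A'] (φ : A' →⋆ₙₐ[ℂ] A)
    (d : Quad A) (a : A') : (d.comap φ).ρ₁ a = d.ρ₁ (φ a) := rfl

theorem Ctx.hom_comap_cls {A' : Type} [NonUnitalCStarAlgebra A'] (C : Ctx R A' Y Θ)
    (φ : A' →⋆ₙₐ[ℂ] A) (c : Cycle A) {w : c.M.H →L[ℂ] L2 ℕ} (hw : adjoint w ∘L w = 1) :
    C.hom (KK.comap φ (KK.cls c)) = (C.dat ((c.quad w hw).comap φ)).ind := by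
  rw [KK.comap_cls]
  exact C.hom_cls (c.comap φ) (w := w) hw

end Cyc

end Vale.Agent.P212Z
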