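import Vale.Agent.P212Z.KZ

/-! Algebras of bounded families which asymptotically commute with a set of elements. -/

set_option linter.unusedSectionVars false

namespace Vale.Agent.P212Z

open Vale.Agent.P212 Filter Topology NNReal BoundedContinuousFunction

/-- The half line with the discrete topology. -/
def Td : Type := ℝ≥0

instance : TopologicalSpace Td := ⊥

instance : DiscreteTopology Td := ⟨rfl⟩

variable {E : Type} [CStarAlgebra E]

/-- An ideal of locally compact elements and a set of functions. -/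
structure LocD (E : Type) [CStarAlgebra E] where
  LC : NonUnitalStarSubalgebra ℂ E
  closed : IsClosed (LC : Set E)
  Mul : Set E
  star_mem : ∀ m ∈ Mul, star m ∈ Mul

variable (D : LocD E)

/-- Multipliers. -/
def LocD.Idl (a : E) : Prop := ∀ N ∈ D.LC, a * N ∈ D.LC ∧ N * a ∈ D.LC

/-- Asymptotic commutation. -/
def LocD.AC (a : ℝ≥0 → E) : Prop :=
  ∀ m ∈ D.Mul, Tendsto (fun t => a t * m - m * a t) atTop (𝓝 0)

variable {D}

theorem LocD.idl_of_mem {a : E} (h : a ∈ D.LC) : D.Idl a :=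
  fun _ hN => ⟨mul_mem h hN, mul_mem hN h⟩

theorem LocD.Idl.one : D.Idl 1 := fun N hN => by
  rw [one_mul, mul_one]
  exact ⟨hN, hN⟩

theorem LocD.Idl.add {a b : E} (h : D.Idl a) (h' : D.Idl b) : D.Idl (a + b) := fun N hN => by
  rw [add_mul, mul_add]
  exact ⟨add_mem (h N hN).1 (h' N hN).1, add_mem (h N hN).2 (h' N hN).2⟩

theorem LocD.Idl.mul {a b : E} (h : D.Idl a) (h' : D.Idl b) : D.Idl (a * b) := fun N hN => by
  rw [mul_assoc, ← mul_assoc N]
  exact ⟨(h _ (h' N hN).1).1, (h' _ (h N hN).2).2⟩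

theorem LocD.Idl.smul {a : E} (h : D.Idl a) (c : ℂ) : D.Idl (c • a) := fun N hN => by
  rw [smul_mul_assoc, mul_smul_comm]
  exact ⟨SMulMemClass.smul_mem c (h N hN).1, SMulMemClass.smul_mem c (h N hN).2⟩

theorem LocD.Idl.star {a : E} (h : D.Idl a) : D.Idl (star a) := fun N hN => by
  have h1 := h _ (StarMemClass.star_mem hN)
  have h2 := StarMemClass.star_mem h1.1
  have h3 := StarMemClass.star_mem h1.2
  rw [star_mul, star_star] at h2 h3
  exact ⟨h3, h2⟩

theorem LocD.isClosed_Idl : IsClosed {a : E | D.Idl a} := by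
  have h : {a : E | D.Idl a} = ⋂ N ∈ (D.LC : Set E),
      ((fun a => a * N) ⁻¹' (D.LC : Set E) ∩ (fun a => N * a) ⁻¹' (D.LC : Set E)) := by
    ext N
    simp [LocD.Idl]
  rw [h]
  exact isClosed_biInter fun N _ => (D.closed.preimage (continuous_id.mul continuous_const)).inter
    (D.closed.preimage (continuous_const.mul continuous_id))

theorem LocD.AC.add {a b : ℝ≥0 → E} (ha : D.AC a) (hb : D.AC b) : D.AC fun t => a t + b t := by
  intro g hg
  have h := (ha g hg).add (hb g hg)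
  rw [add_zero] at h
  exact h.congr fun t => by noncomm_ring

theorem LocD.AC.smul {a : ℝ≥0 → E} (ha : D.AC a) (c : ℂ) : D.AC fun t => c • a t := by
  intro g hg
  have h := (ha g hg).const_smul c
  rw [smul_zero] at h
  exact h.congr fun t => by rw [smul_sub, smul_mul_assoc, mul_smul_comm]

theorem LocD.AC.star {a : ℝ≥0 → E} (ha : D.AC a) : D.AC fun t => star (a t) := by
  intro g hg
  have h := (ha _ (D.star_mem g hg)).star.neg
  rw [star_zero, neg_zero] at h
  exact h.congr fun t => by rw [star_sub, star_mul, star_mul, star_star, neg_sub]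

theorem LocD.AC.mul {a b : Td →ᵇ E} (ha : D.AC a) (hb : D.AC b) : D.AC fun t => a t * b t := by
  intro g hg
  have h1 := Filter.isBoundedUnder_le_mul_tendsto_zero (f := fun t : ℝ≥0 => a t)
    (isBoundedUnder_of ⟨‖a‖, fun t => a.norm_coe_le_norm t⟩) (hb g hg)
  have h2 := (ha g hg).zero_mul_isBoundedUnder_le (g := fun t : ℝ≥0 => b t)
    (isBoundedUnder_of ⟨‖b‖, fun t => b.norm_coe_le_norm t⟩)
  have h := h1.add h2
  rw [add_zero] at h
  exact h.congr fun t => by noncomm_ring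

theorem LocD.AC.of_comm {a : ℝ≥0 → E} (h : ∀ t, ∀ m ∈ D.Mul, a t * m = m * a t) : D.AC a :=
  fun g hg => tendsto_const_nhds.congr fun t => by rw [h t g hg, sub_self]

theorem LocD.isClosed_AC : IsClosed {a : Td →ᵇ E | D.AC a} := by
  refine isClosed_of_closure_subset fun a ha g hg => ?_
  rw [NormedAddGroup.tendsto_nhds_zero]
  intro ε hε
  have hC0 : 0 ≤ ‖g‖ := norm_nonneg _
  obtain ⟨b, hb, hab⟩ := Metric.mem_closure_iff.1 ha (ε / (4 * ‖g‖ + 4)) (by positivity)
  filter_upwards [(NormedAddGroup.tendsto_nhds_zero.1 (hb g hg)) (ε / 2) (half_pos hε)] with t ht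
  have h1 : ‖a t - b t‖ ≤ ε / (4 * ‖g‖ + 4) := by
    rw [← dist_eq_norm]
    exact (dist_coe_le_dist (f := a) (g := b) t).trans hab.le
  have h2 : a t * g - g * a t = (b t * g - g * b t) + ((a t - b t) * g - g * (a t - b t)) := by
    noncomm_ring
  have h3 : ‖(a t - b t) * g - g * (a t - b t)‖ ≤ 2 * ‖g‖ * (ε / (4 * ‖g‖ + 4)) := by
    refine (norm_sub_le _ _).trans ?_
    have h4 := (norm_mul_le (a t - b t) g).trans (mul_le_mul_of_nonneg_right h1 hC0)
    have h5 := (norm_mul_le g (a t - b t)).trans (mul_le_mul_of_nonneg_left h1 hC0)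
    linarith
  have h4 : 2 * ‖g‖ * (ε / (4 * ‖g‖ + 4)) ≤ ε / 2 := by
    rw [← mul_div_assoc, div_le_div_iff₀ (by positivity) two_pos]
    nlinarith
  rw [h2]
  linarith [norm_add_le (b t * g - g * b t) ((a t - b t) * g - g * (a t - b t))]

variable (D)

/-- The algebra of asymptotically local families. -/
noncomputable def LocD.MM : StarSubalgebra ℂ (Td →ᵇ E) where
  carrier := {a | D.AC a ∧ ∀ t, D.Idl (a t)}
  mul_mem' ha hb := ⟨ha.1.mul hb.1, fun t => (ha.2 t).mul (hb.2 t)⟩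
  add_mem' ha hb := ⟨ha.1.add hb.1, fun t => (ha.2 t).add (hb.2 t)⟩
  algebraMap_mem' c := by
    rw [Algebra.algebraMap_eq_smul_one]
    exact ⟨LocD.AC.smul (a := fun _ => 1)
      (LocD.AC.of_comm fun _ _ _ => by rw [one_mul, mul_one]) c, fun _ => LocD.Idl.one.smul c⟩
  star_mem' ha := ⟨ha.1.star, fun t => (ha.2 t).star⟩

/-- The ideal of locally compact families. -/
noncomputable def LocD.II : NonUnitalStarSubalgebra ℂ (Td →ᵇ E) where
  carrier := {a | D.AC a ∧ ∀ t, a t ∈ D.LC}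
  mul_mem' ha hb := ⟨ha.1.mul hb.1, fun t => mul_mem (ha.2 t) (hb.2 t)⟩
  add_mem' ha hb := ⟨ha.1.add hb.1, fun t => add_mem (ha.2 t) (hb.2 t)⟩
  zero_mem' := ⟨LocD.AC.of_comm fun _ _ _ => (zero_mul _).trans (mul_zero _).symm,
    fun _ => zero_mem _⟩
  smul_mem' c _ ha := ⟨ha.1.smul c, fun t => SMulMemClass.smul_mem c (ha.2 t)⟩
  star_mem' ha := ⟨ha.1.star, fun t => StarMemClass.star_mem (ha.2 t)⟩

theorem isClosed_forall {S : Set E} (h : IsClosed S) :
    IsClosed {a : Td →ᵇ E | ∀ t, a t ∈ S} := by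
  have h1 : {a : Td →ᵇ E | ∀ t, a t ∈ S} = ⋂ t, (fun a => a t) ⁻¹' S := by
    ext a
    simp
  rw [h1]
  exact isClosed_iInter fun t => h.preimage (continuous_eval_const t)

instance LocD.isClosed_MM : IsClosed (D.MM : Set (Td →ᵇ E)) :=
  LocD.isClosed_AC.inter (isClosed_forall LocD.isClosed_Idl)

instance LocD.isClosed_II : IsClosed (D.II : Set (Td →ᵇ E)) :=
  LocD.isClosed_AC.inter (isClosed_forall D.closed)

/-- The algebra. -/
def LocD.M : Type := D.MM

noncomputable instance : CStarAlgebra D.M := inferInstanceAs (CStarAlgebra D.MM)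

/-- The ideal. -/
def LocD.I : Type := D.II

noncomputable instance : NonUnitalCStarAlgebra D.I := inferInstanceAs (NonUnitalCStarAlgebra D.II)

/-- The unitization of the ideal. -/
def LocD.B : Type := Unitization ℂ D.I

noncomputable instance : CStarAlgebra D.B := inferInstanceAs (CStarAlgebra (Unitization ℂ D.I))

/-- Evaluation. -/
noncomputable def LocD.ev (t : ℝ≥0) : D.M →⋆ₐ[ℂ] E where
  toFun a := (a : D.MM).1 t
  map_one' := rfl
  map_mul' _ _ := rfl
  map_zero' := rfl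
  map_add' _ _ := rfl
  commutes' c := by
    rw [Algebra.algebraMap_eq_smul_one, Algebra.algebraMap_eq_smul_one]
    rfl
  map_star' _ := rfl

variable {D}

theorem LocD.ext {a b : D.M} (h : ∀ t, D.ev t a = D.ev t b) : a = b :=
  Subtype.ext (BoundedContinuousFunction.ext h)

theorem LocD.norm_le (a : D.M) {C : ℝ} (hC : 0 ≤ C) (h : ∀ t, ‖D.ev t a‖ ≤ C) : ‖a‖ ≤ C :=
  (BoundedContinuousFunction.norm_le (f := (a : D.MM).1) hC).2 h

theorem LocD.norm_ev_le (a : D.M) (t : ℝ≥0) : ‖D.ev t a‖ ≤ ‖a‖ :=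
  (a : D.MM).1.norm_coe_le_norm t

theorem LocD.ac (a : D.M) : D.AC fun t => D.ev t a := (a : D.MM).2.1

theorem LocD.idl (a : D.M) (t : ℝ≥0) : D.Idl (D.ev t a) := (a : D.MM).2.2 t

/-- An element given by a family. -/
noncomputable def LocD.mk' (f : ℝ≥0 → E) (C : ℝ) (h : ∀ t, ‖f t‖ ≤ C) (h1 : D.AC f)
    (h2 : ∀ t, D.Idl (f t)) : D.M :=
  (⟨BoundedContinuousFunction.ofNormedAddCommGroupDiscrete (α := Td) f C h, h1, h2⟩ : D.MM)

theorem LocD.ev_mk' (f : ℝ≥0 → E) (C : ℝ) (h : ∀ t, ‖f t‖ ≤ C) (h1 : D.AC f)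
    (h2 : ∀ t, D.Idl (f t)) (t : ℝ≥0) : D.ev t (LocD.mk' f C h h1 h2) = f t := rfl

variable (D)

/-- The ideal inside the algebra. -/
noncomputable def LocD.ideal : TwoSidedIdeal D.M :=
  TwoSidedIdeal.mk' {a | ∀ t, D.ev t a ∈ D.LC} (fun t => by rw [map_zero]; exact zero_mem _)
    (fun ha hb t => by rw [map_add]; exact add_mem (ha t) (hb t))
    (fun ha t => by rw [map_neg]; exact neg_mem (ha t))
    (fun {a _} h t => by rw [map_mul]; exact (LocD.idl a t _ (h t)).1)
    (fun {_ a} h t => by rw [map_mul]; exact (LocD.idl a t _ (h t)).2)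

variable {D}

theorem LocD.q_iff {a : D.M} : idq D.ideal a = 0 ↔ ∀ t, D.ev t a ∈ D.LC := by
  rw [idq_eq_zero_iff, LocD.ideal, TwoSidedIdeal.mem_mk']
  rfl

/-- An element of the ideal. -/
def LocD.toI (a : D.M) (h : idq D.ideal a = 0) : D.I :=
  (⟨(a : D.MM).1, (a : D.MM).2.1, LocD.q_iff.1 h⟩ : D.II)

open Classical in
/-- The element of the ideal. -/
noncomputable def LocD.jI (a : D.M) : D.I := if h : idq D.ideal a = 0 then LocD.toI a h else 0

theorem LocD.jI_eq {a : D.M} (h : idq D.ideal a = 0) : LocD.jI a = LocD.toI a h := dif_pos h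

/-- The inclusion of the ideal in its unitization. -/
noncomputable def LocD.inr (a : D.I) : D.B := (Unitization.inr a : Unitization ℂ D.I)

variable (D)

/-- The ideal and its unitization. -/
noncomputable def LocD.rel : Rel D.M D.ideal.ringCon.Quotient D.B where
  q := idq D.ideal
  j a := LocD.inr (LocD.jI a)
  j_add a b ha hb := by
    rw [LocD.jI_eq ha, LocD.jI_eq hb, LocD.jI_eq (by rw [map_add, ha, hb, add_zero])]
    exact Unitization.inr_add ℂ (LocD.toI a ha) (LocD.toI b hb)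
  j_mul a b ha hb := by
    rw [LocD.jI_eq ha, LocD.jI_eq hb, LocD.jI_eq (by rw [map_mul, ha, zero_mul])]
    exact Unitization.inr_mul ℂ (LocD.toI a ha) (LocD.toI b hb)
  j_smul c a ha := by
    rw [LocD.jI_eq ha, LocD.jI_eq (by rw [Algebra.smul_def, map_mul, ha, mul_zero])]
    exact Unitization.inr_smul ℂ c (LocD.toI a ha)

variable {D}

theorem LocD.rel_q {a : D.M} : D.rel.q a = 0 ↔ ∀ t, D.ev t a ∈ D.LC := LocD.q_iff

theorem LocD.rel_q_eq {a b : D.M} : D.rel.q a = D.rel.q b ↔ ∀ t, D.ev t a - D.ev t b ∈ D.LC := by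
  rw [← sub_eq_zero, ← map_sub, LocD.rel_q]
  simp only [map_sub]

theorem LocD.cont {T : Type} [TopologicalSpace T] {γ : T → D.M} (hγ : Continuous γ)
    (h : ∀ t, D.rel.q (γ t) = 0) : Continuous fun t => D.rel.j (γ t) := by
  have h1 : (fun t => LocD.jI (γ t)) = fun t => LocD.toI (γ t) (h t) :=
    funext fun t => LocD.jI_eq (h t)
  refine (Unitization.continuous_inr (𝕜 := ℂ) (A := D.I)).comp ?_
  rw [h1]
  exact (continuous_subtype_val.comp (show Continuous fun t => (γ t : D.MM) from hγ)).subtype_mk _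

variable (D)

/-- The augmentation. -/
noncomputable def LocD.aug : D.B →⋆ₐ[ℂ] ℂ :=
  { (Unitization.fstHom ℂ D.I : Unitization ℂ D.I →ₐ[ℂ] ℂ) with
    map_star' := fun x => Unitization.fst_star (x : Unitization ℂ D.I) }

/-- Evaluation on the ideal. -/
noncomputable def LocD.evI (t : ℝ≥0) : D.I →⋆ₙₐ[ℂ] E where
  toFun a := (a : D.II).1 t
  map_smul' _ _ := rfl
  map_zero' := rfl
  map_add' _ _ := rfl
  map_mul' _ _ := rfl
  map_star' _ := rfl

/-- Evaluation on the unitization, followed by a homomorphism. -/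
noncomputable def LocD.evB {E' : Type} [CStarAlgebra E'] (φ : E →⋆ₙₐ[ℂ] E') (t : ℝ≥0) :
    D.B →⋆ₐ[ℂ] E' := Unitization.starLift (φ.comp (D.evI t))

variable {D}

theorem LocD.aug_L (x : D.rel.P) : D.aug (D.rel.L x) = D.rel.sc x := by
  rw [Rel.L_apply, map_add, AlgHomClass.commutes]
  exact add_zero _

theorem LocD.evB_L {E' : Type} [CStarAlgebra E'] (φ : E →⋆ₙₐ[ℂ] E') (t : ℝ≥0) (x : D.rel.P) :
    D.evB φ t (D.rel.L x) = algebraMap ℂ E' (D.rel.sc x) +
      φ (D.ev t (D.rel.pr x - algebraMap ℂ D.M (D.rel.sc x))) := by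
  rw [Rel.L_apply, map_add, AlgHomClass.commutes]
  congr 1
  change D.evB φ t (LocD.inr (LocD.jI _)) = _
  rw [LocD.jI_eq (a := D.rel.pr x - algebraMap ℂ D.M (D.rel.sc x)) (D.rel.q_sub x)]
  change algebraMap ℂ E' 0 + _ = _
  rw [map_zero, zero_add]
  rfl

theorem LocD.exists_evB (b : D.B) : ∃ a : D.M, D.rel.q a = 0 ∧
    ∀ {E' : Type} [CStarAlgebra E'] (φ : E →⋆ₙₐ[ℂ] E') (t : ℝ≥0),
      D.evB φ t b = algebraMap ℂ E' (D.aug b) + φ (D.ev t a) := by
  let n : D.II := (show Unitization ℂ D.I from b).snd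
  refine ⟨(⟨n.1, n.2.1, fun t => LocD.idl_of_mem (n.2.2 t)⟩ : D.MM), LocD.q_iff.2 n.2.2, ?_⟩
  intro E' _ φ t
  rfl

end Vale.Agent.P212Z
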