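import Vale.Agent.P212Z.WitD
import Mathlib.RingTheory.Flat.Localization

/-! The coarse assembly map is not rationally injective. -/

set_option linter.unusedSectionVars false

namespace Vale.Agent.P212Z

open Vale.Agent.P212 Vale.Agent.P212.H268 ZeroAtInfty TensorProduct

theorem directed_KK (X : Type) [MetricSpace X] [BddGeometry X] :
    DirectedSystem (fun r : ℝ => KK C₀(Rips X r, ℂ))
      (fun _ _ h => KK.comap (ripsRes (X := X) h)) where
  map_self i x := by
    have h : KK.comap (ripsRes (X := X) (le_refl i)) = AddMonoidHom.id _ :=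
      KK.hom_ext fun c => KK.comap_cls _ c
    exact DFunLike.congr_fun h x
  map_map k j i hij hjk x := by
    have h : (KK.comap (ripsRes (X := X) hjk)).comp (KK.comap (ripsRes (X := X) hij)) =
        KK.comap (ripsRes (X := X) (hij.trans hjk)) := KK.hom_ext fun c => by
      rw [AddMonoidHom.comp_apply, KK.comap_cls, KK.comap_cls, KK.comap_cls]
      rfl
    exact DFunLike.congr_fun h x

theorem indep_wit (τ : Tower) :
    LinearIndependent ℤ fun α : ℕ → Bool => KX0.cls 2 (wit τ (seg α)) := by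
  refine linearIndependent_iff'.2 fun T c h => ?_
  have := directed_KK (XT τ)
  have h1 : AddCommGroup.DirectLimit.of (fun r : ℝ => KK C₀(Rips (XT τ) r, ℂ))
      (fun _ _ h => KK.comap (ripsRes h)) 2 (∑ α ∈ T, c α • KK.cls (wit τ (seg α))) = 0 := by
    rw [map_sum]
    simp only [map_zsmul]
    exact h
  obtain ⟨s, hs, h2⟩ := AddCommGroup.DirectLimit.of.zero_exact _ _ h1
  have hs1 : s ≤ ((⌈s⌉₊ : ℕ) : ℝ) := Nat.le_ceil s
  have h3 := (directed_KK (XT τ)).map_map hs hs1 (∑ α ∈ T, c α • KK.cls (wit τ (seg α)))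
  rw [h2, map_zero] at h3
  have h4 := congrArg (lamCtx (XT τ) (⌈s⌉₊ : ℕ)).hom h3
  rw [map_zero, map_sum, map_sum] at h4
  simp only [map_zsmul, lam_wit, smul_neg, Finset.sum_neg_distrib, zero_eq_neg] at h4
  exact lin_indep ⌈s⌉₊ (hs.trans hs1) (sysB _ _) (phiB (locSys _ _)) (phiB_ev _) (phiB_aug _)
    T c h4

theorem not_inj_rat {G : Type*} {H : Type*} [AddCommGroup G] [AddCommGroup H] (μ : G →+ H)
    (y : G) (h0 : μ y = 0) (hy : ∀ n : ℤ, n • y = 0 → n = 0) :
    ¬ Function.Injective (LinearMap.rTensor ℚ μ.toIntLinearMap) := by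
  intro h
  have : Module.Flat ℤ ℚ := IsLocalization.flat ℚ (nonZeroDivisors ℤ)
  have h1 : Function.Injective (LinearMap.toSpanSingleton ℤ G y) :=
    (injective_iff_map_eq_zero _).2 hy
  have h2 := Module.Flat.rTensor_preserves_injective_linearMap (M := ℚ) _ h1
  have h3 : y ⊗ₜ[ℤ] (1 : ℚ) = 0 := h (by
    rw [LinearMap.rTensor_tmul, map_zero, AddMonoidHom.coe_toIntLinearMap, h0, zero_tmul])
  have h4 : (1 : ℤ) ⊗ₜ[ℤ] (1 : ℚ) = 0 := h2 (by
    rw [LinearMap.rTensor_tmul, map_zero, LinearMap.toSpanSingleton_apply, one_smul, h3])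
  have h5 := congrArg (TensorProduct.lid ℤ ℚ) h4
  rw [lid_tmul, map_zero, one_smul] at h5
  exact one_ne_zero h5

end Vale.Agent.P212Z
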