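import Vale.Agent.P212Z.Sys

/-! Matrices of operators as operators, and the cycle of an essentially unitary operator. -/

set_option linter.unusedSectionVars false

namespace Vale.Agent.P212Z

open Vale.Agent.P212 Filter Topology Matrix
open ContinuousLinearMap hiding proj

section Hat

variable {E F : Type} [NormedAddCommGroup E] [InnerProductSpace ℂ E] [CompleteSpace E]
  [NormedAddCommGroup F] [InnerProductSpace ℂ F] [CompleteSpace F] {ι : Type} [Fintype ι]
  [DecidableEq ι] (v : ι → E →L[ℂ] F)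

/-- The operator `∑ v_a T_ab v_b*`. -/
noncomputable def hat (T : Matrix ι ι (E →L[ℂ] E)) : F →L[ℂ] F :=
  ∑ a, ∑ b, v a ∘L T a b ∘L adjoint (v b)

theorem hat_add (S T : Matrix ι ι (E →L[ℂ] E)) : hat v (S + T) = hat v S + hat v T := by
  simp only [hat, Matrix.add_apply, add_comp, comp_add, Finset.sum_add_distrib]

theorem hat_sub (S T : Matrix ι ι (E →L[ℂ] E)) : hat v (S - T) = hat v S - hat v T := by
  simp only [hat, Matrix.sub_apply, sub_comp, comp_sub, Finset.sum_sub_distrib]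

theorem hat_neg (T : Matrix ι ι (E →L[ℂ] E)) : hat v (-T) = -hat v T := by
  simp only [hat, Matrix.neg_apply, neg_comp, comp_neg, Finset.sum_neg_distrib]

theorem hat_smul (c : ℂ) (T : Matrix ι ι (E →L[ℂ] E)) : hat v (c • T) = c • hat v T := by
  simp only [hat, Matrix.smul_apply, smul_comp, comp_smul, Finset.smul_sum]

theorem hat_zero : hat v 0 = 0 := by
  simp only [hat, Matrix.zero_apply, zero_comp, comp_zero, Finset.sum_const_zero]

theorem hat_star (T : Matrix ι ι (E →L[ℂ] E)) : hat v Tᴴ = star (hat v T) := by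
  rw [hat, hat, star_sum, Finset.sum_comm]
  refine Finset.sum_congr rfl fun a _ => ?_
  rw [star_sum]
  refine Finset.sum_congr rfl fun b _ => ?_
  rw [conjTranspose_apply, star_eq_adjoint, star_eq_adjoint, adjoint_comp, adjoint_comp,
    adjoint_adjoint, comp_assoc]

theorem cpt_hat {T : Matrix ι ι (E →L[ℂ] E)} (h : ∀ a b, Cpt (T a b)) : Cpt (hat v T) :=
  Cpt.sum _ _ fun a _ => Cpt.sum _ _ fun b _ => ((h a b).comp_right _).comp_left _

theorem norm_hat_le (hv : ∀ a, ‖v a‖ ≤ 1) (T : Matrix ι ι (E →L[ℂ] E)) :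
    ‖hat v T‖ ≤ ∑ a, ∑ b, ‖T a b‖ := by
  refine norm_sum_le_of_le _ fun a _ => norm_sum_le_of_le _ fun b _ => ?_
  have h1 : ‖adjoint (v b)‖ ≤ 1 := by rw [LinearIsometryEquiv.norm_map]; exact hv b
  calc _ ≤ ‖v a‖ * (‖T a b‖ * ‖adjoint (v b)‖) :=
        (opNorm_comp_le _ _).trans (mul_le_mul_of_nonneg_left (opNorm_comp_le _ _) (norm_nonneg _))
    _ ≤ 1 * (‖T a b‖ * 1) := by gcongr; exact hv a
    _ = _ := by ring

variable {v}

theorem mul_hat {m : E →L[ℂ] E} {m' : F →L[ℂ] F} (h : ∀ a, m' ∘L v a = v a ∘L m)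
    (T : Matrix ι ι (E →L[ℂ] E)) : m' * hat v T = hat v (T.map fun x => m * x) := by
  rw [hat, hat, Finset.mul_sum]
  refine Finset.sum_congr rfl fun a _ => ?_
  rw [Finset.mul_sum]
  refine Finset.sum_congr rfl fun b _ => ?_
  rw [mul_def, ← comp_assoc, h]
  rfl

theorem hat_mul' {m : E →L[ℂ] E} {m' : F →L[ℂ] F}
    (h : ∀ a, adjoint (v a) ∘L m' = m ∘L adjoint (v a))
    (T : Matrix ι ι (E →L[ℂ] E)) : hat v T * m' = hat v (T.map fun x => x * m) := by
  rw [hat, hat, Finset.sum_mul]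
  refine Finset.sum_congr rfl fun a _ => ?_
  rw [Finset.sum_mul]
  refine Finset.sum_congr rfl fun b _ => ?_
  rw [mul_def, comp_assoc, comp_assoc, h]
  rfl

variable {P : E →L[ℂ] E}

theorem adj_hat (hv : ∀ a b, adjoint (v a) ∘L v b = if a = b then P else 0)
    (T : Matrix ι ι (E →L[ℂ] E)) (a : ι) :
    adjoint (v a) ∘L hat v T = ∑ b, (P * T a b) ∘L adjoint (v b) := by
  rw [hat, comp_finsetSum, Finset.sum_eq_single a, comp_finsetSum]
  · refine Finset.sum_congr rfl fun b _ => ?_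
    rw [← comp_assoc, hv, if_pos rfl]
    rfl
  · intro c _ hc
    rw [comp_finsetSum]
    refine Finset.sum_eq_zero fun b _ => ?_
    rw [← comp_assoc, hv, if_neg hc.symm, zero_comp]
  · exact fun h => (h (Finset.mem_univ a)).elim

theorem adj_hat_v (hv : ∀ a b, adjoint (v a) ∘L v b = if a = b then P else 0)
    (T : Matrix ι ι (E →L[ℂ] E)) (a b : ι) :
    adjoint (v a) ∘L hat v T ∘L v b = P * T a b * P := by
  rw [← comp_assoc, adj_hat hv, finsetSum_comp, Finset.sum_eq_single b]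
  · rw [comp_assoc, hv, if_pos rfl]
    rfl
  · intro c _ hc
    rw [comp_assoc, hv, if_neg hc, comp_zero]
  · exact fun h => (h (Finset.mem_univ b)).elim

theorem hat_mul (hv : ∀ a b, adjoint (v a) ∘L v b = if a = b then P else 0)
    (hP : ∀ a, P ∘L adjoint (v a) = adjoint (v a)) (S : Matrix ι ι (E →L[ℂ] E))
    {T : Matrix ι ι (E →L[ℂ] E)} (hT : ∀ a b, P * T a b = T a b * P) :
    hat v (S * T) = hat v S * hat v T := by
  rw [hat, hat, Finset.sum_mul]
  refine Finset.sum_congr rfl fun a _ => ?_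
  rw [Finset.sum_mul]
  simp only [Matrix.mul_apply, finsetSum_comp, comp_finsetSum]
  rw [Finset.sum_comm]
  refine Finset.sum_congr rfl fun b _ => ?_
  rw [mul_def, comp_assoc, comp_assoc, adj_hat hv, comp_finsetSum, comp_finsetSum]
  refine Finset.sum_congr rfl fun c _ => ?_
  rw [hT, mul_def (T b c), comp_assoc, hP]
  rfl

end Hat

section Cyc

variable {A : Type} [NonUnitalCStarAlgebra A] {J : Type}

/-- The two inclusions. -/
noncomputable def vv (J : Type) (a : Fin 2) : L2 J →L[ℂ] L2 (Fin 2 × J) :=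
  pushL2 (fun j => (a, j)) fun _ _ h => (Prod.mk.inj h).2

theorem vv_orth (a b : Fin 2) : adjoint (vv J a) ∘L vv J b = if a = b then 1 else 0 := by
  split_ifs with h
  · subst h
    exact adjoint_pushL2_comp _
  · exact adj_push_push_zero _ _ fun j k e => h (Prod.mk.inj e).1

theorem vv_iso (a : Fin 2) : adjoint (vv J a) ∘L vv J a = 1 := adjoint_pushL2_comp _

theorem hat_vv_mul (S T : Matrix (Fin 2) (Fin 2) (L2 J →L[ℂ] L2 J)) :
    hat (vv J) S * hat (vv J) T = hat (vv J) (S * T) :=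
  (hat_mul vv_orth (fun _ => rfl) S fun _ _ => by rw [one_mul, mul_one]).symm

theorem hat_vv_one : hat (vv J) 1 = 1 := by
  have h : ∀ a, vv J a ∘L adjoint (vv J a) = proj (Set.range fun j : J => (a, j)) :=
    fun a => pushL2_comp_adjoint _
  have h1 : (Set.range fun j : J => ((1 : Fin 2), j)) = (Set.range fun j : J => ((0 : Fin 2), j))ᶜ := by
    ext ⟨a, j⟩
    fin_cases a <;> simp
  rw [← Approx.proj_add_compl (Set.range fun j : J => ((0 : Fin 2), j)), ← h1, ← h, ← h, hat]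
  simp only [Fin.sum_univ_two, one_apply_eq, one_apply_ne (zero_ne_one' (Fin 2)),
    one_apply_ne (zero_ne_one' (Fin 2)).symm, zero_comp, comp_zero, add_zero, zero_add]
  rfl

variable [Countable J] (ρ : A →⋆ₙₐ[ℂ] (L2 J →L[ℂ] L2 J))

theorem star_fin_two {R : Type} [Star R] (a b c d : R) :
    !![a, b; c, d]ᴴ = !![star a, star c; star b, star d] := by
  ext i j
  fin_cases i <;> fin_cases j <;> rfl

/-- The double of a representation. -/
noncomputable def dblRep : GradedRep A where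
  H := L2 (Fin 2 × J)
  separable := separable_L2 _
  γ := hat (vv J) !![1, 0; 0, -1]
  γ_star := by rw [← hat_star, star_fin_two, star_one, star_zero, star_neg, star_one]
  γ_sq := by
    rw [hat_vv_mul, ← hat_vv_one, one_fin_two, mul_fin_two]
    simp
  ρ :=
    { toFun := fun a => hat (vv J) !![ρ a, 0; 0, ρ a]
      map_smul' := fun c a => by
        rw [MonoidHom.id_apply, ← hat_smul, map_smul]
        simp
      map_zero' := by
        rw [map_zero, ← hat_zero (vv J)]
        congr 1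
        ext1 i j
        fin_cases i <;> fin_cases j <;> rfl
      map_add' := fun a b => by
        rw [← hat_add, map_add]
        simp
      map_mul' := fun a b => by
        rw [hat_vv_mul, map_mul, mul_fin_two]
        simp
      map_star' := fun a => by rw [← hat_star, star_fin_two, star_zero, map_star] }
  even a := by
    change _ * hat (vv J) _ = hat (vv J) _ * _
    rw [hat_vv_mul, hat_vv_mul, mul_fin_two, mul_fin_two]
    simp

theorem dblRep_ρ (a : A) : (dblRep ρ).ρ a = hat (vv J) !![ρ a, 0; 0, ρ a] := rfl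

theorem cpt_fin_two {a b c d : L2 J →L[ℂ] L2 J} (ha : Cpt a) (hb : Cpt b) (hc : Cpt c)
    (hd : Cpt d) : Cpt (hat (vv J) !![a, b; c, d]) := by
  refine cpt_hat _ fun i j => ?_
  fin_cases i <;> fin_cases j
  exacts [ha, hb, hc, hd]

theorem dbl_sq {R : Type} [Ring R] (u u' a : R) :
    (!![0, u'; u, 0] * !![0, u'; u, 0] - 1) * !![a, 0; 0, a] =
      !![(u' * u - 1) * a, 0; 0, (u * u' - 1) * a] := by
  ext i j
  fin_cases i <;> fin_cases j <;> simp [Matrix.mul_apply]

theorem dbl_comm {R : Type} [Ring R] (u u' a : R) :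
    !![0, u'; u, 0] * !![a, 0; 0, a] - !![a, 0; 0, a] * !![0, u'; u, 0] =
      !![0, u' * a - a * u'; u * a - a * u, 0] := by
  ext i j
  fin_cases i <;> fin_cases j <;> simp

theorem dbl_odd {R : Type} [Ring R] (u u' : R) :
    !![1, 0; 0, -1] * !![0, u'; u, 0] = -(!![0, u'; u, 0] * !![1, 0; 0, -1]) := by
  ext i j
  fin_cases i <;> fin_cases j <;> simp

theorem dbl_fredholm {U : L2 J →L[ℂ] L2 J} (h₀ : ∀ a, Cpt (U * ρ a - ρ a * U))
    (h₁ : ∀ a, Cpt ((star U * U - 1) * ρ a)) (h₂ : ∀ a, Cpt ((U * star U - 1) * ρ a)) :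
    IsFredholm (dblRep ρ) (hat (vv J) !![0, star U; U, 0]) := by
  have k1 : hat (vv J) !![1, 0; 0, -1] * hat (vv J) !![0, star U; U, 0] =
      -(hat (vv J) !![0, star U; U, 0] * hat (vv J) !![1, 0; 0, -1]) := by
    rw [hat_vv_mul, hat_vv_mul, ← hat_neg, dbl_odd]
  have k2 : ∀ a, Cpt ((hat (vv J) !![0, star U; U, 0] * hat (vv J) !![0, star U; U, 0] - 1) *
      hat (vv J) !![ρ a, 0; 0, ρ a]) := by
    intro a
    rw [hat_vv_mul, ← hat_vv_one, ← hat_sub, hat_vv_mul, dbl_sq]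
    exact cpt_fin_two (h₁ a) Cpt.zero Cpt.zero (h₂ a)
  have k3 : ∀ a, Cpt ((hat (vv J) !![0, star U; U, 0] - star (hat (vv J) !![0, star U; U, 0])) *
      hat (vv J) !![ρ a, 0; 0, ρ a]) := by
    intro a
    rw [← hat_star, star_fin_two, star_zero, star_star, sub_self, zero_mul]
    exact Cpt.zero
  have k4 : ∀ a, Cpt (hat (vv J) !![0, star U; U, 0] * hat (vv J) !![ρ a, 0; 0, ρ a] -
      hat (vv J) !![ρ a, 0; 0, ρ a] * hat (vv J) !![0, star U; U, 0]) := by
    intro a
    rw [hat_vv_mul, hat_vv_mul, ← hat_sub, dbl_comm]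
    have h3 := (h₀ (star a)).star.neg
    rw [star_sub, star_mul, star_mul, ← map_star, star_star, neg_sub] at h3
    exact cpt_fin_two Cpt.zero h3 (h₀ a) Cpt.zero
  exact ⟨k1, k2, k3, k4⟩

/-- The cycle of an essentially unitary operator. -/
noncomputable def dblCyc {U : L2 J →L[ℂ] L2 J} (h₀ : ∀ a, Cpt (U * ρ a - ρ a * U))
    (h₁ : ∀ a, Cpt ((star U * U - 1) * ρ a)) (h₂ : ∀ a, Cpt ((U * star U - 1) * ρ a)) :
    Cycle A := ⟨dblRep ρ, hat (vv J) !![0, star U; U, 0], dbl_fredholm ρ h₀ h₁ h₂⟩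

theorem dblRep_e₀ (a : A) : (dblRep ρ).ρ a * (dblRep ρ).e₀ = cj (vv J 0) (ρ a) := by
  change hat (vv J) _ * ((1 / 2 : ℂ) • (1 + hat (vv J) _)) = _
  rw [← hat_vv_one, ← hat_add, ← hat_smul, hat_vv_mul, one_fin_two]
  have h : (1 / 2 : ℂ) • ((1 : L2 J →L[ℂ] L2 J) + 1) = 1 := by
    rw [← two_smul ℂ, smul_smul]
    norm_num
  simp only [hat, Fin.sum_univ_two, Matrix.mul_apply, Matrix.smul_apply, Matrix.add_apply, of_apply,
    cons_val', cons_val_zero, cons_val_one, cons_val_fin_one, h, add_zero, smul_zero, mul_zero,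
    add_neg_cancel, zero_comp, comp_zero, mul_one]
  rfl

theorem dblRep_e₁ (a : A) : (dblRep ρ).ρ a * (dblRep ρ).e₁ = cj (vv J 1) (ρ a) := by
  change hat (vv J) _ * ((1 / 2 : ℂ) • (1 - hat (vv J) _)) = _
  rw [← hat_vv_one, ← hat_sub, ← hat_smul, hat_vv_mul, one_fin_two]
  have h : (1 / 2 : ℂ) • ((1 : L2 J →L[ℂ] L2 J) - -1) = 1 := by
    rw [sub_neg_eq_add, ← two_smul ℂ, smul_smul]
    norm_num
  simp only [hat, Fin.sum_univ_two, Matrix.mul_apply, Matrix.smul_apply, Matrix.sub_apply, of_apply,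
    cons_val', cons_val_zero, cons_val_one, cons_val_fin_one, h, smul_zero, mul_zero,
    sub_self, zero_comp, comp_zero, mul_one, zero_add]
  rfl

theorem dbl_F (U : L2 J →L[ℂ] L2 J) (w : L2 (Fin 2 × J) →L[ℂ] L2 ℕ) (hw : adjoint w ∘L w = 1) :
    adjoint (w ∘L vv J 1) ∘L cj w (hat (vv J) !![0, star U; U, 0]) ∘L (w ∘L vv J 0) = U ∧
    adjoint (w ∘L vv J 0) ∘L cj w (hat (vv J) !![0, star U; U, 0]) ∘L (w ∘L vv J 1) = star U := by
  have h : ∀ a b, adjoint (w ∘L vv J a) ∘L cj w (hat (vv J) !![0, star U; U, 0]) ∘L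
      (w ∘L vv J b) = !![0, star U; U, 0] a b := by
    intro a b
    have h1 := adj_hat_v vv_orth !![0, star U; U, 0] a b
    rw [one_mul, mul_one] at h1
    rw [← h1, ← comp_assoc (cj w _), cj_comp_iso hw, adjoint_comp, comp_assoc, comp_assoc,
      ← comp_assoc (adjoint w), hw]
    rfl
  exact ⟨h 1 0, h 0 1⟩

end Cyc

end Vale.Agent.P212Z
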