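import Vale.Agent.P212Z.Ind

/-! The index of a compressed shift, and compressions of pairs. -/

set_option linter.unusedSectionVars false

namespace Vale.Agent.P212Z

open Vale.Agent.P212 Matrix

section Cut

variable {M Q B : Type} [Ring M] [Algebra ℂ M] [Ring Q] [NormedRing B] [NormedAlgebra ℂ B]
  [CompleteSpace B] {R : Rel M Q B} {ι : Type} [Fintype ι] [DecidableEq ι]

theorem cut_aux {x : Matrix ι Unit M} {y : Matrix Unit ι M} {e g : Matrix ι ι M}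
    (he : e * e = e) (hg : g * g = g) (h1 : e * (x * y) * e + g = e) (h2 : e * g = g)
    (h3 : g * e = g) (h4 : y * g = 0) (h5 : g * x = 0) :
    fromCols (e * x) g * fromRows (y * e) g = e ∧
      fromRows (y * e) g * fromCols (e * x) g = fromBlocks (y * e * x) 0 0 g := by
  constructor
  · rw [fromCols_mul_fromRows, hg]
    refine Eq.trans ?_ h1
    simp only [Matrix.mul_assoc]
  · rw [fromRows_mul_fromCols, hg, Matrix.mul_assoc y e g, h2, h4, ← Matrix.mul_assoc g, h3, h5,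
      Matrix.mul_assoc y e, ← Matrix.mul_assoc e, he, Matrix.mul_assoc]

/-- Compression of a pair. -/
theorem IPair.del_cut (w : IPair R ι) (v : IPair R Unit) (x : Matrix ι Unit M)
    (y : Matrix Unit ι M) (hxyx : x * y * x = x) (hyxy : y * (x * y) = y)
    (ce : x * y * w.e = w.e * (x * y)) (cf : x * y * w.f = w.f * (x * y))
    (hef : (1 - x * y) * w.e = (1 - x * y) * w.f) (he : v.e = y * w.e * x)
    (hf : v.f = y * w.f * x) : v.del = w.del := by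
  set p := x * y with hp
  have pp : p * p = p := by rw [hp, ← Matrix.mul_assoc, hxyx]
  have key : ∀ e : Matrix ι ι M, e * e = e → p * e = e * p →
      (1 - p) * e * ((1 - p) * e) = (1 - p) * e ∧
      fromCols (e * x) ((1 - p) * e) * fromRows (y * e) ((1 - p) * e) = e ∧
      fromRows (y * e) ((1 - p) * e) * fromCols (e * x) ((1 - p) * e) =
        fromBlocks (y * e * x) 0 0 ((1 - p) * e) := by
    intro e he hc
    have c1 : e * (1 - p) = (1 - p) * e := by rw [mul_sub, sub_mul, hc, mul_one, one_mul]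
    have c2 : e * ((1 - p) * e) = (1 - p) * e := by rw [← mul_assoc, c1, mul_assoc, he]
    have c3 : (1 - p) * e * ((1 - p) * e) = (1 - p) * e := by
      rw [mul_assoc, c2, ← mul_assoc, one_sub_idem pp]
    refine ⟨c3, cut_aux he c3 ?_ c2 (by rw [mul_assoc, he]) ?_ ?_⟩
    · rw [← hp, ← hc, mul_assoc, he, ← add_mul, add_sub_cancel, one_mul]
    · rw [← Matrix.mul_assoc, Matrix.mul_sub, Matrix.mul_one, hyxy, sub_self, Matrix.zero_mul]
    · rw [← c1, Matrix.mul_assoc, Matrix.sub_mul, Matrix.one_mul, hxyx, sub_self, Matrix.mul_zero]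
  obtain ⟨a1, a2, a3⟩ := key w.e w.he ce
  obtain ⟨-, b2, b3⟩ := key w.f w.hf cf
  let g : IPair R ι := ⟨(1 - p) * w.e, (1 - p) * w.e, a1, a1, rfl⟩
  have h := IPair.del_mvn w (v.sum g) _ _ _ _ a2 (by rw [a3, ← he]; rfl) b2
    (by rw [b3, ← hf, ← hef]; rfl)
    (by rw [fromCols_map, fromCols_map, Matrix.map_mul, Matrix.map_mul, Matrix.map_mul,
      Matrix.map_mul, w.h])
    (by rw [fromRows_map, fromRows_map, Matrix.map_mul, Matrix.map_mul, Matrix.map_mul,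
      Matrix.map_mul, w.h])
  rw [h, IPair.del_sum, g.del_self rfl, add_zero]

theorem cut_idem {x : Matrix ι Unit M} {y : Matrix Unit ι M} {e : Matrix ι ι M} (he : e * e = e)
    (hxyx : x * y * x = x) (ce : x * y * e = e * (x * y)) : y * e * x * (y * e * x) = y * e * x := by
  calc _ = y * e * (x * y * e) * x := by simp only [Matrix.mul_assoc]
    _ = y * (e * e) * (x * y * x) := by rw [ce]; simp only [Matrix.mul_assoc]
    _ = _ := by rw [he, hxyx]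

/-- The compressed pair. -/
def IPair.cut (w : IPair R ι) (x : Matrix ι Unit M) (y : Matrix Unit ι M)
    (hxyx : x * y * x = x) (ce : x * y * w.e = w.e * (x * y))
    (cf : x * y * w.f = w.f * (x * y)) : IPair R Unit :=
  ⟨y * w.e * x, y * w.f * x, cut_idem w.he hxyx ce, cut_idem w.hf hxyx cf, by
    rw [Matrix.map_mul, Matrix.map_mul, Matrix.map_mul, Matrix.map_mul, w.h]⟩

end Cut

section Jump

variable {M Q B : Type} [NormedRing M] [Algebra ℂ M] [CompleteSpace M] [Ring Q] [NormedRing B]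
  [NormedAlgebra ℂ B] [CompleteSpace B] {R : Rel M Q B}

/-- The relations between a projection, a shift and the slots of the jump. -/
structure JumpD (R : Rel M Q B) (π ε S S' Q₀ Q₁ : M) : Prop where
  ππ : π * π = π
  πε : π * ε = ε
  επ : ε * π = ε
  εε : ε * ε = ε
  Q₀₀ : Q₀ * Q₀ = Q₀
  Q₁₁ : Q₁ * Q₁ = Q₁
  c₀ : Q₀ * ε = ε * Q₀
  c₁ : Q₁ * ε = ε * Q₁
  s₀ : S * Q₀ = Q₁ * S
  s₁ : S' * Q₁ = Q₀ * S'
  q₀ : R.q (ε * S' * ε * S * ε) = R.q ε
  q₁ : R.q (ε * S * ε * S' * ε) = R.q ε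
  n₀ : ‖(ε - ε * S' * ε * S * ε) * (1 - Q₀)‖ < 1
  n₁ : ‖(ε - ε * S * ε * S' * ε) * (1 - Q₁)‖ < 1

variable {π ε S S' Q₀ Q₁ : M}

theorem JumpD.swap (h : JumpD R π ε S S' Q₀ Q₁) : JumpD R π ε S' S Q₁ Q₀ :=
  ⟨h.ππ, h.πε, h.επ, h.εε, h.Q₁₁, h.Q₀₀, h.c₁, h.c₀, h.s₁, h.s₀, h.q₁, h.q₀, h.n₁, h.n₀⟩

theorem JumpD.l (h : JumpD R π ε S S' Q₀ Q₁) (a : M) : ε * (ε * a) = ε * a := by
  rw [← mul_assoc, h.εε]

theorem JumpD.pl (h : JumpD R π ε S S' Q₀ Q₁) (a : M) : π * (ε * a) = ε * a := by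
  rw [← mul_assoc, h.πε]

theorem JumpD.idem (h : JumpD R π ε S S' Q₀ Q₁) : ε * Q₀ * (ε * Q₀) = ε * Q₀ := by
  rw [mul_assoc, ← mul_assoc Q₀, h.c₀, mul_assoc, h.Q₀₀, h.l]

theorem JumpD.orth (h : JumpD R π ε S S' Q₀ Q₁) : (π - ε * Q₀) * (ε * Q₀) = 0 := by
  rw [sub_mul, h.idem, h.pl, sub_self]

theorem JumpD.Qπ (h : JumpD R π ε S S' Q₀ Q₁) : ε * Q₀ * π = ε * Q₀ := by
  rw [← h.c₀, mul_assoc, h.επ]

theorem JumpD.orth' (h : JumpD R π ε S S' Q₀ Q₁) : ε * Q₀ * (π - ε * Q₀) = 0 := by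
  rw [mul_sub, h.idem, h.Qπ, sub_self]

theorem JumpD.idem' (h : JumpD R π ε S S' Q₀ Q₁) :
    (π - ε * Q₀) * (π - ε * Q₀) = π - ε * Q₀ := by
  rw [mul_sub, h.orth, sub_zero, sub_mul, h.ππ, h.Qπ]

theorem JumpD.slide (h : JumpD R π ε S S' Q₀ Q₁) : ε * S * ε * Q₀ = Q₁ * (ε * S * ε) := by
  rw [mul_assoc _ ε, ← h.c₀, ← mul_assoc, mul_assoc ε, h.s₀, ← mul_assoc, ← h.c₁]
  simp only [mul_assoc]

theorem JumpD.b₀ (h : JumpD R π ε S S' Q₀ Q₁) : ε * S * ε * Q₀ * (ε * Q₀) = ε * S * ε * Q₀ := by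
  rw [mul_assoc (ε * S), mul_assoc, h.idem]

theorem JumpD.b₁ (h : JumpD R π ε S S' Q₀ Q₁) : ε * Q₁ * (ε * S * ε * Q₀) = ε * S * ε * Q₀ := by
  rw [h.slide, mul_assoc, ← mul_assoc Q₁, h.Q₁₁, ← h.slide]
  simp only [mul_assoc, h.l]

theorem JumpD.b₂ (h : JumpD R π ε S S' Q₀ Q₁) :
    ε * S' * ε * Q₁ * (ε * S * ε * Q₀) = ε * S' * ε * S * ε * Q₀ := by
  rw [mul_assoc (ε * S') ε, mul_assoc, h.b₁]
  simp only [mul_assoc]

theorem JumpD.a₀ (h : JumpD R π ε S S' Q₀ Q₁) :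
    (ε * S * ε * (1 - Q₀) + (π - ε)) * (π - ε * Q₀) = ε * S * ε * (1 - Q₀) + (π - ε) := by
  have h1 : (π - ε) * (ε * Q₀) = 0 := by rw [sub_mul, h.pl, h.l, sub_self]
  have h2 : ε * S * ε * (1 - Q₀) * π = ε * S * ε * (1 - Q₀) := by
    rw [mul_sub, sub_mul, mul_one, mul_assoc _ ε π, h.επ, mul_assoc (ε * S) ε Q₀,
      mul_assoc _ _ π, h.Qπ]
  have h3 : ε * S * ε * (1 - Q₀) * (ε * Q₀) = 0 := by
    rw [mul_sub, sub_mul, mul_one, h.b₀, mul_assoc (ε * S) ε, h.l, ← mul_assoc, sub_self]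
  rw [mul_sub, add_mul, add_mul, h1, h2, h3, sub_mul, h.ππ, h.επ, add_zero, sub_zero]

theorem JumpD.a₁ (h : JumpD R π ε S S' Q₀ Q₁) :
    (π - ε * Q₁) * (ε * S * ε * (1 - Q₀) + (π - ε)) = ε * S * ε * (1 - Q₀) + (π - ε) := by
  have h1 : ε * Q₁ * (π - ε) = 0 := by
    rw [mul_sub, h.swap.Qπ, mul_assoc, h.c₁, h.l, sub_self]
  have h2 : π * (ε * S * ε * (1 - Q₀)) = ε * S * ε * (1 - Q₀) := by
    simp only [mul_assoc, h.pl]
  have h3 : ε * Q₁ * (ε * S * ε * (1 - Q₀)) = 0 := by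
    rw [mul_sub, mul_sub, mul_one, h.b₁, mul_assoc, ← h.slide]
    simp only [mul_assoc, h.l, sub_self]
  rw [sub_mul, mul_add, mul_add, h1, h2, h3, mul_sub π, h.ππ, h.πε, add_zero, sub_zero]

theorem JumpD.a₂ (h : JumpD R π ε S S' Q₀ Q₁) :
    π - ε * Q₀ - (ε * S' * ε * (1 - Q₁) + (π - ε)) * (ε * S * ε * (1 - Q₀) + (π - ε)) =
      (ε - ε * S' * ε * S * ε) * (1 - Q₀) := by
  have h1 : (π - ε) * (π - ε) = π - ε := by
    rw [mul_sub, sub_mul, sub_mul, h.ππ, h.επ, h.πε, h.εε, sub_self, sub_zero]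
  have h2 : (π - ε) * (ε * S * ε * (1 - Q₀)) = 0 := by
    simp only [sub_mul, mul_assoc, h.pl, h.l, sub_self]
  have h3 : ε * S' * ε * (1 - Q₁) * (π - ε) = 0 := by
    have h4 : ε * (1 - Q₁) = (1 - Q₁) * ε := by rw [mul_sub, sub_mul, h.c₁, mul_one, one_mul]
    rw [mul_assoc (ε * S'), h4, mul_assoc, mul_assoc (1 - Q₁), mul_sub ε, h.επ, h.εε, sub_self,
      mul_zero, mul_zero]
  have h4 : ε * S' * ε * (1 - Q₁) * (ε * S * ε * (1 - Q₀)) = ε * S' * ε * S * ε * (1 - Q₀) := by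
    have h5 : Q₁ * (ε * S * ε * (1 - Q₀)) = 0 := by
      rw [← mul_assoc, ← h.slide, mul_assoc, mul_sub, h.Q₀₀, mul_one, sub_self, mul_zero]
    rw [mul_assoc _ (1 - Q₁), sub_mul, h5, one_mul, sub_zero]
    simp only [mul_assoc, h.l]
  rw [add_mul, mul_add, mul_add, h1, h2, h3, h4]
  noncomm_ring

theorem JumpD.qa (h : JumpD R π ε S S' Q₀ Q₁) :
    R.q ((ε * S' * ε * (1 - Q₁) + (π - ε)) * (ε * S * ε * (1 - Q₀) + (π - ε))) =
      R.q (π - ε * Q₀) := by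
  rw [eq_comm, ← sub_eq_zero, ← map_sub, h.a₂, map_mul, map_sub, h.q₀, sub_self, zero_mul]

/-- The part of the operator away from the jump. -/
def JumpD.da (h : JumpD R π ε S S' Q₀ Q₁) : IDat R :=
  ⟨π - ε * Q₀, π - ε * Q₁, ε * S * ε * (1 - Q₀) + (π - ε), ε * S' * ε * (1 - Q₁) + (π - ε),
    h.idem', h.swap.idem', h.a₀, h.a₁, h.swap.a₁, h.swap.a₀, h.qa, h.swap.qa⟩

/-- The part of the operator at the jump. -/
def JumpD.db (h : JumpD R π ε S S' Q₀ Q₁) : IDat R :=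
  ⟨ε * Q₀, ε * Q₁, ε * S * ε * Q₀, ε * S' * ε * Q₁, h.idem, h.swap.idem, h.b₀, h.b₁, h.swap.b₁,
    h.swap.b₀, by rw [h.b₂, map_mul, h.q₀, ← map_mul],
    by rw [h.swap.b₂, map_mul, h.q₁, ← map_mul]⟩

theorem JumpD.t₀ (h : JumpD R π ε S S' Q₀ Q₁) :
    (ε * S * ε + (π - ε)) * π = ε * S * ε + (π - ε) := by
  rw [add_mul, sub_mul, mul_assoc, h.επ, h.ππ]

theorem JumpD.t₁ (h : JumpD R π ε S S' Q₀ Q₁) :
    π * (ε * S * ε + (π - ε)) = ε * S * ε + (π - ε) := by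
  rw [mul_add, mul_sub, mul_assoc ε, h.pl, h.πε, h.ππ]

theorem JumpD.t₂ (h : JumpD R π ε S S' Q₀ Q₁) :
    R.q ((ε * S' * ε + (π - ε)) * (ε * S * ε + (π - ε))) = R.q π := by
  have h1 : (π - ε) * (π - ε) = π - ε := by
    rw [mul_sub, sub_mul, sub_mul, h.ππ, h.επ, h.πε, h.εε, sub_self, sub_zero]
  have h2 : (π - ε) * (ε * S * ε) = 0 := by
    simp only [sub_mul, mul_assoc, h.pl, h.l, sub_self]
  have h3 : ε * S' * ε * (π - ε) = 0 := by
    rw [mul_assoc, mul_sub, h.επ, h.εε, sub_self, mul_zero]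
  have h4 : ε * S' * ε * (ε * S * ε) = ε * S' * ε * S * ε := by simp only [mul_assoc, h.l]
  rw [add_mul, mul_add, mul_add, h1, h2, h3, h4, add_zero, zero_add, map_add, h.q₀, ← map_add,
    add_sub_cancel]

/-- The compressed shift. -/
def JumpD.d (h : JumpD R π ε S S' Q₀ Q₁) : IDat R :=
  ⟨π, π, ε * S * ε + (π - ε), ε * S' * ε + (π - ε), h.ππ, h.ππ, h.t₀, h.t₁, h.swap.t₁, h.swap.t₀,
    h.t₂, h.swap.t₂⟩

theorem JumpD.ind_d (h : JumpD R π ε S S' Q₀ Q₁) : h.d.ind = h.db.ind := by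
  have h1 := IDat.ind_add h.d h.da h.db (sub_add_cancel _ _).symm (sub_add_cancel _ _).symm
    (by change ε * S * ε + (π - ε) = ε * S * ε * (1 - Q₀) + (π - ε) + ε * S * ε * Q₀; noncomm_ring)
    (by
      change ε * S' * ε + (π - ε) = ε * S' * ε * (1 - Q₁) + (π - ε) + ε * S' * ε * Q₁
      noncomm_ring) h.orth h.orth' h.swap.orth h.swap.orth'
  rw [h1, h.da.ind_eq_zero_of_small (h.a₂.symm ▸ h.n₀) (h.swap.a₂.symm ▸ h.n₁), zero_add]

/-- The index of the compressed shift is the difference class of the jump. -/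
theorem JumpD.ind_eq (h : JumpD R π ε S S' Q₀ Q₁) (hS : S' * S * ε = ε) (v : IPair R Unit)
    (he : v.e () () = S * (ε * Q₀) * S') (hf : v.f () () = ε * Q₁) : h.d.ind = v.del := by
  have hq : R.q (S * (ε * Q₀) * S') = R.q (ε * Q₁) := by
    rw [← he, ← hf]
    exact congrFun (congrFun v.h ()) ()
  have h1 : ε * Q₀ * S' * (S * (ε * Q₀)) = ε * Q₀ := by
    rw [mul_assoc, ← mul_assoc S', ← mul_assoc (S' * S), hS, h.idem]
  rw [h.ind_d]
  refine h.db.ind_eq v (fun _ => S * (ε * Q₀)) (fun _ => ε * Q₀ * S') (fun _ => ε * Q₁)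
    (fun _ => ε * Q₁) ?_ ?_ ?_ ?_ (fun _ => ?_) (fun _ => ?_)
  · ext i k
    change v.e () () = S * (ε * Q₀) * (ε * Q₀ * S')
    rw [he, mul_assoc S (ε * Q₀) (ε * Q₀ * S'), ← mul_assoc (ε * Q₀), h.idem, mul_assoc S]
  · rw [dotProduct, Fintype.sum_unique]
    exact h1
  · ext i k
    change v.f () () = ε * Q₁ * (ε * Q₁)
    rw [hf, h.swap.idem]
  · rw [dotProduct, Fintype.sum_unique]
    exact h.swap.idem
  · change R.q (S * (ε * Q₀)) = R.q (ε * Q₁ * (ε * S * ε * Q₀))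
    have h2 : ε * Q₁ * (ε * S * ε * Q₀) = ε * Q₁ * (S * (ε * Q₀)) := by
      rw [← h.c₁]
      simp only [mul_assoc, h.l]
    rw [h2, map_mul R.q (ε * Q₁), ← hq, ← map_mul, mul_assoc S, mul_assoc S, h1]
  · change R.q (ε * Q₀ * S') = R.q (ε * S' * ε * Q₁ * (ε * Q₁))
    have h2 : ε * S' * ε * Q₁ * (ε * Q₁) = ε * Q₀ * S' * (ε * Q₁) := by
      have h3 : Q₁ * (ε * Q₁) = ε * Q₁ := by rw [← mul_assoc, h.c₁, mul_assoc, h.Q₁₁]
      rw [mul_assoc ε Q₀, ← h.s₁, mul_assoc (ε * S') ε, mul_assoc (ε * S'), h.swap.idem]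
      simp only [mul_assoc, h3]
    rw [h2, map_mul R.q _ (ε * Q₁), ← hq, ← map_mul, ← mul_assoc, h1]

end Jump

end Vale.Agent.P212Z
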