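import Vale.Agent.P212Z.Ctx

/-! Comparison of the two models of `K_0`; ideals; partitions of unity of functions. -/

set_option linter.unusedSectionVars false

namespace Vale.Agent.P212Z

open Vale.Agent.P212 Filter Topology ZeroAtInfty Matrix

section KZ

universe u

variable {R S : Type} [Ring R] [Ring S]

theorem Pres.of_sim {S : Type*} {E : S → S → Prop} {D : S → S → S → Prop} {a b : S}
    (h : E a b) : Pres.of E D a = Pres.of E D b := by
  rw [← sub_eq_zero]
  exact (QuotientAddGroup.eq_zero_iff _).2 (AddSubgroup.subset_closure (Or.inl ⟨a, b, h, rfl⟩))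

theorem Pres.of_sum {S : Type*} {E : S → S → Prop} {D : S → S → S → Prop} {a b c : S}
    (h : D a b c) : Pres.of E D c = Pres.of E D a + Pres.of E D b := by
  rw [← sub_eq_zero, ← sub_sub]
  exact (QuotientAddGroup.eq_zero_iff _).2
    (AddSubgroup.subset_closure (Or.inr ⟨a, b, c, h, rfl⟩))

theorem Pres.map_of {S T : Type u} {E : S → S → Prop} {D : S → S → S → Prop}
    {E' : T → T → Prop} {D' : T → T → T → Prop} (f : S → T)
    (hE : ∀ a b, E a b → E' (f a) (f b)) (hD : ∀ a b c, D a b c → D' (f a) (f b) (f c)) (a : S) :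
    Pres.map f hE hD (Pres.of E D a) = Pres.of E' D' (f a) :=
  (QuotientAddGroup.map_mk _ _ _ (presRel_map f hE hD) _).trans
    (congrArg QuotientAddGroup.mk (FreeAbelianGroup.map_of_apply a))

/-- The class of an idempotent matrix. -/
def KZero.ofI (a : IdemMat R) : KZero R := Pres.of _ _ ⟨a.size, a.mat, a.idem⟩

theorem KZero.ofI_congr {a b : IdemMat R} (h : MvN a.mat b.mat) : KZero.ofI a = KZero.ofI b :=
  Pres.of_sim h

theorem KZero.ofI_add (a b : IdemMat R) :
    KZero.ofI (IdemMat.add a b) = KZero.ofI a + KZero.ofI b :=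
  Pres.of_sum ⟨(Fintype.equivFin (Fin a.size ⊕ Fin b.size)).symm, rfl⟩

/-- The map on the monoid of classes. -/
noncomputable def KZero.ofV (R : Type) [Ring R] : V R →+ KZero R :=
  AddMonoidHom.mk' (Quotient.lift KZero.ofI fun _ _ h => KZero.ofI_congr h) (by
    rintro ⟨a⟩ ⟨b⟩
    exact KZero.ofI_add a b)

/-- The comparison map. -/
noncomputable def toKZ (R : Type) [Ring R] : K0 R →+ KZero R :=
  Algebra.GrothendieckAddGroup.lift (KZero.ofV R)

theorem toKZ_cls {ι : Type} [Fintype ι] (e : Matrix ι ι R) (h : e * e = e) :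
    toKZ R (K0.cls e h) = KZero.cls e h :=
  DFunLike.congr_fun (Algebra.GrothendieckAddGroup.lift.left_inv (KZero.ofV R)) (V.cls e h)

theorem KZero.map_cls (φ : R →+* S) {ι : Type} [Fintype ι] (e : Matrix ι ι R) (h : e * e = e) :
    KZero.map φ (KZero.cls e h) = KZero.cls (e.map φ) (mapMat_idem φ h) :=
  Pres.map_of _ _ _ _

theorem KZero.cls_congr {ι : Type} [Fintype ι] {e f : Matrix ι ι R} (he : e * e = e)
    (hf : f * f = f) (h : e = f) : KZero.cls e he = KZero.cls f hf := by
  subst h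
  rfl

end KZ

section Ideal

variable {M : Type} [Ring M]

/-- The quotient map by a two-sided ideal. -/
def idq (I : TwoSidedIdeal M) : M →+* I.ringCon.Quotient := RingCon.mk' _

theorem idq_eq_iff (I : TwoSidedIdeal M) {a b : M} : idq I a = idq I b ↔ a - b ∈ I := by
  change ((a : I.ringCon.Quotient) = b) ↔ _
  rw [RingCon.eq, TwoSidedIdeal.rel_iff]

theorem idq_eq_zero_iff (I : TwoSidedIdeal M) {a : M} : idq I a = 0 ↔ a ∈ I := by
  rw [← map_zero (idq I), idq_eq_iff, sub_zero]

end Ideal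

section Fun

variable {Z Y : Type} [TopologicalSpace Z]

theorem c0_sum_apply (F : Finset Y) (g : Y → C₀(Z, ℂ)) (p : Z) :
    (∑ y ∈ F, g y) p = ∑ y ∈ F, g y p := by
  classical
  induction F using Finset.induction_on with
  | empty => rfl
  | insert a s ha ih => rw [Finset.sum_insert ha, Finset.sum_insert ha, ← ih]; rfl

theorem c0_norm_le (g : C₀(Z, ℂ)) {C : ℝ} (hC : 0 ≤ C) (h : ∀ p, ‖g p‖ ≤ C) : ‖g‖ ≤ C := by
  rw [← ZeroAtInftyContinuousMap.norm_toBCF_eq_norm]
  exact (BoundedContinuousFunction.norm_le hC).2 h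

theorem c0_apply_le (g : C₀(Z, ℂ)) (p : Z) : ‖g p‖ ≤ ‖g‖ := by
  rw [← ZeroAtInftyContinuousMap.norm_toBCF_eq_norm]
  exact BoundedContinuousFunction.norm_coe_le_norm g.toBCF p

theorem sqrt_mul_sqrt {a : ℝ} (h : 0 ≤ a) :
    ((Real.sqrt a : ℝ) : ℂ) * ((Real.sqrt a : ℝ) : ℂ) = a := by
  rw [← Complex.ofReal_mul, Real.mul_self_sqrt h]

/-- The partition given by the square roots of a partition of unity. -/
noncomputable def Part.ofFun (s : Y → C₀(Z, ℂ)) (f : Y → Z → ℝ)
    (hs : ∀ y p, s y p = (Real.sqrt (f y p) : ℂ)) (h0 : ∀ y p, 0 ≤ f y p)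
    (h1 : ∀ (F : Finset Y) p, ∑ y ∈ F, f y p ≤ 1) (nb : Y → Finset Y)
    (off : ∀ y z p, z ∉ nb y → f y p ≠ 0 → f z p = 0)
    (sum : ∀ y p, f y p ≠ 0 → ∑ z ∈ nb y, f z p = 1) : Part C₀(Z, ℂ) Y where
  s := s
  sa y := by
    ext p
    change star (s y p) = s y p
    rw [hs]
    exact Complex.conj_ofReal _
  norm_le F := by
    refine c0_norm_le _ zero_le_one fun p => ?_
    rw [c0_sum_apply]
    have h2 : ∑ y ∈ F, (s y * s y) p = ((∑ y ∈ F, f y p : ℝ) : ℂ) := by
      rw [Complex.ofReal_sum]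
      refine Finset.sum_congr rfl fun y _ => ?_
      change s y p * s y p = _
      rw [hs, sqrt_mul_sqrt (h0 y p)]
    rw [h2, Complex.norm_real, Real.norm_of_nonneg (Finset.sum_nonneg fun y _ => h0 y p)]
    exact h1 F p
  comm y z := mul_comm _ _
  nb := nb
  off y z hz := by
    ext p
    change s y p * s z p = 0
    rw [hs, hs]
    by_cases h : f y p = 0
    · rw [h, Real.sqrt_zero, Complex.ofReal_zero, zero_mul]
    · rw [off y z p hz h, Real.sqrt_zero, Complex.ofReal_zero, mul_zero]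
  sum y := by
    ext p
    change s y p * (∑ z ∈ nb y, s z * s z) p = s y p
    by_cases h : f y p = 0
    · rw [hs, h, Real.sqrt_zero, Complex.ofReal_zero, zero_mul]
    · have h2 : ∑ z ∈ nb y, (s z * s z) p = ((∑ z ∈ nb y, f z p : ℝ) : ℂ) := by
        rw [Complex.ofReal_sum]
        refine Finset.sum_congr rfl fun z _ => ?_
        change s z p * s z p = _
        rw [hs, sqrt_mul_sqrt (h0 z p)]
      rw [c0_sum_apply, h2, sum y p h, Complex.ofReal_one, mul_one]

end Fun

end Vale.Agent.P212Z
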