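import Vale.Agent.P212Z.KZ
import Vale.Agent.P212.Bdl.B4

/-! Multiplication operators and isometries given by injections. -/

set_option linter.unusedSectionVars false

namespace Vale.Agent.P212Z

open Vale.Agent.P212 Filter Topology ZeroAtInfty
open ContinuousLinearMap hiding proj

variable {J K L Y : Type}

/-- Bounded functions. -/
def Bd (g : J → ℂ) : Prop := ∃ C : ℝ, ∀ j, ‖g j‖ ≤ C

theorem Bd.comp {g : K → ℂ} (hg : Bd g) (u : J → K) : Bd fun j => g (u j) := by
  obtain ⟨C, hC⟩ := hg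
  exact ⟨C, fun j => hC _⟩

theorem Bd.star {g : J → ℂ} (hg : Bd g) : Bd fun j => star (g j) := by
  obtain ⟨C, hC⟩ := hg
  exact ⟨C, fun j => (norm_star _).le.trans (hC _)⟩

theorem Bd.const (c : ℂ) : Bd fun _ : J => c := ⟨‖c‖, fun _ => le_rfl⟩

theorem mulOp_push {u : J → K} (hu : Function.Injective u) {g : K → ℂ} (hg : Bd g) :
    mulOp g ∘L pushL2 u hu = pushL2 u hu ∘L mulOp fun j => g (u j) := by
  ext1 f
  refine lp.ext (funext fun k => ?_)
  rw [comp_apply, comp_apply, mulOp_apply hg]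
  by_cases hk : k ∈ Set.range u
  · obtain ⟨j, rfl⟩ := hk
    rw [pushL2_apply, pushL2_apply, mulOp_apply (hg.comp u)]
  · rw [pushL2_apply_not_mem hu _ hk, pushL2_apply_not_mem hu _ hk, mul_zero]

theorem adj_push_mulOp {u : J → K} (hu : Function.Injective u) {g : K → ℂ} (hg : Bd g) :
    adjoint (pushL2 u hu) ∘L mulOp g = (mulOp fun j => g (u j)) ∘L adjoint (pushL2 u hu) := by
  ext1 f
  refine lp.ext (funext fun j => ?_)
  rw [comp_apply, comp_apply, mulOp_apply (hg.comp u), adjoint_pushL2_apply, adjoint_pushL2_apply,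
    mulOp_apply hg]

theorem push_push {u : K → L} (hu : Function.Injective u) {v : J → K}
    (hv : Function.Injective v) :
    pushL2 u hu ∘L pushL2 v hv = pushL2 (fun j => u (v j)) (hu.comp hv) := by
  refine adjoint.injective ?_
  rw [adjoint_comp]
  ext1 f
  refine lp.ext (funext fun j => ?_)
  rw [comp_apply, adjoint_pushL2_apply, adjoint_pushL2_apply, adjoint_pushL2_apply]

theorem push_congr {u v : J → K} (hu : Function.Injective u) (hv : Function.Injective v)
    (h : ∀ j, u j = v j) : pushL2 u hu = pushL2 v hv := by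
  obtain rfl : u = v := funext h
  rfl

theorem adj_push_push_zero {u : J → L} (hu : Function.Injective u) {v : K → L}
    (hv : Function.Injective v) (h : ∀ j k, u j ≠ v k) :
    adjoint (pushL2 u hu) ∘L pushL2 v hv = 0 := by
  ext1 f
  refine lp.ext (funext fun j => ?_)
  rw [comp_apply, adjoint_pushL2_apply, pushL2_apply_not_mem hv]
  · rfl
  · rintro ⟨k, hk⟩
    exact h j k hk.symm

theorem star_mulOp {g : J → ℂ} (hg : Bd g) : star (mulOp g) = mulOp fun j => star (g j) := by
  classical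
  refine ext_ent fun j k => ?_
  rw [ent_star, ← mul_one (mulOp g), ent_mulOp_mul hg, ← mul_one (mulOp fun j => star (g j)),
    ent_mulOp_mul hg.star, ent_one, ent_one]
  by_cases h : j = k
  · subst h
    simp
  · rw [if_neg h, if_neg (Ne.symm h)]
    simp

theorem mulOp_smul (c : ℂ) {g : J → ℂ} (hg : Bd g) :
    (mulOp fun j => c * g j) = c • mulOp g := by
  ext1 f
  refine lp.ext (funext fun j => ?_)
  rw [mulOp_apply (bdd_mul (Bd.const c) hg), smul_apply, lp.coeFn_smul, Pi.smul_apply,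
    mulOp_apply hg, smul_eq_mul, mul_assoc]

theorem mulOp_const (c : ℂ) : (mulOp fun _ : J => c) = c • 1 := by
  rw [← mulOp_one, ← mulOp_smul c (Bd.const 1)]
  simp only [mul_one]

theorem mulOp_sum {ι : Type} (F : Finset ι) {g : ι → J → ℂ} (hg : ∀ i, Bd (g i)) :
    Bd (fun j => ∑ i ∈ F, g i j) ∧ (mulOp fun j => ∑ i ∈ F, g i j) = ∑ i ∈ F, mulOp (g i) := by
  classical
  induction F using Finset.induction_on with
  | empty => exact ⟨Bd.const 0, mulOp_zero⟩
  | insert a s ha ih =>
    simp only [Finset.sum_insert ha]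
    exact ⟨bdd_add (hg a) ih.1, by rw [mulOp_add (hg a) ih.1, ih.2]⟩

theorem slice_mulOp {g : Y × ℕ → ℂ} (hg : Bd g) (y : Y) :
    slice y ∘L mulOp g = (mulOp fun n => g (y, n)) ∘L slice y := adj_push_mulOp _ hg

theorem mulOp_inc {g : Y × ℕ → ℂ} (hg : Bd g) (y : Y) :
    mulOp g ∘L inc y = inc y ∘L mulOp fun n => g (y, n) := mulOp_push _ hg

theorem amp_mulOp {h : ℕ → ℂ} (hh : Bd h) : amp Y (mulOp h) = mulOp fun j : Y × ℕ => h j.2 := by
  refine slice_ext fun y => ?_
  rw [slice_amp, slice_mulOp (hh.comp Prod.snd)]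

theorem amp_proj (S : Set ℕ) : amp Y (proj S) = proj (Prod.snd ⁻¹' S) := by
  classical
  rw [proj_eq_mulOp, proj_eq_mulOp, amp_mulOp (bdd_ind S)]
  rfl

theorem ent_bl (T : LP Y →L[ℂ] LP Y) (j k : Y × ℕ) : ent T j k = ent (bl T j.1 k.1) j.2 k.2 := by
  have h2 : bv k = inc k.1 (bv k.2) := by
    refine lp.ext (funext fun j => ?_)
    obtain ⟨a, b⟩ := j
    obtain ⟨y, n⟩ := k
    by_cases h : a = y
    · subst h
      rw [inc_apply_self, bv_apply, bv_apply]
      simp
    · rw [inc_apply_ne h, bv_apply, if_neg fun e => h (congrArg Prod.fst e)]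
  change (T (bv k) : Y × ℕ → ℂ) j = (bl T j.1 k.1 (bv k.2) : ℕ → ℂ) j.2
  rw [bl_apply, h2]

theorem bl_eq_zero_of_ent {T : LP Y →L[ℂ] LP Y} {y z : Y}
    (h : ∀ m n, ent T (y, m) (z, n) = 0) : bl T y z = 0 :=
  ext_ent fun m n => by rw [ent_zero, ← h m n, ent_bl]

theorem ent_push_adj {u v : J → K} (hu : Function.Injective u) (hv : Function.Injective v)
    {j k : K} (h : ent (pushL2 u hu ∘L adjoint (pushL2 v hv)) j k ≠ 0) :
    ∃ i, j = u i ∧ k = v i := by
  classical
  by_cases hk : k ∈ Set.range v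
  · obtain ⟨i, rfl⟩ := hk
    refine ⟨i, ?_, rfl⟩
    by_contra h0
    refine h ?_
    change (pushL2 u hu (adjoint (pushL2 v hv) (bv (v i))) : K → ℂ) j = 0
    rw [adjoint_push_bv]
    by_cases hj : j ∈ Set.range u
    · obtain ⟨i', rfl⟩ := hj
      rw [pushL2_apply, bv_apply, if_neg fun e => h0 (congrArg u e)]
    · exact pushL2_apply_not_mem hu _ hj
  · refine (h ?_).elim
    change (pushL2 u hu (adjoint (pushL2 v hv) (bv k)) : K → ℂ) j = 0
    rw [adjoint_push_bv_not hv hk, map_zero]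
    rfl

theorem bl_push_adj {u v : J → Y × ℕ} (hu : Function.Injective u) (hv : Function.Injective v)
    (h : ∀ i, (u i).1 = (v i).1) {y z : Y}
    (h0 : bl (pushL2 u hu ∘L adjoint (pushL2 v hv)) y z ≠ 0) : y = z := by
  by_contra h1
  refine h0 (bl_eq_zero_of_ent fun m n => ?_)
  by_contra h2
  obtain ⟨i, h3, h4⟩ := ent_push_adj hu hv h2
  exact h1 ((congrArg Prod.fst h3).trans ((h i).trans (congrArg Prod.fst h4).symm))

theorem norm_push_adj_le {u v : J → K} (hu : Function.Injective u) (hv : Function.Injective v) :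
    ‖pushL2 u hu ∘L adjoint (pushL2 v hv)‖ ≤ 1 := by
  refine (opNorm_comp_le _ _).trans (mul_le_one₀ (norm_pushL2_le hu) (norm_nonneg _) ?_)
  rw [LinearIsometryEquiv.norm_map]
  exact norm_pushL2_le hv

theorem ext_proj {E : Type} [NormedAddCommGroup E] [NormedSpace ℂ E] {T T' : L2 J →L[ℂ] E}
    (h : ∀ j, ∃ S : Set J, j ∈ S ∧ T ∘L proj S = T' ∘L proj S) : T = T' := by
  refine ContinuousLinearMap.ext_on (s := Set.range (stdB J))
    (Submodule.dense_iff_topologicalClosure_eq_top.2 (stdB J).dense_span) ?_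
  rintro _ ⟨j, rfl⟩
  obtain ⟨S, hj, hS⟩ := h j
  have h1 := congrArg (fun A : L2 J →L[ℂ] E => A (bv j)) hS
  simp only [comp_apply, proj_bv_mem hj] at h1
  rw [stdB_apply]
  exact h1

theorem separable_L2 (J : Type) [Countable J] : TopologicalSpace.SeparableSpace (L2 J) := by
  rw [← TopologicalSpace.isSeparable_univ_iff]
  have h1 : TopologicalSpace.IsSeparable
      (Submodule.span ℂ (Set.range (stdB J)) : Set (L2 J)) :=
    (Set.countable_range _).isSeparable.span
  have h2 := h1.closure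
  rwa [(Submodule.dense_iff_topologicalClosure_eq_top.2 (stdB J).dense_span).closure_eq] at h2

section Hom

variable {Z : Type} [TopologicalSpace Z]

theorem bd_c0 (f : C₀(Z, ℂ)) : Bd f := ⟨‖f‖, c0_apply_le f⟩

/-- The representation by multiplication operators. -/
noncomputable def mulHom (u : J → Z) : C₀(Z, ℂ) →⋆ₙₐ[ℂ] (L2 J →L[ℂ] L2 J) where
  toFun f := mulOp fun j => f (u j)
  map_smul' c f := mulOp_smul c ((bd_c0 f).comp u)
  map_zero' := mulOp_zero
  map_add' f g := mulOp_add ((bd_c0 f).comp u) ((bd_c0 g).comp u)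
  map_mul' f g := mulOp_mul ((bd_c0 f).comp u) ((bd_c0 g).comp u)
  map_star' f := (star_mulOp ((bd_c0 f).comp u)).symm

theorem mulHom_apply (u : J → Z) (f : C₀(Z, ℂ)) : mulHom u f = mulOp fun j => f (u j) := rfl

end Hom

end Vale.Agent.P212Z
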