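import Vale.Agent.P212Z.PoU
import Vale.Agent.P212Z.Push
import Vale.Agent.P212Z.FamAlg

/-! The algebra of asymptotically local families of operators. -/

set_option linter.unusedSectionVars false

namespace Vale.Agent.P212Z

open Vale.Agent.P212 Filter Topology ZeroAtInfty NNReal
open ContinuousLinearMap hiding proj

/-- Operators on `l^2(Y × ℕ)`. -/
abbrev OpY (Y : Type) : Type := LP Y →L[ℂ] LP Y

section Proj

variable {Y J : Type}

theorem proj_inc_mem {S : Set Y} {y : Y} (h : y ∈ S) : proj (Prod.fst ⁻¹' S) ∘L inc y = inc y := by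
  have h1 := congrArg adjoint (slice_proj_mem h)
  rwa [adjoint_comp, ← star_eq_adjoint, star_proj, adjoint_slice] at h1

theorem proj_inc_not_mem {S : Set Y} {y : Y} (h : y ∉ S) :
    proj (Prod.fst ⁻¹' S) ∘L inc y = 0 := by
  have h1 := congrArg adjoint (slice_proj_not_mem h)
  rwa [adjoint_comp, ← star_eq_adjoint, star_proj, adjoint_slice, map_zero] at h1

theorem proj_mul_proj_eq_zero {a : OpY Y} {S S' : Set Y}
    (h : ∀ y ∈ S, ∀ z ∈ S', bl a y z = 0) :
    proj (Prod.fst ⁻¹' S) * a * proj (Prod.fst ⁻¹' S') = 0 := by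
  refine bl_ext fun y z => ?_
  have h1 : bl (proj (Prod.fst ⁻¹' S) * a * proj (Prod.fst ⁻¹' S')) y z =
      (slice y ∘L proj (Prod.fst ⁻¹' S)) ∘L a ∘L (proj (Prod.fst ⁻¹' S') ∘L inc z) := rfl
  rw [h1, bl_zero]
  by_cases hy : y ∈ S
  · by_cases hz : z ∈ S'
    · rw [slice_proj_mem hy, proj_inc_mem hz]
      exact h y hy z hz
    · rw [proj_inc_not_mem hz, comp_zero, comp_zero]
  · rw [slice_proj_not_mem hy, zero_comp]

theorem proj_mul_mulOp_one {S : Set J} {g : J → ℂ} (hg : Bd g) (h : ∀ j ∈ S, g j = 1) :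
    proj S * mulOp g = proj S := by
  ext1 f
  refine lp.ext (funext fun j => ?_)
  rw [mul_apply_eq_comp]
  by_cases hj : j ∈ S
  · rw [proj_apply_mem _ hj, proj_apply_mem _ hj, mulOp_apply hg, h j hj, one_mul]
  · rw [proj_apply_not_mem _ hj, proj_apply_not_mem _ hj]

theorem proj_mul_mulOp_self {S : Set J} {g : J → ℂ} (hg : Bd g) (h : ∀ j, g j ≠ 0 → j ∈ S) :
    proj S * mulOp g = mulOp g := by
  ext1 f
  refine lp.ext (funext fun j => ?_)
  rw [mul_apply_eq_comp]
  by_cases hj : j ∈ S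
  · rw [proj_apply_mem _ hj]
  · rw [proj_apply_not_mem _ hj, mulOp_apply hg, not_not.1 fun h0 => hj (h j h0), zero_mul]

end Proj

variable {X : Type} [MetricSpace X] [BddGeometry X] {r : ℝ}

/-- The neighbourhood of a finite set. -/
noncomputable def nbh (R : ℝ) (B : Finset X) : Finset X :=
  open Classical in B.biUnion fun x => (finite_closedBall x R).toFinset

theorem mem_nbh {R : ℝ} {B : Finset X} {x y : X} (hx : x ∈ B) (h : dist y x ≤ R) :
    y ∈ nbh R B := by
  classical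
  exact Finset.mem_biUnion.2 ⟨x, hx, (finite_closedBall x R).mem_toFinset.2 h⟩

/-- The projection onto the part over a finite set. -/
noncomputable def pB (r : ℝ) (B : Finset X) : OpY (YR X r) :=
  proj (Prod.fst ⁻¹' (YR.σ ⁻¹' (B : Set X)))

/-- Multiplication by a function of the position. -/
noncomputable def mY (r : ℝ) (g : RPt X → ℂ) : OpY (YR X r) := mulOp fun j => g j.1.ps

theorem star_pB (B : Finset X) : star (pB r B) = pB r B := star_proj _

theorem bd_cyl {g : RPt X → ℂ} (hg : Cyl g) : Bd g := hg.bdd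

theorem star_mY {g : RPt X → ℂ} (hg : Bd g) : star (mY r g) = mY r fun p => star (g p) :=
  star_mulOp (hg.comp _)

/-- Locally compact operators. -/
def LC (N : OpY (YR X r)) : Prop := ∀ B : Finset X, Cpt (pB r B * N) ∧ Cpt (N * pB r B)

theorem LC.zero : LC (0 : OpY (YR X r)) := fun B => by
  rw [mul_zero, zero_mul]
  exact ⟨Cpt.zero, Cpt.zero⟩

theorem LC.add {N N' : OpY (YR X r)} (h : LC N) (h' : LC N') : LC (N + N') := fun B => by
  rw [mul_add, add_mul]
  exact ⟨(h B).1.add (h' B).1, (h B).2.add (h' B).2⟩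

theorem LC.smul {N : OpY (YR X r)} (h : LC N) (c : ℂ) : LC (c • N) := fun B => by
  rw [mul_smul_comm, smul_mul_assoc]
  exact ⟨(h B).1.smul c, (h B).2.smul c⟩

theorem LC.neg {N : OpY (YR X r)} (h : LC N) : LC (-N) := by
  rw [← neg_one_smul ℂ]
  exact h.smul _

theorem LC.sub {N N' : OpY (YR X r)} (h : LC N) (h' : LC N') : LC (N - N') := by
  rw [sub_eq_add_neg]
  exact h.add h'.neg

theorem LC.star {N : OpY (YR X r)} (h : LC N) : LC (star N) := fun B => by
  rw [← star_pB, ← star_mul, ← star_mul]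
  exact ⟨(h B).2.star, (h B).1.star⟩

theorem LC.mul {N N' : OpY (YR X r)} (h : LC N) (h' : LC N') : LC (N * N') := fun B => by
  rw [← mul_assoc, mul_assoc N]
  exact ⟨(h B).1.mul_right _, (h' B).2.mul_left _⟩

theorem isClosed_LC : IsClosed {N : OpY (YR X r) | LC N} := by
  have h : {N : OpY (YR X r) | LC N} = ⋂ B : Finset X,
      ((fun N => pB r B * N) ⁻¹' {T | Cpt T} ∩ (fun N => N * pB r B) ⁻¹' {T | Cpt T}) := by
    ext N
    simp [LC]
  rw [h]
  exact isClosed_iInter fun B => (isClosed_cpt.preimage (continuous_const.mul continuous_id)).inter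
    (isClosed_cpt.preimage (continuous_id.mul continuous_const))

/-- The locally compact operators and the cylinder functions. -/
noncomputable def lamD (X : Type) [MetricSpace X] [BddGeometry X] (r : ℝ) :
    LocD (OpY (YR X r)) where
  LC :=
    { carrier := {N | LC N}
      mul_mem' := LC.mul
      add_mem' := LC.add
      zero_mem' := LC.zero
      smul_mem' := fun c _ h => h.smul c
      star_mem' := LC.star }
  closed := isClosed_LC
  Mul := {m | ∃ g, Cyl g ∧ m = mY r g}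
  star_mem := by
    rintro _ ⟨g, hg, rfl⟩
    exact ⟨_, hg.star, star_mY (bd_cyl hg)⟩

/-- Multipliers of the locally compact operators. -/
def Idl (a : OpY (YR X r)) : Prop := ∀ N, LC N → LC (a * N) ∧ LC (N * a)

theorem idl_iff {a : OpY (YR X r)} : (lamD X r).Idl a ↔ Idl a := Iff.rfl

theorem LC.idl {a : OpY (YR X r)} (h : LC a) : Idl a := fun _ hN => ⟨h.mul hN, hN.mul h⟩

theorem Idl.add {a b : OpY (YR X r)} (h : Idl a) (h' : Idl b) : Idl (a + b) :=
  idl_iff.1 ((idl_iff.2 h).add (idl_iff.2 h'))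

theorem idl_of_cut {a : OpY (YR X r)} (h : ∀ B : Finset X, ∃ B' : Finset X,
    Cpt (pB r B * a * (1 - pB r B')) ∧ Cpt ((1 - pB r B') * a * pB r B)) : Idl a := by
  intro N hN
  refine ⟨fun B => ⟨?_, ?_⟩, fun B => ⟨?_, ?_⟩⟩
  · obtain ⟨B', h1, -⟩ := h B
    have h2 : pB r B * (a * N) = pB r B * a * (pB r B' * N) + pB r B * a * (1 - pB r B') * N := by
      noncomm_ring
    rw [h2]
    exact ((hN B').1.mul_left _).add (h1.mul_right _)
  · rw [mul_assoc]
    exact (hN B).2.mul_left _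
  · rw [← mul_assoc]
    exact (hN B).1.mul_right _
  · obtain ⟨B', -, h1⟩ := h B
    have h2 : N * a * pB r B = N * pB r B' * (a * pB r B) + N * ((1 - pB r B') * a * pB r B) := by
      noncomm_ring
    rw [h2]
    exact ((hN B').2.mul_right _).add (h1.mul_left _)

theorem idl_of_bl {a : OpY (YR X r)} {R : ℝ} (h : ∀ y z, bl a y z ≠ 0 → dist y.σ z.σ ≤ R) :
    Idl a := by
  refine idl_of_cut fun B => ⟨nbh R B, ?_, ?_⟩
  · rw [pB, pB, ← proj_compl_eq, ← Set.preimage_compl, proj_mul_proj_eq_zero]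
    · exact Cpt.zero
    · intro y hy z hz
      by_contra h0
      exact hz (mem_nbh hy (by rw [dist_comm]; exact h y z h0))
  · rw [pB, pB, ← proj_compl_eq, ← Set.preimage_compl, proj_mul_proj_eq_zero]
    · exact Cpt.zero
    · intro y hy z hz
      by_contra h0
      exact hy (mem_nbh hz (h y z h0))

theorem cyl_mass (B : Finset X) : Cyl fun p : RPt X => (mass B p : ℂ) :=
  Cyl.mass B Complex.continuous_ofReal

theorem mem_nbh_of_mass {B : Finset X} {p : RPt X} (hp : InRips r p) (h : (mass B p : ℂ) ≠ 0) :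
    p.1.support ⊆ nbh r B := by
  intro y hy
  obtain ⟨x, hx, hx'⟩ := (mass_pos_iff B p).1 (lt_of_le_of_ne (mass_nonneg B p)
    (fun e => h (by rw [← e, Complex.ofReal_zero])))
  exact mem_nbh hx (hp y hy x hx')

theorem idl_of_comm {a : OpY (YR X r)} (h : ∀ B : Finset X,
    Cpt (a * mY r (fun p => (mass B p : ℂ)) - mY r (fun p => (mass B p : ℂ)) * a)) : Idl a := by
  refine idl_of_cut fun B => ⟨nbh r (nbh r B), ?_⟩
  set m := mY r (fun p => (mass (nbh r B) p : ℂ)) with hm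
  have hb : Bd fun j : YR X r × ℕ => (mass (nbh r B) j.1.ps : ℂ) := (bd_cyl (cyl_mass _)).comp _
  have h1 : pB r B * m = pB r B := proj_mul_mulOp_one hb fun j hj => by
    beta_reduce
    rw [(mass_eq_one_iff _ _).2 fun y hy => mem_nbh hj (j.1.rips y hy _ j.1.mem),
      Complex.ofReal_one]
  have h2 : pB r (nbh r (nbh r B)) * m = m := proj_mul_mulOp_self hb fun j hj =>
    mem_nbh_of_mass j.1.rips hj j.1.mem
  have h3 : ∀ B', pB r B' * m = m * pB r B' := fun B' => proj_comm_mulOp _ hb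
  constructor
  · have h4 : pB r B * a * (1 - pB r (nbh r (nbh r B))) =
        -(pB r B * (a * m - m * a) * (1 - pB r (nbh r (nbh r B)))) := by
      have h5 : m * (1 - pB r (nbh r (nbh r B))) = 0 := by rw [mul_sub, ← h3, h2, mul_one, sub_self]
      rw [mul_sub (pB r B), ← mul_assoc _ m, h1, sub_mul, mul_assoc _ (a * m), mul_assoc a, h5]
      simp
    rw [h4]
    exact (((h _).mul_left _).mul_right _).neg
  · have h4 : (1 - pB r (nbh r (nbh r B))) * a * pB r B =
        (1 - pB r (nbh r (nbh r B))) * (a * m - m * a) * pB r B := by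
      have h5 : (1 - pB r (nbh r (nbh r B))) * m = 0 := by rw [sub_mul, h2, one_mul, sub_self]
      rw [mul_sub, ← mul_assoc _ m, h5, zero_mul, sub_zero, mul_assoc _ (a * m), mul_assoc a,
        ← h3, h1, mul_assoc]
    rw [h4]
    exact ((h _).mul_left _).mul_right _

/-- Asymptotic commutation with cylinder functions. -/
def AC (a : ℝ≥0 → OpY (YR X r)) : Prop :=
  ∀ g, Cyl g → Tendsto (fun t => a t * mY r g - mY r g * a t) atTop (𝓝 0)

theorem ac_iff {a : ℝ≥0 → OpY (YR X r)} : (lamD X r).AC a ↔ AC a :=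
  ⟨fun h g hg => h _ ⟨g, hg, rfl⟩, fun h _ ⟨g, hg, e⟩ => e ▸ h g hg⟩

theorem ac_of_bl {a : ℝ≥0 → OpY (YR X r)} {D : ℝ} (hD : ∀ t, ‖a t‖ ≤ D) {δ : ℝ≥0 → ℝ}
    (hδ : Tendsto δ atTop (𝓝 0))
    (h : ∀ (t : ℝ≥0) y z, bl (a t) y z ≠ 0 → y.ps.dist z.ps ≤ δ t) : AC a := by
  intro g hg
  rw [NormedAddGroup.tendsto_nhds_zero]
  intro ε hε
  obtain ⟨C, hC⟩ := hg.bdd
  have hD0 : 0 ≤ D := (norm_nonneg _).trans (hD 0)
  have h0 : 0 < ε / (16 * D + 1) := by positivity
  obtain ⟨δ₀, hδ₀, h1⟩ := hg.unif h0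
  filter_upwards [hδ.eventually (ge_mem_nhds hδ₀)] with t ht
  have h2 := norm_comm_le (T := a t) (g := fun j : YR X r × ℕ => g j.1.ps) (fun j => hC _) h0.le
    (fun j k hjk => h1 _ _ ((h t j.1 k.1 fun e => hjk (by rw [ent_bl, e, ent_zero])).trans ht))
  refine h2.trans_lt ?_
  calc 16 * (ε / (16 * D + 1)) * ‖a t‖ ≤ 16 * (ε / (16 * D + 1)) * D :=
        mul_le_mul_of_nonneg_left (hD t) (by positivity)
    _ < ε := by
        rw [mul_right_comm, ← mul_div_assoc, div_lt_iff₀ (by positivity)]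
        nlinarith

/-- The algebra of asymptotically local families. -/
abbrev MM (X : Type) [MetricSpace X] [BddGeometry X] (r : ℝ) : Type := (lamD X r).M

/-- The target algebra. -/
abbrev BB (X : Type) [MetricSpace X] [BddGeometry X] (r : ℝ) : Type := (lamD X r).B

/-- Evaluation. -/
noncomputable def evM (t : ℝ≥0) : MM X r →+* OpY (YR X r) := (lamD X r).ev t

theorem evM_ext {a b : MM X r} (h : ∀ t, evM t a = evM t b) : a = b := LocD.ext h

theorem evM_star (t : ℝ≥0) (a : MM X r) : evM t (star a) = star (evM t a) :=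
  map_star ((lamD X r).ev t) a

theorem evM_algebraMap (t : ℝ≥0) (c : ℂ) : evM t (algebraMap ℂ (MM X r) c) = c • 1 :=
  (((lamD X r).ev t).commutes c).trans (Algebra.algebraMap_eq_smul_one c)

theorem evM_idl (t : ℝ≥0) (a : MM X r) : Idl (evM t a) := LocD.idl a t

theorem norm_MM_le (a : MM X r) {C : ℝ} (hC : 0 ≤ C) (h : ∀ t, ‖evM t a‖ ≤ C) : ‖a‖ ≤ C :=
  LocD.norm_le a hC h

theorem exists_MM (f : ℝ≥0 → OpY (YR X r)) (C : ℝ) (h : ∀ t, ‖f t‖ ≤ C) (h1 : AC f)
    (h2 : ∀ t, Idl (f t)) : ∃ a : MM X r, ∀ t, evM t a = f t :=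
  ⟨LocD.mk' f C h (ac_iff.2 h1) h2, fun _ => rfl⟩

theorem exists_MM_of_bl (f : ℝ≥0 → OpY (YR X r)) (C : ℝ) (hC : ∀ t, ‖f t‖ ≤ C) (R : ℝ)
    {δ : ℝ≥0 → ℝ} (hδ : Tendsto δ atTop (𝓝 0))
    (h : ∀ (t : ℝ≥0) y z, bl (f t) y z ≠ 0 → dist y.σ z.σ ≤ R ∧ y.ps.dist z.ps ≤ δ t) :
    ∃ a : MM X r, ∀ t, evM t a = f t :=
  exists_MM f C hC (ac_of_bl hC hδ fun t y z h0 => (h t y z h0).2)
    fun t => idl_of_bl fun y z h0 => (h t y z h0).1

theorem exists_MM_of_diag (f : ℝ≥0 → OpY (YR X r)) (C : ℝ) (hC : ∀ t, ‖f t‖ ≤ C)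
    (h : ∀ (t : ℝ≥0) y z, bl (f t) y z ≠ 0 → y = z) : ∃ a : MM X r, ∀ t, evM t a = f t :=
  exists_MM_of_bl f C hC 0 (δ := fun _ => 0) tendsto_const_nhds fun t y z h0 => by
    rw [h t y z h0, dist_self, RPt.dist_self]
    exact ⟨le_rfl, le_rfl⟩

theorem q_lam {a : MM X r} : (lamD X r).rel.q a = 0 ↔ ∀ t, LC (evM t a) := LocD.rel_q

theorem q_lam_eq {a b : MM X r} :
    (lamD X r).rel.q a = (lamD X r).rel.q b ↔ ∀ t, LC (evM t a - evM t b) := LocD.rel_q_eq

/-- The mesh of the partition at time `t`. -/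
noncomputable def mesh (t : ℝ≥0) : ℝ := 1 / ((t : ℝ) + 1)

theorem mesh_pos (t : ℝ≥0) : 0 < mesh t := by
  unfold mesh
  positivity

theorem tendsto_mesh : Tendsto (fun t => 2 * mesh t) atTop (𝓝 0) := by
  have h : Tendsto (fun t : ℝ≥0 => (t : ℝ) + 1) atTop atTop :=
    tendsto_atTop_add_const_right _ _ (NNReal.tendsto_coe_atTop.2 tendsto_id)
  have h2 := (tendsto_const_nhds (x := (1 : ℝ))).div_atTop h
  simpa [mesh] using h2.const_mul 2

/-- The partition at time `t`. -/
noncomputable def lamPart (X : Type) [MetricSpace X] [BddGeometry X] (r : ℝ) (t : ℝ≥0) :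
    Part C₀(Rips X r, ℂ) (YR X r) := (exists_fine r (mesh_pos t)).choose

theorem lamPart_fine (t : ℝ≥0) : Fine (mesh t) (lamPart X r t) :=
  (exists_fine r (mesh_pos t)).choose_spec

theorem lc_of_lcs {δ : ℝ} {π : Part C₀(Rips X r, ℂ) (YR X r)} (hπ : Fine δ π) {N : OpY (YR X r)}
    (h : π.LCs N) : LC N := by
  have key : ∀ (N : OpY (YR X r)) (B : Finset X), (∀ y, Cpt (slice y ∘L N)) →
      (∀ y, π.s y = 0 → slice y ∘L N = 0) → Cpt (pB r B * N) := by
    intro N B h1 h2
    rw [mul_def, pB, proj_mul_eq_sum N (YR.σ ⁻¹' (B : Set X)) (hπ.fin B).toFinset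
      (fun y hy => ((hπ.fin B).mem_toFinset.1 hy).1) (fun y hy hy' => h2 y (by
        by_contra h0
        exact hy' ((hπ.fin B).mem_toFinset.2 ⟨hy, h0⟩)))]
    exact Cpt.sum _ _ fun y _ => (h1 y).comp_left _
  have e : ∀ y, slice y ∘L star N = adjoint (N ∘L inc y) := fun y => by
    rw [adjoint_comp]
    rfl
  refine fun B => ⟨key N B (fun y => (h y).1) fun y hy => ((h y).2.2 hy).1, Cpt.of_star ?_⟩
  rw [star_mul, star_pB]
  refine key _ B (fun y => ?_) fun y hy => ?_
  · have h1 : slice y ∘L star N = slice y ∘L star ((N ∘L inc y) ∘L slice y) := by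
      rw [e, star_eq_adjoint, adjoint_comp _ (slice y), adjoint_slice, ← comp_assoc, slice_inc_self]
      rfl
    rw [h1]
    exact ((h y).2.1.comp_right _).star.comp_left _
  · rw [e, ((h y).2.2 hy).2, map_zero]

theorem bl_amp_ne {Y : Type} {U : OpN} {y z : Y} (h : bl (amp Y U) y z ≠ 0) : y = z := by
  classical
  by_contra h0
  exact h (by rw [bl_amp, if_neg h0])

theorem exists_am (r : ℝ) (U : OpN) : ∃ a : MM X r, ∀ t, evM t a = amp _ U :=
  exists_MM_of_diag _ ‖U‖ (fun _ => norm_amp_le' U) fun _ _ _ h => bl_amp_ne h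

theorem exists_P (ρ : C₀(Rips X r, ℂ) →⋆ₙₐ[ℂ] OpN) :
    ∃ a : MM X r, ∀ t, evM t a = (lamPart X r t).P ρ := by
  refine exists_MM_of_bl _ 1 (fun t => (lamPart X r t).norm_P ρ) r tendsto_mesh fun t y z h => ?_
  rw [Part.bl_P] at h
  obtain ⟨q, hq⟩ : ∃ q, ((lamPart X r t).s y * (lamPart X r t).s z) q ≠ 0 := by
    by_contra h0
    push Not at h0
    exact h (by rw [ZeroAtInftyContinuousMap.ext (g := 0) h0, map_zero])
  exact close_of_mem ((lamPart_fine t).sub y q (left_ne_zero_of_mul hq))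
    ((lamPart_fine t).sub z q (right_ne_zero_of_mul hq))

/-- The context of the local index map. -/
noncomputable def lamCtx (X : Type) [MetricSpace X] [BddGeometry X] (r : ℝ) :
    Ctx (lamD X r).rel C₀(Rips X r, ℂ) (YR X r) ℝ≥0 where
  ev := RingHom.pi fun t => evM t
  inj _ _ h := evM_ext fun t => congrFun h t
  π := lamPart X r
  am U := (exists_am r U).choose
  ev_am U := (exists_am r U).choose_spec
  P ρ := (exists_P ρ).choose
  ev_P ρ := (exists_P ρ).choose_spec
  q_zero _ h := q_lam.2 fun t => lc_of_lcs (lamPart_fine t) (h t)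
  Adm :=
    { carrier := {γ | Continuous γ}
      mul_mem' := fun h h' => h.mul h'
      one_mem' := continuous_const
      add_mem' := fun h h' => h.add h'
      zero_mem' := continuous_const
      neg_mem' := fun h => h.neg }
  hconst _ := continuous_const
  hcont _ hγ h := LocD.cont hγ h
  am_adm _ hG := by
    refine Continuous.comp (g := fun U => (exists_am (X := X) r U).choose) ?_ hG
    refine (LipschitzWith.of_dist_le_mul (K := 1) fun F G => ?_).continuous
    rw [dist_eq_norm, dist_eq_norm, NNReal.coe_one, one_mul]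
    refine norm_MM_le _ (norm_nonneg _) fun t => ?_
    rw [map_sub, (exists_am r F).choose_spec, (exists_am r G).choose_spec, ← amp_sub]
    exact norm_amp_le' _

theorem evM_P (ρ : C₀(Rips X r, ℂ) →⋆ₙₐ[ℂ] OpN) (t : ℝ≥0) :
    evM t ((lamCtx X r).P ρ) = (lamPart X r t).P ρ := (lamCtx X r).ev_P ρ t

theorem evM_am (U : OpN) (t : ℝ≥0) : evM t ((lamCtx X r).am U) = amp _ U :=
  (lamCtx X r).ev_am U t

end Vale.Agent.P212Z
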