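import Vale.Agent.P212Z.KZ
import Vale.Agent.P212.H35.Gen

/-! Construction of the assembly map. -/

set_option linter.unusedSectionVars false

namespace Vale.Agent.P212Z

open Vale.Agent.P212 Vale.Agent.P212.H35 Filter Topology ZeroAtInfty Matrix
open ContinuousLinearMap hiding proj

variable {X : Type} [MetricSpace X] [BddGeometry X]

/-- Operators of finite propagation. -/
noncomputable def finProp (X : Type) [MetricSpace X] [BddGeometry X] : Subalgebra ℂ (BX X) where
  carrier := {T | ∃ R, PropLE (gX X) T R}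
  mul_mem' := fun ⟨R, hR⟩ ⟨R', hR'⟩ => ⟨R + R', hR.mul hR'⟩
  add_mem' := fun ⟨R, hR⟩ ⟨R', hR'⟩ =>
    ⟨max R R', (hR.mono (le_max_left _ _)).add (hR'.mono (le_max_right _ _))⟩
  algebraMap_mem' c := ⟨0, by
    rw [Algebra.algebraMap_eq_smul_one]
    exact (PropLE.one le_rfl).smul c⟩

theorem isRoe_mul_left {S T : BX X} {R : ℝ} (hS : PropLE (gX X) S R) (hT : IsRoe (gX X) T) :
    IsRoe (gX X) (S * T) := by
  obtain ⟨R', hR'⟩ := hT.1
  refine ⟨⟨R + R', hS.mul hR'⟩, fun x y => ?_⟩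
  rw [blk_mul hS]
  exact Cpt.sum _ _ fun w _ => Cpt.mul_left (hT.2 w y) _

theorem isRoe_mul_right {S T : BX X} {R : ℝ} (hS : PropLE (gX X) S R) (hT : IsRoe (gX X) T) :
    IsRoe (gX X) (T * S) := by
  obtain ⟨R', hR'⟩ := hT.1
  refine ⟨⟨R' + R, PropLE.mul hR' hS⟩, fun x y => ?_⟩
  rw [blk_mul hR']
  exact Cpt.sum _ _ fun w _ => Cpt.mul_right (hT.2 x w) _

theorem isRoe_neg {T : BX X} (hT : IsRoe (gX X) T) : IsRoe (gX X) (-T) := by
  rw [← neg_one_smul ℂ T]
  exact hT.smul _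

/-- The ideal `ℂ[X]`. -/
noncomputable def roeI (X : Type) [MetricSpace X] [BddGeometry X] : TwoSidedIdeal (finProp X) :=
  TwoSidedIdeal.mk' {T | IsRoe (gX X) (T : BX X)} IsRoe.zero IsRoe.add isRoe_neg
    (fun {S _} h => isRoe_mul_left S.2.choose_spec h)
    (fun {_ S} h => isRoe_mul_right S.2.choose_spec h)

theorem q_roe {T : finProp X} : idq (roeI X) T = 0 ↔ IsRoe (gX X) (T : BX X) := by
  rw [idq_eq_zero_iff, roeI, TwoSidedIdeal.mem_mk']
  rfl

variable {A : Type} [NonUnitalCStarAlgebra A] {i : BX X → A}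

/-- The ideal `ℂ[X]` and its completion. -/
noncomputable def muRel (hi : StarHomOn (IsRoe (gX X)) i) :
    Rel (finProp X) (roeI X).ringCon.Quotient (Unitization ℂ A) where
  q := idq (roeI X)
  j T := Unitization.inr (i T)
  j_add a b ha hb := by
    rw [← Unitization.inr_add, ← (hi _ _ (q_roe.1 ha) (q_roe.1 hb)).1]
    rfl
  j_mul a b ha hb := by
    rw [← Unitization.inr_mul, ← (hi _ _ (q_roe.1 ha) (q_roe.1 hb)).2.1]
    rfl
  j_smul c a ha := by
    rw [← Unitization.inr_smul, ← (hi _ _ (q_roe.1 ha) (q_roe.1 ha)).2.2.2 c]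
    rfl

theorem exists_norm_bound [Nonempty X] (hi : StarHomOn (IsRoe (gX X)) i) (R : ℝ) :
    ∃ C : ℝ, ∀ T, IsRoe (gX X) T → PropLE (gX X) T R → ‖i T‖ ≤ C * ‖T‖ := by
  obtain ⟨N, χ, hχ⟩ := exists_colouring (X := X) (2 * R)
  refine ⟨N * N, fun T hT hR => ?_⟩
  have h1 := boundedOn_iotaF (gX X) A i hi T hT
  have h2 : ‖iotaF (gX X) T‖ = maxNorm (gX X) ⟨T, hT.mem_roeU⟩ := by
    change ‖((iotaF (gX X) T : augI (gX X)) : CM (gX X))‖ = _
    rw [coe_iotaF hT]
    exact norm_toC _ _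
  have h3 := seminorm_le_of_colouring χ (maxNorm (gX X)) hT hR hχ
    (fun a b => norm_piece_le χ T a b)
  rw [mul_assoc]
  exact h1.trans (h2.le.trans h3)

theorem sum_coord_le {r : ℝ} (F : Finset X) (p : Rips X r) : ∑ y ∈ F, p.t y ≤ 1 := by
  classical
  rw [← p.sum_eq (B := F ∪ p.t.support) Finset.subset_union_right]
  exact Finset.sum_le_sum_of_subset_of_nonneg Finset.subset_union_left fun y _ _ => p.nonneg y

/-- The partition given by the barycentric coordinates. -/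
noncomputable def baryPart (X : Type) [MetricSpace X] [BddGeometry X] (r : ℝ) :
    Part C₀(Rips X r, ℂ) X :=
  Part.ofFun (bary r) (fun x p => p.t x) (fun _ _ => rfl) (fun x p => p.nonneg x) sum_coord_le
    (fun x => (finite_closedBall x r).toFinset)
    (fun _ z p hz h => by
      by_contra h0
      exact hz (star_subset h (Finsupp.mem_support_iff.2 h0)))
    (fun _ p h => p.sum_eq (star_subset h))

theorem baryPart_s (r : ℝ) (x : X) : (baryPart X r).s x = bary r x := rfl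

theorem propLE_amp (U : OpN) : PropLE (gX X) (amp X U) 0 := by
  classical
  refine (propLE_iff_bl id _ _).2 fun p q h => ?_
  rw [bl_amp, if_neg]
  rintro rfl
  simp at h

theorem propLE_P (r : ℝ) (ρ : C₀(Rips X r, ℂ) →⋆ₙₐ[ℂ] OpN) :
    PropLE (gX X) ((baryPart X r).P ρ) r := by
  refine (propLE_iff_bl id _ _).2 fun p q h => ?_
  rw [Part.bl_P, (baryPart X r).off, map_zero]
  intro hq
  have h1 := Metric.mem_closedBall.1 ((finite_closedBall p r).mem_toFinset.1 hq)
  rw [dist_comm] at h1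
  exact absurd h1 (not_le.2 h)

/-- Norm continuous paths of uniformly bounded propagation. -/
noncomputable def muAdm (X : Type) [MetricSpace X] [BddGeometry X] :
    Subring (unitInterval → finProp X) where
  carrier := {γ | Continuous (fun t => (γ t : BX X)) ∧ ∃ R, ∀ t, PropLE (gX X) (γ t : BX X) R}
  mul_mem' := fun ⟨h, R, hR⟩ ⟨h', R', hR'⟩ => ⟨h.mul h', R + R', fun t => (hR t).mul (hR' t)⟩
  one_mem' := ⟨continuous_const, 0, fun _ => PropLE.one le_rfl⟩
  add_mem' := fun ⟨h, R, hR⟩ ⟨h', R', hR'⟩ => ⟨h.add h', max R R', fun t =>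
    ((hR t).mono (le_max_left _ _)).add ((hR' t).mono (le_max_right _ _))⟩
  zero_mem' := ⟨continuous_const, 0, fun _ => PropLE.zero 0⟩
  neg_mem' := fun {γ} ⟨h, R, hR⟩ => ⟨h.neg, R, fun t => by
    change PropLE (gX X) (-(γ t : BX X)) R
    rw [← neg_one_smul ℂ]
    exact (hR t).smul _⟩

theorem muAdm_cont [Nonempty X] (hi : StarHomOn (IsRoe (gX X)) i)
    (γ : unitInterval → finProp X) (hγ : γ ∈ muAdm X) (h : ∀ t, (muRel hi).q (γ t) = 0) :
    Continuous fun t => (muRel hi).j (γ t) := by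
  obtain ⟨hc, R, hR⟩ := hγ
  obtain ⟨C, hC⟩ := exists_norm_bound hi R
  refine Unitization.continuous_inr.comp (continuous_iff_continuousAt.2 fun s => ?_)
  refine tendsto_iff_norm_sub_tendsto_zero.2 (squeeze_zero (fun _ => norm_nonneg _)
    (g := fun t => C * ‖(γ t : BX X) - γ s‖) (fun t => ?_) ?_)
  · rw [← StarHomOn.map_sub isSub_roe hi (q_roe.1 (h t)) (q_roe.1 (h s))]
    exact hC _ ((q_roe.1 (h t)).sub (q_roe.1 (h s))) ((hR t).sub (hR s))
  · have h1 : Continuous fun t => C * ‖(γ t : BX X) - γ s‖ :=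
      continuous_const.mul (hc.sub continuous_const).norm
    simpa using h1.tendsto s

/-- The context of the assembly map at scale `r`. -/
noncomputable def muCtx [Nonempty X] (hi : StarHomOn (IsRoe (gX X)) i) (r : ℝ) :
    Ctx (muRel hi) C₀(Rips X r, ℂ) X Unit where
  ev := RingHom.pi fun _ => (finProp X).val.toRingHom
  inj _ _ h := Subtype.ext (congrFun h ())
  π _ := baryPart X r
  am U := ⟨amp X U, 0, propLE_amp U⟩
  ev_am _ _ := rfl
  P ρ := ⟨(baryPart X r).P ρ, r, propLE_P r ρ⟩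
  ev_P _ _ := rfl
  q_zero m h := by
    refine q_roe.2 ((isRoe_iff_bl id (fun x => Set.finite_singleton x) _).2 ⟨?_, fun p q => ?_⟩)
    · obtain ⟨R, hR⟩ := m.2
      exact ⟨R, (propLE_iff_bl id _ _).1 hR⟩
    · exact ((h () p).1.comp_right (inc q) :)
  Adm := muAdm X
  hconst a := ⟨continuous_const, a.2.choose, fun _ => a.2.choose_spec⟩
  hcont := muAdm_cont hi
  am_adm G hG := ⟨continuous_amp.comp hG, 0, fun _ => propLE_amp _⟩

section Mu

variable [Nonempty X] (hi : StarHomOn (IsRoe (gX X)) i)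

theorem ripsRes_bary {r s : ℝ} (h : r ≤ s) (x : X) : ripsRes h (bary s x) = bary r x := rfl

theorem muCtx_P {r s : ℝ} (h : r ≤ s) {ρ : C₀(Rips X r, ℂ) →⋆ₙₐ[ℂ] OpN}
    {ρ' : C₀(Rips X s, ℂ) →⋆ₙₐ[ℂ] OpN} (e : ∀ a, ρ' a = ρ (ripsRes h a)) :
    (muCtx hi r).P ρ = (muCtx hi s).P ρ' := by
  refine Subtype.ext (bl_ext fun y z => ?_)
  change bl ((baryPart X r).P ρ) y z = bl ((baryPart X s).P ρ') y z
  rw [Part.bl_P, Part.bl_P, e, map_mul (ripsRes h), baryPart_s, baryPart_s, baryPart_s,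
    baryPart_s, ripsRes_bary, ripsRes_bary]

theorem muCtx_dat {r s : ℝ} (h : r ≤ s) (d : Quad C₀(Rips X r, ℂ)) (d' : Quad C₀(Rips X s, ℂ))
    (e₀ : ∀ a, d'.ρ₀ a = d.ρ₀ (ripsRes h a)) (e₁ : ∀ a, d'.ρ₁ a = d.ρ₁ (ripsRes h a))
    (hU : d'.U = d.U) (hU' : d'.U' = d.U') :
    ((muCtx hi s).dat d').ind = ((muCtx hi r).dat d).ind := by
  refine IDat.ind_congr _ _ (muCtx_P hi h e₀) (muCtx_P hi h e₁) ?_ ?_
  · change (muCtx hi r).P _ * (muCtx hi r).am _ * (muCtx hi r).P _ =
      (muCtx hi s).P _ * (muCtx hi s).am _ * (muCtx hi s).P _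
    rw [muCtx_P hi h e₀, muCtx_P hi h e₁, hU]
    rfl
  · change (muCtx hi r).P _ * (muCtx hi r).am _ * (muCtx hi r).P _ =
      (muCtx hi s).P _ * (muCtx hi s).am _ * (muCtx hi s).P _
    rw [muCtx_P hi h e₀, muCtx_P hi h e₁, hU']
    rfl

theorem mu_compat {r s : ℝ} (h : r ≤ s) (x : KK C₀(Rips X r, ℂ)) :
    (muCtx hi s).hom (KK.comap (ripsRes h) x) = (muCtx hi r).hom x := by
  have h1 : (muCtx hi s).hom.comp (KK.comap (ripsRes h)) = (muCtx hi r).hom := by
    refine KK.hom_ext fun c => ?_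
    obtain ⟨w, hw⟩ := c.M.exists_w
    rw [AddMonoidHom.comp_apply, (muCtx hi s).hom_comap_cls (ripsRes h) c hw,
      (muCtx hi r).hom_cls c hw]
    exact muCtx_dat hi h _ _ (fun _ => Quad.comap_ρ₀ _ _ _) (fun _ => Quad.comap_ρ₁ _ _ _) rfl rfl
  exact DFunLike.congr_fun h1 x

/-- The assembly map with values in `K_0(A^+)`. -/
noncomputable def mu0 : KX0 X →+ K0 (Unitization ℂ A) :=
  AddCommGroup.DirectLimit.lift _ _ _ (fun r => (muCtx hi r).hom)
    (fun _ _ h x => mu_compat hi h x)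

theorem mu0_cls (r : ℝ) (c : Cycle C₀(Rips X r, ℂ)) {w : c.M.H →L[ℂ] L2 ℕ}
    (hw : adjoint w ∘L w = 1) :
    mu0 hi (KX0.cls r c) = ((muCtx hi r).dat (c.quad w hw)).ind := by
  unfold mu0 KX0.cls
  rw [AddCommGroup.DirectLimit.lift_of, (muCtx hi r).hom_cls c hw]

theorem KX0.hom_ext {G : Type*} [AddCommGroup G] {f g : KX0 X →+ G}
    (h : ∀ r c, f (KX0.cls r c) = g (KX0.cls r c)) : f = g :=
  AddCommGroup.DirectLimit.hom_ext _ fun r => KK.hom_ext fun c => h r c

theorem fst_L (x : (muRel hi).P) : ((muRel hi).L x).fst = (muRel hi).sc x := by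
  rw [Rel.L_apply, Unitization.fst_add, Unitization.algebraMap_eq_inl, Unitization.fst_inl]
  change _ + (Unitization.inr _ : Unitization ℂ A).fst = _
  rw [Unitization.fst_inr, add_zero]

theorem mu0_mem (x : KX0 X) : toKZ _ (mu0 hi x) ∈ KCStar A := by
  have h1 : (KZero.map (Unitization.fstHom ℂ A : Unitization ℂ A →+* ℂ)).comp
      ((toKZ _).comp (mu0 hi)) = 0 := by
    refine KX0.hom_ext fun r c => ?_
    obtain ⟨w, hw⟩ := c.M.exists_w
    rw [AddMonoidHom.comp_apply, AddMonoidHom.comp_apply, mu0_cls hi r c hw]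
    unfold IDat.ind IPair.del
    rw [map_sub, map_sub, toKZ_cls, toKZ_cls, KZero.map_cls, KZero.map_cls,
      AddMonoidHom.zero_apply, sub_eq_zero]
    refine KZero.cls_congr _ _ ?_
    rw [oM_map, ← IPair.dP_sc ((muCtx hi r).dat (c.quad w hw)).pair]
    ext a b
    exact fst_L hi _
  exact DFunLike.congr_fun h1 x

/-- The assembly map. -/
noncomputable def mu : KX0 X →+ KCStar A :=
  ((toKZ _).comp (mu0 hi)).codRestrict _ (mu0_mem hi)

theorem mu_apply (x : KX0 X) : (mu hi x : KZero (Unitization ℂ A)) = toKZ _ (mu0 hi x) := rfl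

end Mu

theorem hasEntries_iff {X : Type} (T : LP X →L[ℂ] LP X) (K : X → X → OpN) :
    HasEntries T K ↔ ∀ x y, bl T x y = K x y := by
  have h1 : ∀ x y m n, inner ℂ (stdBasis (X × ℕ) (x, m)) (T (stdBasis (X × ℕ) (y, n))) =
      inner ℂ (stdB ℕ m) (bl T x y (stdB ℕ n)) := by
    intro x y m n
    change inner ℂ (stdB (X × ℕ) (x, m)) (T (stdB (X × ℕ) (y, n))) = _
    rw [inner_stdB, inner_stdB, bl_apply, stdB_apply, stdB_apply]
    have h2 : (bv (y, n) : LP X) = inc y (bv n) := by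
      refine lp.ext (funext fun j => ?_)
      obtain ⟨a, b⟩ := j
      by_cases h : a = y
      · subst h
        rw [inc_apply_self, bv_apply, bv_apply]
        simp
      · rw [inc_apply_ne h, bv_apply, if_neg fun e => h (congrArg Prod.fst e)]
    rw [h2]
  constructor
  · intro h x y
    exact ext_inner fun m n => (h1 x y m n).symm.trans (h x y m n)
  · intro h x y m n
    rw [h1, h]
    rfl

theorem indexE_eq {S : Type} [Ring S] {p₀ : S} (p₁ T S' : S) (h₀ : p₀ * p₀ = p₀)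
    (T₀ : T * p₀ = T) : indexE p₀ p₁ T S' = vecMulVec (xV p₀ T S') (yV p₀ T S') := by
  have h1 : (2 * T - T * S' * T) * p₀ = 2 * T - T * S' * T := by
    rw [sub_mul, mul_assoc, mul_assoc, T₀]
  have h2 : (p₀ - S' * T) * p₀ = p₀ - S' * T := by rw [sub_mul, mul_assoc, T₀, h₀]
  unfold indexE
  rw [Matrix.mul_fin_two, Matrix.mul_fin_two]
  simp only [mul_zero, add_zero, zero_mul, h1, h2]
  ext a b
  fin_cases a <;> fin_cases b <;> rfl

theorem dM_sub_oM {S : Type} [Ring S] {ι : Type} [Fintype ι] [DecidableEq ι]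
    (e : Matrix ι ι S) {f : Matrix ι ι S} (hf : f * f = f) :
    dM e f - oM ι S = zM f * fromBlocks (e - f) 0 0 0 * zM f := by
  rw [← dM_self hf]
  unfold dM
  rw [← sub_mul, ← mul_sub]
  congr 2
  ext a b
  rcases a with a | a <;> rcases b with b | b <;> simp

theorem isAssembly_mu [Nonempty X] (hi : StarHomOn (IsRoe (gX X)) i) : IsAssembly i (mu hi) := by
  classical
  intro r c
  have key : ∀ (w : c.M.H →L[ℂ] L2 ℕ) (hw : adjoint w ∘L w = 1) p₀ p₁ Φ,
      IsAmplification c w p₀ p₁ Φ ↔ p₀ = (baryPart X r).P (c.M.ρ₀ w hw) ∧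
        p₁ = (baryPart X r).P (c.M.ρ₁ w hw) ∧ Φ = amp X (cj w c.F) := by
    intro w hw p₀ p₁ Φ
    unfold IsAmplification
    rw [hasEntries_iff, hasEntries_iff, hasEntries_iff]
    constructor
    · rintro ⟨-, h1, h2, h3⟩
      refine ⟨bl_ext fun x y => ?_, bl_ext fun x y => ?_, bl_ext fun x y => ?_⟩
      · rw [h1, Part.bl_P]
        rfl
      · rw [h2, Part.bl_P]
        rfl
      · rw [h3, bl_amp]
        rfl
    · rintro ⟨rfl, rfl, rfl⟩
      refine ⟨hw, fun x y => ?_, fun x y => ?_, fun x y => ?_⟩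
      · rw [Part.bl_P]
        rfl
      · rw [Part.bl_P]
        rfl
      · rw [bl_amp]
        rfl
  refine ⟨?_, fun w p₀ p₁ Φ h => ?_⟩
  · obtain ⟨w, hw⟩ := c.M.exists_w
    exact ⟨w, _, _, _, (key w hw _ _ _).2 ⟨rfl, rfl, rfl⟩⟩
  · have hw := h.1
    obtain ⟨rfl, rfl, rfl⟩ := (key w hw _ _ _).1 h
    set d := (muCtx hi r).dat (c.quad w hw) with hd
    refine ⟨d.pair.dP.map (muRel hi).L, oM (Fin 2) (Unitization ℂ A),
      mapMat_idem _ d.pair.dP_idem, oM_idem, ?_, rfl, ?_⟩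
    · let v : finProp X →+* BX X := (finProp X).val.toRingHom
      have he : d.pair.e.map v = indexE (v d.p₀) (v d.p₁) (v d.T) (v d.S) := by
        rw [indexE_eq _ _ _ (by rw [← map_mul, d.h₀]) (by rw [← map_mul, d.T₀])]
        ext1 a b
        fin_cases a <;> fin_cases b <;> rfl
      have hf : d.pair.f.map v = !![v d.p₁, 0; 0, 0] := by
        ext1 a b
        fin_cases a <;> fin_cases b
        · exact congrArg v d.h₁
        · exact congrArg v (mul_zero _)
        · exact congrArg v (zero_mul _)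
        · exact congrArg v (zero_mul _)
      change _ = diffIdem i (indexE (v d.p₀) (v d.p₁) (v d.T) (v d.S)) !![v d.p₁, 0; 0, 0]
      rw [← he, ← hf]
      have h1 := dM_sub_oM (d.pair.e.map v) (mapMat_idem v d.pair.hf)
      rw [← dM_map, ← oM_map v] at h1
      unfold diffIdem
      ext1 a b
      rw [Matrix.add_apply, Matrix.map_apply, Matrix.map_apply, Rel.L_apply]
      congr 1
      · exact congrFun (congrFun (oM_map (ι := Fin 2) (algebraMap ℂ (Unitization ℂ A))) a) b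
      · have h2 := congrFun (congrFun h1 a) b
        unfold zM at h2
        rw [← h2]
        refine congrArg (fun T => (Unitization.inr (i T) : Unitization ℂ A)) ?_
        have h3 : algebraMap ℂ (finProp X) ((muRel hi).sc (d.pair.dP a b)) =
            oM (Fin 2) (finProp X) a b :=
          congrFun (congrFun (oM_map (ι := Fin 2) (algebraMap ℂ (finProp X))) a) b
        rw [h3]
        rfl
    · rw [mu_apply, mu0_cls hi r c hw]
      unfold IDat.ind IPair.del
      rw [map_sub, toKZ_cls, toKZ_cls]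

theorem isAssembly_unique [Nonempty X] {μ μ' : KX0 X →+ KCStar A} (h : IsAssembly i μ)
    (h' : IsAssembly i μ') : μ = μ' := by
  refine KX0.hom_ext fun r c => Subtype.ext ?_
  obtain ⟨w, p₀, p₁, Φ, hw⟩ := (h r c).1
  obtain ⟨D, O, hD, hO, e1, e2, e3⟩ := (h r c).2 w p₀ p₁ Φ hw
  obtain ⟨D', O', hD', hO', e1', e2', e3'⟩ := (h' r c).2 w p₀ p₁ Φ hw
  rw [e3, e3', KZero.cls_congr hD hD' (e1.trans e1'.symm),
    KZero.cls_congr hO hO' (e2.trans e2'.symm)]

end Vale.Agent.P212Z
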