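import Vale.Agent.P212Z.Mu

/-! The assembly map vanishes on cycles supported on a subspace whose inclusion is zero in
K-theory. -/

set_option linter.unusedSectionVars false

namespace Vale.Agent.P212Z

open Vale.Agent.P212 Vale.Agent.P212.H35 Filter Topology ZeroAtInfty Matrix
open ContinuousLinearMap hiding proj

section Gen

variable {S : Type} [Ring S] {ι : Type} [Fintype ι] [DecidableEq ι]

theorem dM_under {e f : Matrix ι ι S} (hf : f * f = f) {p : S}
    (h1 : ∀ a b, p * e a b = e a b) (h2 : ∀ a b, e a b * p = e a b)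
    (h3 : ∀ a b, p * f a b = f a b) (h4 : ∀ a b, f a b * p = f a b) (a b : ι ⊕ ι) :
    p * (dM e f - oM ι S) a b = (dM e f - oM ι S) a b ∧
      (dM e f - oM ι S) a b * p = (dM e f - oM ι S) a b := by
  have c1 : ∀ a b, p * zM f a b = zM f a b * p := by
    have h5 : ∀ a b, p * (1 - f) a b = (1 - f) a b * p := by
      intro a b
      rw [Matrix.sub_apply, mul_sub, sub_mul, h3, h4, Matrix.one_apply]
      split_ifs <;> simp
    rintro (a | a) (b | b)
    · exact (h3 a b).trans (h4 a b).symm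
    · exact h5 a b
    · exact h5 a b
    · exact (h3 a b).trans (h4 a b).symm
  have c2 : ∀ a b, p * (fromBlocks (e - f) 0 0 0 : Matrix (ι ⊕ ι) (ι ⊕ ι) S) a b =
      (fromBlocks (e - f) 0 0 0 : Matrix (ι ⊕ ι) (ι ⊕ ι) S) a b := by
    rintro (a | a) (b | b)
    · change p * (e a b - f a b) = e a b - f a b
      rw [mul_sub, h1, h3]
    all_goals exact mul_zero _
  have c3 : ∀ a b, (fromBlocks (e - f) 0 0 0 : Matrix (ι ⊕ ι) (ι ⊕ ι) S) a b * p =
      (fromBlocks (e - f) 0 0 0 : Matrix (ι ⊕ ι) (ι ⊕ ι) S) a b := by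
    rintro (a | a) (b | b)
    · change (e a b - f a b) * p = e a b - f a b
      rw [sub_mul, h2, h4]
    all_goals exact zero_mul _
  rw [dM_sub_oM e hf]
  simp only [Matrix.mul_apply, Finset.mul_sum, Finset.sum_mul]
  constructor
  · refine Finset.sum_congr rfl fun x _ => Finset.sum_congr rfl fun y _ => ?_
    rw [← mul_assoc, ← mul_assoc, c1, mul_assoc _ p, c2]
  · refine Finset.sum_congr rfl fun x _ => Finset.sum_congr rfl fun y _ => ?_
    rw [mul_assoc, ← c1, ← mul_assoc, mul_assoc _ _ p, c3]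

theorem cls_oM_map {S' S'' : Type} [Ring S'] [Ring S''] (φ : S →+* S') (ψ : S' →+* S'') :
    K0.cls (oM ι S'') oM_idem = K0.cls (((oM ι S).map φ).map ψ)
      (mapMat_idem ψ (mapMat_idem φ oM_idem)) :=
  K0.cls_congr _ (by rw [oM_map, oM_map])

end Gen

variable {X : Type} [MetricSpace X] [BddGeometry X]

/-- The restriction of an operator to a subspace. -/
noncomputable def resW (W : Set X) (T : BX X) : BX W := adjoint (inclL W) ∘L T ∘L inclL W

theorem incl_inc (W : Set X) (p : W) : inclL W ∘L inc p = inc (p : X) := by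
  ext1 f
  refine lp.ext (funext fun j => ?_)
  obtain ⟨x, n⟩ := j
  by_cases hx : x ∈ W
  · have h1 := pushL2_apply (incl_inj W) (inc p f) (⟨x, hx⟩, n)
    refine h1.trans ?_
    by_cases h : x = p
    · subst h
      exact (inc_apply_self p f n).trans (inc_apply_self (p : X) f n).symm
    · rw [inc_apply_ne h, inc_apply_ne fun e => h (congrArg Subtype.val e)]
  · have h1 := pushL2_apply_not_mem (incl_inj W) (inc p f) (k := (x, n)) (by
      rintro ⟨⟨y, m⟩, h⟩
      exact hx ((Prod.mk.inj h).1 ▸ y.2))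
    refine h1.trans ?_
    rw [inc_apply_ne fun e => hx (by rw [e]; exact p.2)]

theorem bl_resW (W : Set X) (T : BX X) (p q : W) : bl (resW W T) p q = bl T (p : X) (q : X) := by
  unfold bl resW
  rw [← incl_inc, ← incl_inc, adjoint_comp]
  rfl

theorem isRoe_resW (W : Set X) {T : BX X} (hT : IsRoe (gX X) T) : IsRoe (gX W) (resW W T) := by
  obtain ⟨⟨R, h1⟩, h2⟩ := (isRoe_iff_bl id (fun x => Set.finite_singleton x) T).1 hT
  refine (isRoe_iff_bl id (fun x => Set.finite_singleton x) _).2 ⟨⟨R, fun p q h => ?_⟩,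
    fun p q => ?_⟩
  · rw [bl_resW]
    exact h1 _ _ h
  · rw [bl_resW]
    exact h2 _ _

theorem incl_adj (W : Set X) : inclL W ∘L adjoint (inclL W) = proj (gX X ⁻¹' W) := by
  refine (pushL2_comp_adjoint (incl_inj W)).trans ?_
  congr 1
  ext ⟨x, n⟩
  constructor
  · rintro ⟨⟨y, m⟩, h⟩
    exact (Prod.mk.inj h).1 ▸ y.2
  · intro h
    exact ⟨(⟨x, h⟩, n), rfl⟩

theorem resW_mul (W : Set X) (T : BX X) {S : BX X}
    (h : proj (gX X ⁻¹' W) * S = S * proj (gX X ⁻¹' W)) :
    resW W T * resW W S = resW W (T * S) := by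
  have h1 : resW W T * resW W S =
      adjoint (inclL W) ∘L T ∘L ((inclL W ∘L adjoint (inclL W)) * S) ∘L inclL W := rfl
  rw [h1, incl_adj, h, ← incl_adj]
  ext1 f
  simp only [resW, ContinuousLinearMap.comp_apply, mul_apply_eq_comp,
    iso_apply (adjoint_inclL_comp W)]

theorem resW_smul_add (W : Set X) (c : ℂ) (T : BX X) :
    resW W (c • 1 + T) = c • 1 + resW W T := by
  ext1 f
  simp only [resW, ContinuousLinearMap.comp_apply, _root_.add_apply, _root_.smul_apply,
    one_apply_eq_self, map_add, map_smul, iso_apply (adjoint_inclL_comp W)]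

theorem resW_sum (W : Set X) {ι : Type} (F : Finset ι) (T : ι → BX X) :
    resW W (∑ a ∈ F, T a) = ∑ a ∈ F, resW W (T a) := by
  unfold resW
  rw [finsetSum_comp, comp_finsetSum]

theorem incl_resW (W : Set X) {T : BX X} (h : proj (gX X ⁻¹' W) * T = T)
    (h' : T * proj (gX X ⁻¹' W) = T) : inclL W ∘L resW W T ∘L adjoint (inclL W) = T := by
  have h1 : inclL W ∘L resW W T ∘L adjoint (inclL W) =
      (inclL W ∘L adjoint (inclL W)) * T * (inclL W ∘L adjoint (inclL W)) := rfl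
  rw [h1, incl_adj, h, h']

variable {A : Type} [NonUnitalCStarAlgebra A] {i : BX X → A} [Nonempty X]

theorem kapU_add (hi : Cpl i) (c : ℂ) {N : BX X} (hN : IsRoe (gX X) N) :
    kapU hi (c • 1 + toMax (gX X) ⟨N, hN.mem_roeU⟩) =
      algebraMap ℂ (Unitization ℂ A) c + Unitization.inr (i N) := by
  have h1 : c • 1 + toMax (gX X) ⟨N, hN.mem_roeU⟩ =
      uniCM (gX X) (Unitization.inl c + Unitization.inr (iotaF (gX X) N)) := by
    rw [uniCM_apply, ← coe_iotaF hN, Algebra.algebraMap_eq_smul_one]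
    simp
  rw [h1, kapU_apply, cmUni_uniCM, ← kap0_apply hi hN]
  refine Unitization.ext ?_ ?_
  · rw [starMap_fst]
    simp [Unitization.algebraMap_eq_inl]
  · rw [starMap_snd]
    simp [Unitization.algebraMap_eq_inl]

theorem aug_toMax_eq {J : Type} (s : J → X) [InfFib s] (T : roeU s) {c : ℂ}
    {S : L2 J →L[ℂ] L2 J} (hS : IsRoe s S) (h : (T : L2 J →L[ℂ] L2 J) = c • 1 + S) :
    aug s (toMax s T) = c := by
  refine (CM.lift_toMax s _ T).trans ((unitFun_eq s 0 T hS h).trans ?_)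
  simp

theorem inclC_toMax_eq (W : Set X) [Nonempty W] (T : roeU (gX W)) {c : ℂ} {N : BX X}
    (hN : IsRoe (gX X) N) (h1 : proj (gX X ⁻¹' W) * N = N) (h2 : N * proj (gX X ⁻¹' W) = N)
    (h : (T : BX W) = c • 1 + resW W N) :
    inclC W (toMax (gX W) T) = c • 1 + toMax (gX X) ⟨N, hN.mem_roeU⟩ := by
  refine (CM.lift_toMax _ _ T).trans ((unitFun_eq _ _ T (isRoe_resW W hN) h).trans ?_)
  exact congrArg (fun S => c • 1 + toMax (gX X) S) (Subtype.ext (incl_resW W h1 h2))

theorem muRel_L (hi : StarHomOn (IsRoe (gX X)) i) (x : (muRel hi).P) :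
    (muRel hi).L x = algebraMap ℂ (Unitization ℂ A) ((muRel hi).sc x) + Unitization.inr
      (i ((muRel hi).pr x - algebraMap ℂ (finProp X) ((muRel hi).sc x) : finProp X)) := rfl

theorem del_eq_zero_of_sub (hi : Cpl i) (W : Set X) [Nonempty W]
    (hW : ∀ x ∈ K0Max (gX W), K0incl W x = 0) {ι : Type} [Fintype ι] [DecidableEq ι]
    (x : IPair (muRel hi.hom) ι)
    (h1 : ∀ a b, proj (gX X ⁻¹' W) * (x.e a b : BX X) = x.e a b)
    (h2 : ∀ a b, (x.e a b : BX X) * proj (gX X ⁻¹' W) = x.e a b)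
    (h3 : ∀ a b, proj (gX X ⁻¹' W) * (x.f a b : BX X) = x.f a b)
    (h4 : ∀ a b, (x.f a b : BX X) * proj (gX X ⁻¹' W) = x.f a b) : x.del = 0 := by
  let v : finProp X →+* BX X := (finProp X).val.toRingHom
  set D : Matrix (ι ⊕ ι) (ι ⊕ ι) (BX X) := dM (x.e.map v) (x.f.map v) with hD
  set N : Matrix (ι ⊕ ι) (ι ⊕ ι) (BX X) := D - oM ι (BX X) with hN
  have hO : ∀ a b, oM ι (BX X) a b = oM ι ℂ a b • (1 : BX X) := by
    intro a b
    rw [← Algebra.algebraMap_eq_smul_one]
    exact (congrFun (congrFun (oM_map (algebraMap ℂ (BX X))) a) b).symm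
  have hDN : ∀ a b, D a b = oM ι ℂ a b • (1 : BX X) + N a b := by
    intro a b
    rw [hN, Matrix.sub_apply, hO, add_sub_cancel]
  have hund := dM_under (e := x.e.map v) (mapMat_idem v x.hf) h1 h2 h3 h4
  have hNe : ∀ a b, N a b = v ((muRel hi.hom).pr (x.dP a b) -
      algebraMap ℂ (finProp X) ((muRel hi.hom).sc (x.dP a b))) := by
    intro a b
    have h5 : algebraMap ℂ (finProp X) ((muRel hi.hom).sc (x.dP a b)) = oM ι (finProp X) a b :=
      congrFun (congrFun (oM_map (ι := ι) (algebraMap ℂ (finProp X))) a) b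
    rw [h5, hN, hD, ← dM_map, ← oM_map v]
    rfl
  have hroe : ∀ a b, IsRoe (gX X) (N a b) := by
    intro a b
    rw [hNe]
    exact q_roe.1 ((muRel hi.hom).q_sub (x.dP a b))
  have hres : ∀ a b, resW W (D a b) = oM ι ℂ a b • 1 + resW W (N a b) := by
    intro a b
    rw [hDN, resW_smul_add]
  let DW : Matrix (ι ⊕ ι) (ι ⊕ ι) (roeU (gX W)) := fun a b => ⟨resW W (D a b), oM ι ℂ a b, by
    rw [hres, add_sub_cancel_left]
    exact isRoe_resW W (hroe a b)⟩
  have hDW : DW * DW = DW := by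
    ext1 a c
    refine Subtype.ext ?_
    rw [Matrix.mul_apply]
    change (roeU (gX W)).subtype (∑ b, DW a b * DW b c) = resW W (D a c)
    rw [map_sum]
    have h5 : D a c = ∑ b, D a b * D b c := by
      rw [← Matrix.mul_apply, hD, dM_idem (mapMat_idem v x.he) (mapMat_idem v x.hf)]
    rw [h5, resW_sum]
    refine Finset.sum_congr rfl fun b _ => resW_mul W _ ?_
    rw [hDN, mul_add, add_mul, (hund b c).1, (hund b c).2, mul_smul_comm, smul_mul_assoc,
      mul_one, one_mul]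
  let t : roeU (gX W) →+* CM (gX W) := toMax (gX W)
  let y : K0 (CM (gX W)) := K0.cls (DW.map t) (mapMat_idem t hDW) - K0.cls (oM ι _) oM_idem
  have hy : y ∈ K0Max (gX W) := by
    change K0.map (aug (gX W) : CM (gX W) →+* ℂ) y = 0
    rw [map_sub, K0.map_cls, K0.map_cls, sub_eq_zero]
    refine K0.cls_congr _ ?_
    rw [oM_map]
    ext a b
    exact aug_toMax_eq (gX W) (DW a b) (isRoe_resW W (hroe a b)) (hres a b)
  have h6 := congrArg (K0.map (kapU hi)) (hW y hy)
  rw [map_zero, K0incl, map_sub, map_sub, K0.map_cls, K0.map_cls, K0.map_cls, K0.map_cls] at h6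
  rw [← h6]
  unfold IPair.del
  refine congrArg₂ (fun a b => a - b) (K0.cls_congr _ ?_) (cls_oM_map _ _)
  ext1 a b
  have h7 := congrArg (kapU hi) (inclC_toMax_eq W (DW a b) (hroe a b) (hund a b).1
    (hund a b).2 (hres a b))
  rw [kapU_add hi _ (hroe a b), hNe] at h7
  exact (muRel_L hi.hom (x.dP a b)).trans h7.symm

theorem ind_eq_zero_of_sub (hi : Cpl i) (W : Set X) [Nonempty W]
    (hW : ∀ x ∈ K0Max (gX W), K0incl W x = 0) (d : IDat (muRel hi.hom))
    (h₀ : proj (gX X ⁻¹' W) * (d.p₀ : BX X) = d.p₀)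
    (h₀' : (d.p₀ : BX X) * proj (gX X ⁻¹' W) = d.p₀)
    (h₁ : proj (gX X ⁻¹' W) * (d.p₁ : BX X) = d.p₁)
    (h₁' : (d.p₁ : BX X) * proj (gX X ⁻¹' W) = d.p₁) : d.ind = 0 := by
  let p : finProp X := ⟨proj (gX X ⁻¹' W), 0, fun x y hxy => by
    unfold blk
    rw [proj_mul_proj, proj_mul_proj, ← proj_empty]
    congr 1
    ext j
    simp only [Set.mem_inter_iff, Set.mem_preimage, Set.mem_singleton_iff, Set.mem_empty_iff_false,
      iff_false, not_and]
    rintro ⟨rfl, -⟩ rfl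
    simp at hxy⟩
  have e₀ : p * d.p₀ = d.p₀ := Subtype.ext h₀
  have e₀' : d.p₀ * p = d.p₀ := Subtype.ext h₀'
  have e₁ : p * d.p₁ = d.p₁ := Subtype.ext h₁
  have e₁' : d.p₁ * p = d.p₁ := Subtype.ext h₁'
  have eT : p * d.T = d.T := by rw [← d.T₁, ← mul_assoc, e₁]
  have eS : d.S * p = d.S := by rw [← d.S₁, mul_assoc, e₁']
  have eT' : d.T * p = d.T := by rw [← d.T₀, mul_assoc, e₀']
  have eS' : p * d.S = d.S := by rw [← d.S₀, ← mul_assoc, e₀]
  have x1 : ∀ a, p * xV d.p₀ d.T d.S a = xV d.p₀ d.T d.S a := by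
    intro a
    fin_cases a
    · change p * (2 * d.T - d.T * d.S * d.T) = 2 * d.T - d.T * d.S * d.T
      rw [two_mul, mul_sub, mul_add, ← mul_assoc, ← mul_assoc, eT]
    · change p * (d.p₀ - d.S * d.T) = d.p₀ - d.S * d.T
      rw [mul_sub, ← mul_assoc, e₀, eS']
  have y1 : ∀ a, yV d.p₀ d.T d.S a * p = yV d.p₀ d.T d.S a := by
    intro a
    fin_cases a
    · exact eS
    · change (d.p₀ - d.S * d.T) * p = d.p₀ - d.S * d.T
      rw [sub_mul, mul_assoc, e₀', eT']
  have p1 : ∀ a, p * pV d.p₁ a = pV d.p₁ a := by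
    intro a
    fin_cases a
    · exact e₁
    · exact mul_zero _
  have p2 : ∀ a, pV d.p₁ a * p = pV d.p₁ a := by
    intro a
    fin_cases a
    · exact e₁'
    · exact zero_mul _
  refine del_eq_zero_of_sub hi W hW d.pair (fun a b => ?_) (fun a b => ?_) (fun a b => ?_)
    (fun a b => ?_)
  · refine congrArg Subtype.val (show p * (xV d.p₀ d.T d.S a * yV d.p₀ d.T d.S b) = _ from ?_)
    rw [← mul_assoc, x1]
    rfl
  · refine congrArg Subtype.val (show (xV d.p₀ d.T d.S a * yV d.p₀ d.T d.S b) * p = _ from ?_)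
    rw [mul_assoc, y1]
    rfl
  · refine congrArg Subtype.val (show p * (pV d.p₁ a * pV d.p₁ b) = _ from ?_)
    rw [← mul_assoc, p1]
    rfl
  · refine congrArg Subtype.val (show (pV d.p₁ a * pV d.p₁ b) * p = _ from ?_)
    rw [mul_assoc, p2]
    rfl

theorem proj_P_of_sub {r : ℝ} (W : Set X) (ρ : C₀(Rips X r, ℂ) →⋆ₙₐ[ℂ] OpN)
    (h : ∀ x, x ∉ W → ρ (bary r x) = 0) :
    proj (gX X ⁻¹' W) * (baryPart X r).P ρ = (baryPart X r).P ρ := by
  refine slice_ext fun x => ?_
  rw [mul_def, ← comp_assoc]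
  by_cases hx : x ∈ W
  · rw [slice_proj_mem hx]
  · rw [slice_proj_not_mem hx, zero_comp, Part.P, ← comp_assoc, Part.slice_V, baryPart_s, h x hx,
      zero_comp]

theorem P_proj_of_sub {r : ℝ} (W : Set X) (ρ : C₀(Rips X r, ℂ) →⋆ₙₐ[ℂ] OpN)
    (h : ∀ x, x ∉ W → ρ (bary r x) = 0) :
    (baryPart X r).P ρ * proj (gX X ⁻¹' W) = (baryPart X r).P ρ := by
  have h1 := congrArg star (proj_P_of_sub W ρ h)
  rwa [star_mul, Part.star_P, star_proj] at h1

/-- The assembly map vanishes on cycles supported on `W`. -/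
theorem mu_eq_zero_of_sub (hi : Cpl i) (W : Set X) [Nonempty W]
    (hW : ∀ x ∈ K0Max (gX W), K0incl W x = 0) (r : ℝ) (c : Cycle C₀(Rips X r, ℂ))
    (h : ∀ x, x ∉ W → c.M.ρ (bary r x) = 0) : mu hi.hom (KX0.cls r c) = 0 := by
  obtain ⟨w, hw⟩ := c.M.exists_w
  have h₀ : ∀ x, x ∉ W → c.M.ρ₀ w hw (bary r x) = 0 := fun x hx => by
    rw [GradedRep.ρ₀_apply, h x hx, zero_mul, cj_zero]
  have h₁ : ∀ x, x ∉ W → c.M.ρ₁ w hw (bary r x) = 0 := fun x hx => by
    rw [GradedRep.ρ₁_apply, h x hx, zero_mul, cj_zero]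
  refine Subtype.ext ?_
  rw [mu_apply, mu0_cls hi.hom r c hw, ind_eq_zero_of_sub hi W hW _ (proj_P_of_sub W _ h₀)
    (P_proj_of_sub W _ h₀) (proj_P_of_sub W _ h₁) (P_proj_of_sub W _ h₁), map_zero]
  rfl

end Vale.Agent.P212Z
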