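import Vale.Agent.P212Z.Amp

/-! Partitions of unity in a C*-algebra and the localization of Fredholm modules. -/

set_option linter.unusedSectionVars false

namespace Vale.Agent.P212Z

open Vale.Agent.P212 Filter Topology
open ContinuousLinearMap hiding proj

/-- A locally finite partition of unity `∑ s_y ^ 2 = 1`. -/
structure Part (A : Type) [NonUnitalCStarAlgebra A] (Y : Type) where
  s : Y → A
  sa : ∀ y, star (s y) = s y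
  norm_le : ∀ F : Finset Y, ‖∑ y ∈ F, s y * s y‖ ≤ 1
  comm : ∀ y z, s y * s z = s z * s y
  nb : Y → Finset Y
  off : ∀ y z, z ∉ nb y → s y * s z = 0
  sum : ∀ y, s y * ∑ z ∈ nb y, s z * s z = s y

variable {A : Type} [NonUnitalCStarAlgebra A] {Y : Type} (π : Part A Y)

theorem Part.star_rho (ρ : A →⋆ₙₐ[ℂ] OpN) (y : Y) : adjoint (ρ (π.s y)) = ρ (π.s y) := by
  rw [← star_eq_adjoint, ← map_star, π.sa]

theorem Part.exists_V (ρ : A →⋆ₙₐ[ℂ] OpN) :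
    ∃ V : L2 ℕ →L[ℂ] LP Y, (∀ y, slice y ∘L V = ρ (π.s y)) ∧ ‖V‖ ≤ 1 := by
  refine exists_col (fun y => ρ (π.s y)) zero_le_one fun F ξ => ?_
  have h1 : ∀ y, ‖ρ (π.s y) ξ‖ ^ 2 = RCLike.re (inner ℂ ξ (ρ (π.s y * π.s y) ξ)) := by
    intro y
    rw [map_mul, mul_apply_eq_comp, ← adjoint_inner_left, π.star_rho, inner_self_eq_norm_sq]
  have h2 : ∑ y ∈ F, ‖ρ (π.s y) ξ‖ ^ 2 =
      RCLike.re (inner ℂ ξ (ρ (∑ y ∈ F, π.s y * π.s y) ξ)) := by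
    rw [map_sum, sum_apply, inner_sum, map_sum]
    exact Finset.sum_congr rfl fun y _ => h1 y
  rw [h2]
  have h3 : ‖ρ (∑ y ∈ F, π.s y * π.s y)‖ ≤ 1 :=
    (NonUnitalStarAlgHom.norm_apply_le ρ _).trans (π.norm_le F)
  calc _ ≤ ‖ξ‖ * ‖ρ (∑ y ∈ F, π.s y * π.s y) ξ‖ := re_inner_le_norm _ _
    _ ≤ ‖ξ‖ * (1 * ‖ξ‖) := by
        refine mul_le_mul_of_nonneg_left ?_ (norm_nonneg _)
        exact (le_opNorm _ _).trans (mul_le_mul_of_nonneg_right h3 (norm_nonneg _))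
    _ = (1 * ‖ξ‖) ^ 2 := by ring

/-- The column operator `ξ ↦ (ρ(s_y) ξ)_y`. -/
noncomputable def Part.V (ρ : A →⋆ₙₐ[ℂ] OpN) : L2 ℕ →L[ℂ] LP Y := (π.exists_V ρ).choose

theorem Part.slice_V (ρ : A →⋆ₙₐ[ℂ] OpN) (y : Y) : slice y ∘L π.V ρ = ρ (π.s y) :=
  (π.exists_V ρ).choose_spec.1 y

theorem Part.norm_V (ρ : A →⋆ₙₐ[ℂ] OpN) : ‖π.V ρ‖ ≤ 1 := (π.exists_V ρ).choose_spec.2

theorem Part.adj_V_inc (ρ : A →⋆ₙₐ[ℂ] OpN) (y : Y) : adjoint (π.V ρ) ∘L inc y = ρ (π.s y) := by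
  have h := congrArg adjoint (π.slice_V ρ y)
  rwa [adjoint_comp, adjoint_slice, π.star_rho] at h

theorem Part.V_rho (ρ : A →⋆ₙₐ[ℂ] OpN) (y : Y) :
    π.V ρ ∘L ρ (π.s y) = ∑ z ∈ π.nb y, inc z ∘L ρ (π.s z * π.s y) := by
  refine slice_ext fun x => ?_
  rw [← comp_assoc, π.slice_V, comp_finsetSum, ← mul_def, ← map_mul]
  by_cases hx : x ∈ π.nb y
  · rw [Finset.sum_eq_single_of_mem x hx]
    · rw [← comp_assoc, slice_inc_self]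
      rfl
    · intro z _ hz
      rw [← comp_assoc, slice_inc_ne hz.symm, zero_comp]
  · rw [π.comm, π.off y x hx, map_zero, eq_comm]
    refine Finset.sum_eq_zero fun z hz => ?_
    rw [← comp_assoc, slice_inc_ne (show x ≠ z from fun e => hx (e ▸ hz)), zero_comp]

theorem Part.rho_adj_V (ρ : A →⋆ₙₐ[ℂ] OpN) (y : Y) :
    ρ (π.s y) ∘L adjoint (π.V ρ) = ∑ z ∈ π.nb y, ρ (π.s y * π.s z) ∘L slice z := by
  have h := congrArg adjoint (π.V_rho ρ y)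
  rw [adjoint_comp, π.star_rho, map_sum] at h
  rw [h]
  refine Finset.sum_congr rfl fun z _ => ?_
  rw [adjoint_comp, ← star_eq_adjoint (ρ _), ← map_star, star_mul, π.sa, π.sa]
  rfl

theorem Part.sum' (y : Y) : ∑ z ∈ π.nb y, π.s y * π.s z * π.s z = π.s y := by
  conv_rhs => rw [← π.sum y]
  rw [Finset.mul_sum]
  exact Finset.sum_congr rfl fun z _ => mul_assoc _ _ _

theorem Part.sum'' (y : Y) : ∑ z ∈ π.nb y, π.s z * (π.s z * π.s y) = π.s y := by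
  conv_rhs => rw [← π.sum' y]
  refine Finset.sum_congr rfl fun z _ => ?_
  rw [π.comm z y, ← mul_assoc, π.comm z y]

theorem Part.adj_V_V_rho (ρ : A →⋆ₙₐ[ℂ] OpN) (y : Y) :
    adjoint (π.V ρ) ∘L π.V ρ ∘L ρ (π.s y) = ρ (π.s y) := by
  rw [π.V_rho, comp_finsetSum]
  conv_rhs => rw [← π.sum'' y, map_sum]
  refine Finset.sum_congr rfl fun z _ => ?_
  rw [← comp_assoc, π.adj_V_inc, map_mul ρ (π.s z) (π.s z * π.s y)]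
  rfl

theorem Part.adj_V_V_adj_V (ρ : A →⋆ₙₐ[ℂ] OpN) :
    adjoint (π.V ρ) ∘L π.V ρ ∘L adjoint (π.V ρ) = adjoint (π.V ρ) := by
  refine inc_ext fun y => ?_
  rw [comp_assoc, comp_assoc, π.adj_V_inc, π.adj_V_V_rho]

/-- The projection with the blocks `ρ(s_y s_z)`. -/
noncomputable def Part.P (ρ : A →⋆ₙₐ[ℂ] OpN) : LP Y →L[ℂ] LP Y := π.V ρ ∘L adjoint (π.V ρ)

theorem Part.bl_P (ρ : A →⋆ₙₐ[ℂ] OpN) (y z : Y) : bl (π.P ρ) y z = ρ (π.s y * π.s z) := by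
  rw [bl_def, Part.P, comp_assoc, π.adj_V_inc, ← comp_assoc, π.slice_V, map_mul]
  rfl

theorem Part.P_idem (ρ : A →⋆ₙₐ[ℂ] OpN) : π.P ρ * π.P ρ = π.P ρ := by
  rw [mul_def, Part.P, comp_assoc, π.adj_V_V_adj_V]

theorem Part.star_P (ρ : A →⋆ₙₐ[ℂ] OpN) : star (π.P ρ) = π.P ρ := by
  rw [star_eq_adjoint, Part.P, adjoint_comp, adjoint_adjoint]

theorem Part.norm_P (ρ : A →⋆ₙₐ[ℂ] OpN) : ‖π.P ρ‖ ≤ 1 := by
  have h1 := π.norm_V ρ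
  have h2 : ‖adjoint (π.V ρ)‖ ≤ 1 := by rw [LinearIsometryEquiv.norm_map]; exact h1
  refine (opNorm_comp_le _ _).trans ?_
  exact mul_le_one₀ h1 (norm_nonneg _) h2

/-- The localized operator `∑ ρ₁(s_y) U ρ₀(s_y)`. -/
noncomputable def Part.Ut (ρ₁ ρ₀ : A →⋆ₙₐ[ℂ] OpN) (U : OpN) : OpN :=
  adjoint (π.V ρ₁) ∘L amp Y U ∘L π.V ρ₀

theorem Part.P_amp_P (ρ₁ ρ₀ : A →⋆ₙₐ[ℂ] OpN) (U : OpN) :
    π.P ρ₁ * amp Y U * π.P ρ₀ = π.V ρ₁ ∘L π.Ut ρ₁ ρ₀ U ∘L adjoint (π.V ρ₀) := rfl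

theorem Part.calk_rho_Ut {ρ₁ ρ₀ : A →⋆ₙₐ[ℂ] OpN} {U : OpN}
    (h : ∀ a, Cpt (U * ρ₀ a - ρ₁ a * U)) (y : Y) :
    calk _ (ρ₁ (π.s y) * π.Ut ρ₁ ρ₀ U) = calk _ (ρ₁ (π.s y) * U) := by
  have h1 : ρ₁ (π.s y) * π.Ut ρ₁ ρ₀ U = ∑ z ∈ π.nb y, ρ₁ (π.s y * π.s z) * (U * ρ₀ (π.s z)) := by
    rw [mul_def, Part.Ut, ← comp_assoc, π.rho_adj_V, finsetSum_comp]
    refine Finset.sum_congr rfl fun z _ => ?_
    rw [comp_assoc, ← comp_assoc (slice z), slice_amp, comp_assoc, π.slice_V]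
    rfl
  rw [h1, map_sum]
  conv_rhs => rw [← π.sum' y, map_sum, Finset.sum_mul, map_sum]
  refine Finset.sum_congr rfl fun z _ => ?_
  rw [map_mul, calk_eq_iff.2 (h _), ← map_mul, map_mul ρ₁ (π.s y * π.s z) (π.s z), mul_assoc]

theorem Part.calk_Ut_rho {ρ₁ ρ₀ : A →⋆ₙₐ[ℂ] OpN} {U : OpN}
    (h : ∀ a, Cpt (U * ρ₀ a - ρ₁ a * U)) (y : Y) :
    calk _ (π.Ut ρ₁ ρ₀ U * ρ₀ (π.s y)) = calk _ (U * ρ₀ (π.s y)) := by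
  have h1 : π.Ut ρ₁ ρ₀ U * ρ₀ (π.s y) = ∑ z ∈ π.nb y, ρ₁ (π.s z) * U * ρ₀ (π.s z * π.s y) := by
    rw [mul_def, Part.Ut, comp_assoc, comp_assoc, π.V_rho, comp_finsetSum, comp_finsetSum]
    refine Finset.sum_congr rfl fun z _ => ?_
    rw [← comp_assoc (amp Y U), amp_inc, comp_assoc, ← comp_assoc, π.adj_V_inc]
    rfl
  rw [h1, map_sum]
  conv_rhs => rw [← π.sum'' y, map_sum, Finset.mul_sum, map_sum]
  refine Finset.sum_congr rfl fun z _ => ?_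
  rw [map_mul, ← calk_eq_iff.2 (h _), ← map_mul, map_mul ρ₀ (π.s z) (π.s z * π.s y), mul_assoc]

/-- Operators with compact rows and columns. -/
def Part.LCs (N : LP Y →L[ℂ] LP Y) : Prop :=
  ∀ y, Cpt (slice y ∘L N) ∧ Cpt (N ∘L inc y) ∧ (π.s y = 0 → slice y ∘L N = 0 ∧ N ∘L inc y = 0)

theorem Part.lcs_V (ρ ρ' : A →⋆ₙₐ[ℂ] OpN) {n : OpN} (h : ∀ y, Cpt (ρ (π.s y) * n))
    (h' : ∀ y, Cpt (n * ρ' (π.s y))) : π.LCs (π.V ρ ∘L n ∘L adjoint (π.V ρ')) := by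
  intro y
  have h1 : slice y ∘L (π.V ρ ∘L n ∘L adjoint (π.V ρ')) =
      (ρ (π.s y) * n) ∘L adjoint (π.V ρ') := by
    rw [← comp_assoc, π.slice_V]
    rfl
  have h2 : (π.V ρ ∘L n ∘L adjoint (π.V ρ')) ∘L inc y = π.V ρ ∘L (n * ρ' (π.s y)) := by
    rw [comp_assoc, comp_assoc, π.adj_V_inc]
    rfl
  rw [h1, h2]
  refine ⟨(h y).comp_right _, (h' y).comp_left _, fun h0 => ?_⟩
  rw [h0, map_zero, map_zero, zero_mul, mul_zero, zero_comp, comp_zero]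
  exact ⟨rfl, rfl⟩

/-- An ungraded picture of a Fredholm module on `l^2(ℕ)`. -/
structure Quad (A : Type) [NonUnitalCStarAlgebra A] where
  ρ₀ : A →⋆ₙₐ[ℂ] OpN
  ρ₁ : A →⋆ₙₐ[ℂ] OpN
  U : OpN
  U' : OpN
  c₀ : ∀ a, Cpt (U * ρ₀ a - ρ₁ a * U)
  c₁ : ∀ a, Cpt (U' * ρ₁ a - ρ₀ a * U')
  i₀ : ∀ a, Cpt ((U' * U - 1) * ρ₀ a)
  i₁ : ∀ a, Cpt ((U * U' - 1) * ρ₁ a)

/-- The opposite module. -/
def Quad.swap (d : Quad A) : Quad A := ⟨d.ρ₁, d.ρ₀, d.U', d.U, d.c₁, d.c₀, d.i₁, d.i₀⟩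

theorem Part.lcs_ST (d : Quad A) :
    π.LCs (π.P d.ρ₀ * amp Y d.U' * π.P d.ρ₁ * (π.P d.ρ₁ * amp Y d.U * π.P d.ρ₀) - π.P d.ρ₀) := by
  have h1 : π.P d.ρ₀ * amp Y d.U' * π.P d.ρ₁ * (π.P d.ρ₁ * amp Y d.U * π.P d.ρ₀) - π.P d.ρ₀ =
      π.V d.ρ₀ ∘L (π.Ut d.ρ₀ d.ρ₁ d.U' * π.Ut d.ρ₁ d.ρ₀ d.U - 1) ∘L adjoint (π.V d.ρ₀) := by
    have h2 : π.P d.ρ₀ * amp Y d.U' * π.P d.ρ₁ * (π.P d.ρ₁ * amp Y d.U * π.P d.ρ₀) =
        π.P d.ρ₀ * amp Y d.U' * (π.P d.ρ₁ * π.P d.ρ₁) * amp Y d.U * π.P d.ρ₀ := by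
      simp only [mul_assoc]
    rw [h2, π.P_idem, sub_comp, comp_sub]
    rfl
  have h3 : ∀ y, calk _ d.U' * calk _ (d.ρ₁ (π.s y) * d.U) = calk _ (d.ρ₀ (π.s y)) := by
    intro y
    rw [← calk_eq_iff.2 (d.c₀ _), ← map_mul, ← mul_assoc, calk_eq_iff]
    have h4 := d.i₀ (π.s y)
    rwa [sub_mul, one_mul] at h4
  rw [h1]
  refine π.lcs_V _ _ (fun y => ?_) (fun y => ?_)
  · rw [mul_sub, mul_one, ← calk_eq_iff, ← mul_assoc, map_mul, π.calk_rho_Ut d.c₁,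
      ← calk_eq_iff.2 (d.c₁ _), map_mul, mul_assoc, ← map_mul, π.calk_rho_Ut d.c₀, h3]
  · rw [sub_mul, one_mul, ← calk_eq_iff, mul_assoc, map_mul, π.calk_Ut_rho d.c₀,
      calk_eq_iff.2 (d.c₀ _), map_mul, ← mul_assoc, ← map_mul, π.calk_Ut_rho d.c₁, map_mul,
      mul_assoc, ← map_mul, h3]

theorem Part.P_conj {ρ ρ' : A →⋆ₙₐ[ℂ] OpN} {x : OpN} (h : ∀ a, ρ' a = x * ρ a * star x) :
    π.P ρ' = amp Y x * π.P ρ * amp Y (star x) := by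
  refine bl_ext fun y z => ?_
  rw [bl_mul_amp, bl_amp_mul, π.bl_P, π.bl_P, h]

theorem Part.amp_P {ρ : A →⋆ₙₐ[ℂ] OpN} {x : OpN} (h : ∀ a, x * ρ a = ρ a) :
    amp Y x * π.P ρ = π.P ρ := by
  refine bl_ext fun y z => ?_
  rw [bl_amp_mul, π.bl_P, h]

theorem Part.P_amp {ρ : A →⋆ₙₐ[ℂ] OpN} {x : OpN} (h : ∀ a, ρ a * x = ρ a) :
    π.P ρ * amp Y x = π.P ρ := by
  refine bl_ext fun y z => ?_
  rw [bl_mul_amp, π.bl_P, h]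

theorem Part.amp_P_zero {ρ : A →⋆ₙₐ[ℂ] OpN} {x : OpN} (h : ∀ a, x * ρ a = 0) :
    amp Y x * π.P ρ = 0 := by
  refine bl_ext fun y z => ?_
  rw [bl_amp_mul, π.bl_P, h, bl_zero]

theorem Part.P_add {ρ ρ' ρ'' : A →⋆ₙₐ[ℂ] OpN} (h : ∀ a, ρ'' a = ρ a + ρ' a) :
    π.P ρ'' = π.P ρ + π.P ρ' := by
  refine bl_ext fun y z => ?_
  rw [bl_add, π.bl_P, π.bl_P, π.bl_P, h]

end Vale.Agent.P212Z
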