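import Vale.Agent.P212Z.KZ
import Vale.Agent.P212.Bdl.B4
import Mathlib.Topology.PartitionOfUnity
import Mathlib.Topology.EMetricSpace.Paracompact
import Mathlib.Analysis.Complex.Tietze

/-! Fine partitions of unity on the Rips complexes. -/

set_option linter.unusedSectionVars false

namespace Vale.Agent.P212Z

open Vale.Agent.P212 Filter Topology ZeroAtInfty

variable {X : Type} [MetricSpace X] [BddGeometry X] {r : ℝ}

/-- A rational point as a point of the Rips complex. -/
noncomputable def toRips (p : RPt X) (h : InRips r p) : Rips X r where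
  t := p.1.mapRange (fun a : ℚ => (a : ℝ)) Rat.cast_zero
  nonneg x := p.coord_nonneg x
  sum_one := by
    rw [Finsupp.sum_of_support_subset _ Finsupp.support_mapRange _ (fun _ _ => rfl)]
    exact p.sum_support
  simplex x hx y hy := h x (Finsupp.support_mapRange hx) y (Finsupp.support_mapRange hy)

theorem toRips_t (p : RPt X) (h : InRips r p) (x : X) : (toRips p h).t x = p.1 x := rfl

theorem support_toRips (p : RPt X) (h : InRips r p) : (toRips p h).t.support = p.1.support := by
  ext x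
  rw [Finsupp.mem_support_iff, Finsupp.mem_support_iff, toRips_t, Rat.cast_ne_zero]

/-- The `l^1` distance of a rational point and a point. -/
noncomputable def dR (p : RPt X) (q : Rips X r) : ℝ :=
  ∑ x ∈ p.1.support, |q.t x - p.1 x| + (1 - ∑ x ∈ p.1.support, q.t x)

theorem dR_eq (p : RPt X) (q : Rips X r) {B : Finset X} (hp : p.1.support ⊆ B)
    (hq : q.t.support ⊆ B) : dR p q = ∑ x ∈ B, |q.t x - p.1 x| := by
  classical
  rw [dR, ← q.sum_eq hq, ← Finset.sum_sdiff hp, ← Finset.sum_sdiff hp, add_sub_cancel_right,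
    add_comm]
  congr 1
  refine Finset.sum_congr rfl fun x hx => ?_
  rw [Finsupp.notMem_support_iff.1 (Finset.mem_sdiff.1 hx).2, Rat.cast_zero, sub_zero,
    abs_of_nonneg (q.nonneg x)]

theorem continuous_dR (p : RPt X) : Continuous fun q : Rips X r => dR p q := by
  unfold dR
  exact (continuous_finsetSum _ fun x _ => ((continuous_coord r x).sub continuous_const).abs).add
    (continuous_const.sub (continuous_finsetSum _ fun x _ => continuous_coord r x))

theorem dist_le_dR (p p' : RPt X) (q : Rips X r) : p.dist p' ≤ dR p q + dR p' q := by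
  classical
  set B := p.1.support ∪ p'.1.support ∪ q.t.support with hB
  have h1 : p.1.support ⊆ B := Finset.subset_union_left.trans Finset.subset_union_left
  have h2 : p'.1.support ⊆ B := Finset.subset_union_right.trans Finset.subset_union_left
  have h3 : q.t.support ⊆ B := Finset.subset_union_right
  rw [p.dist_eq_sum p' B h1 h2, dR_eq p q h1 h3, dR_eq p' q h2 h3, ← Finset.sum_add_distrib]
  refine Finset.sum_le_sum fun x _ => ?_
  rw [abs_sub_comm (q.t x) (p.1 x)]
  exact abs_sub_le _ _ _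

theorem dR_self (p : RPt X) (h : InRips r p) : dR p (toRips p h) = 0 := by
  rw [dR_eq p _ subset_rfl (support_toRips p h).subset]
  simp [toRips_t]

/-- Rational points with a vertex. -/
def YR (X : Type) [MetricSpace X] (r : ℝ) : Type :=
  {y : RPt X × X // y.2 ∈ y.1.1.support ∧ InRips r y.1}

/-- The vertex. -/
def YR.σ (y : YR X r) : X := y.1.2

/-- The position. -/
def YR.ps (y : YR X r) : RPt X := y.1.1

theorem YR.mem (y : YR X r) : y.σ ∈ y.ps.1.support := y.2.1

theorem YR.rips (y : YR X r) : InRips r y.ps := y.2.2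

/-- The open sets of the cover. -/
def UY (δ : ℝ) (y : YR X r) : Set (Rips X r) :=
  {q | (∀ x ∈ y.ps.1.support, 0 < q.t x) ∧ dR y.ps q < δ}

theorem isOpen_UY (δ : ℝ) (y : YR X r) : IsOpen (UY δ y) := by
  refine IsOpen.inter ?_ (isOpen_lt (continuous_dR _) continuous_const)
  have h : {q : Rips X r | ∀ x ∈ y.ps.1.support, 0 < q.t x} =
      ⋂ x ∈ y.ps.1.support, {q : Rips X r | 0 < q.t x} := by
    ext q
    simp
  change IsOpen {q : Rips X r | ∀ x ∈ y.ps.1.support, 0 < q.t x}
  rw [h]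
  exact isOpen_biInter_finset fun x _ => isOpen_lt continuous_const (continuous_coord r x)

theorem exists_UY {δ : ℝ} (hδ : 0 < δ) (q : Rips X r) : ∃ y : YR X r, q ∈ UY δ y := by
  classical
  obtain ⟨x₀, hx₀⟩ := q.support_nonempty
  set B := q.t.support with hB
  set η : ℝ := δ / (2 * B.card + 1) with hη
  have hη0 : 0 < η := by positivity
  have h1 : ∀ x, ∃ a : ℚ, 0 ≤ a ∧ (a : ℝ) ≤ q.t x ∧ q.t x - η ≤ a := by
    intro x
    by_cases h : q.t x ≤ η
    · exact ⟨0, le_rfl, by simpa using q.nonneg x, by simpa using h⟩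
    · obtain ⟨a, h2, h3⟩ := exists_rat_btwn (show q.t x - η < q.t x by linarith)
      refine ⟨a, ?_, h3.le, h2.le⟩
      have h4 : (0 : ℝ) ≤ a := by linarith
      exact_mod_cast h4
  choose a a0 a1 a2 using h1
  let g : X → ℚ := fun x => if x = x₀ then 1 - ∑ z ∈ B.erase x₀, a z else if x ∈ B then a x else 0
  have g0 : ∀ x, g x ≠ 0 → x ∈ B := by
    intro x hx
    by_contra h
    have h2 : x ≠ x₀ := fun e => h (e ▸ hx₀)
    exact hx (by simp only [g, if_neg h2, if_neg h])
  have gs : ∀ x ∈ B.erase x₀, g x = a x := fun x hx => by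
    simp only [g, if_neg (Finset.ne_of_mem_erase hx), if_pos (Finset.mem_of_mem_erase hx)]
  have gx : g x₀ = 1 - ∑ z ∈ B.erase x₀, a z := by simp only [g, if_true]
  have hq1 : q.t x₀ + ∑ z ∈ B.erase x₀, q.t z = 1 := by
    rw [Finset.add_sum_erase B (fun z => q.t z) hx₀]
    exact q.sum_eq subset_rfl
  have hle : ∑ z ∈ B.erase x₀, (a z : ℝ) ≤ ∑ z ∈ B.erase x₀, q.t z :=
    Finset.sum_le_sum fun z _ => a1 z
  have gx' : (g x₀ : ℝ) = 1 - ∑ z ∈ B.erase x₀, (a z : ℝ) := by
    rw [gx]
    push_cast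
    rfl
  have hpos : (0 : ℝ) < g x₀ := by
    have := Rips.pos.1 hx₀
    linarith
  have hsub : (Finsupp.onFinset B g g0).support ⊆ B := Finsupp.support_onFinset_subset
  let p : RPt X := ⟨Finsupp.onFinset B g g0, fun x => by
      change 0 ≤ g x
      by_cases h : x = x₀
      · rw [h]
        exact_mod_cast hpos.le
      · simp only [g, if_neg h]
        split_ifs
        · exact a0 x
        · exact le_rfl, by
      rw [Finsupp.sum_of_support_subset _ hsub _ (fun _ _ => rfl),
        ← Finset.add_sum_erase B _ hx₀]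
      change g x₀ + ∑ z ∈ B.erase x₀, g z = 1
      rw [Finset.sum_congr rfl gs, gx, sub_add_cancel]⟩
  have hx : x₀ ∈ p.1.support := by
    rw [Finsupp.mem_support_iff]
    change g x₀ ≠ 0
    exact_mod_cast hpos.ne'
  refine ⟨⟨(p, x₀), hx, fun x hx y hy => q.simplex x (hsub hx) y (hsub hy)⟩,
    fun x hx => Rips.pos.1 (hsub hx), ?_⟩
  change dR p q < δ
  rw [dR_eq p q hsub subset_rfl, ← Finset.add_sum_erase B _ hx₀]
  change |q.t x₀ - g x₀| + ∑ z ∈ B.erase x₀, |q.t z - g z| < δ
  have h2 : ∑ z ∈ B.erase x₀, |q.t z - g z| = ∑ z ∈ B.erase x₀, (q.t z - a z) :=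
    Finset.sum_congr rfl fun z hz => by rw [gs z hz, abs_of_nonneg (sub_nonneg.2 (a1 z))]
  have h3 : ∑ z ∈ B.erase x₀, (q.t z - a z) ≤ B.card * η := by
    calc _ ≤ ∑ _z ∈ B.erase x₀, η := Finset.sum_le_sum fun z _ => by linarith [a2 z]
      _ ≤ B.card * η := by
        rw [Finset.sum_const, nsmul_eq_mul]
        exact mul_le_mul_of_nonneg_right (by exact_mod_cast Finset.card_erase_le) hη0.le
  have h4 : η * (2 * B.card + 1) = δ := div_mul_cancel₀ _ (by positivity)
  rw [h2, abs_sub_comm, abs_of_nonneg (by linarith)]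
  rw [Finset.sum_sub_distrib] at h3 ⊢
  nlinarith

theorem UY_subset {δ : ℝ} {y : YR X r} {q : Rips X r} (h : q ∈ UY δ y) : q.t y.σ ≠ 0 :=
  (h.1 _ y.mem).ne'

instance : TopologicalSpace.MetrizableSpace (Rips X r) := (isEmbedding_coords r).metrizableSpace

/-- Fine partitions of unity. -/
structure Fine (δ : ℝ) (π : Part C₀(Rips X r, ℂ) (YR X r)) : Prop where
  sub : ∀ y q, π.s y q ≠ 0 → q ∈ UY δ y
  fin : ∀ B : Finset X, {y | y.σ ∈ B ∧ π.s y ≠ 0}.Finite
  sum : ∀ q (F : Finset (YR X r)), (∀ y, π.s y q ≠ 0 → y ∈ F) → ∑ y ∈ F, π.s y q * π.s y q = 1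

theorem exists_fine (r : ℝ) {δ : ℝ} (hδ : 0 < δ) :
    ∃ π : Part C₀(Rips X r, ℂ) (YR X r), Fine δ π := by
  classical
  let := TopologicalSpace.metrizableSpaceMetric (Rips X r)
  obtain ⟨f, hf⟩ := PartitionOfUnity.exists_isSubordinate (X := Rips X r) isClosed_univ (UY δ)
    (isOpen_UY δ) (fun q _ => Set.mem_iUnion.2 (exists_UY hδ q))
  have h1 : ∀ y q, f y q ≠ 0 → q ∈ UY δ y := fun y q h => hf y (subset_tsupport _ h)
  have h2 : ∀ y q, f y q ≠ 0 → q.t.support ⊆ (finite_closedBall (YR.σ y) r).toFinset :=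
    fun y q h => star_subset (UY_subset (h1 y q h))
  let s : YR X r → C₀(Rips X r, ℂ) := fun y =>
    { toFun := fun q => (Real.sqrt (f y q) : ℂ)
      continuous_toFun := Complex.continuous_ofReal.comp (f y).continuous.sqrt
      zero_at_infty' := by
        refine tendsto_const_nhds.congr' ?_
        filter_upwards [(isCompact_sub r
          (finite_closedBall (YR.σ y) r).toFinset).compl_mem_cocompact] with q hq
        have h : f y q = 0 := by
          by_contra h0
          exact hq (h2 y q h0)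
        rw [h, Real.sqrt_zero, Complex.ofReal_zero] }
  have h3 : ∀ B : Finset X, {z | (Function.support (f z) ∩
      {q : Rips X r | q.t.support ⊆ B}).Nonempty}.Finite := fun B =>
    f.locallyFinite.finite_nonempty_inter_compact (isCompact_sub r B)
  have h4 : ∀ q (F : Finset (YR X r)), (∀ y, f y q ≠ 0 → y ∈ F) → ∑ y ∈ F, f y q = 1 :=
    fun q F h => f.sum_finsupport' (Set.mem_univ q) fun y hy => h y ((f.mem_finsupport q).1 hy)
  have h5 : ∀ y q, s y q ≠ 0 ↔ f y q ≠ 0 := fun y q => by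
    change ((Real.sqrt (f y q) : ℝ) : ℂ) ≠ 0 ↔ _
    rw [Ne, Complex.ofReal_eq_zero, Real.sqrt_eq_zero (f.nonneg y q)]
  refine ⟨Part.ofFun s (fun y q => f y q) (fun _ _ => rfl) (fun y q => f.nonneg y q)
    (fun F q => ?_) (fun y => (h3 (finite_closedBall (YR.σ y) r).toFinset).toFinset)
    (fun y z q hz h => ?_) (fun y q h => ?_), fun y q h => h1 y q ((h5 y q).1 h), fun B => ?_,
    fun q F h => ?_⟩
  · rw [← h4 q (F ∪ f.finsupport q) fun y hy =>
      Finset.mem_union_right _ ((f.mem_finsupport q).2 hy)]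
    exact Finset.sum_le_sum_of_subset_of_nonneg Finset.subset_union_left fun y _ _ => f.nonneg y q
  · by_contra h0
    exact hz ((h3 _).mem_toFinset.2 ⟨q, h0, h2 y q h⟩)
  · exact h4 q _ fun z hz => (h3 _).mem_toFinset.2 ⟨q, hz, h2 y q h⟩
  · refine (h3 (B.biUnion fun x => (finite_closedBall x r).toFinset)).subset ?_
    rintro y ⟨hy, hy'⟩
    obtain ⟨q, hq⟩ : ∃ q, s y q ≠ 0 := by
      by_contra h0
      push Not at h0
      exact hy' (ZeroAtInftyContinuousMap.ext h0)
    exact ⟨q, (h5 y q).1 hq, (h2 y q ((h5 y q).1 hq)).trans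
      (Finset.subset_biUnion_of_mem (fun x => (finite_closedBall x r).toFinset) hy)⟩
  · have h6 := h4 q F fun y hy => h y ((h5 y q).2 hy)
    change ∑ y ∈ F, s y q * s y q = 1
    rw [← Complex.ofReal_one, ← h6, Complex.ofReal_sum]
    exact Finset.sum_congr rfl fun y _ => sqrt_mul_sqrt (f.nonneg y q)

theorem close_of_mem {δ : ℝ} {y z : YR X r} {q : Rips X r} (hy : q ∈ UY δ y) (hz : q ∈ UY δ z) :
    dist y.σ z.σ ≤ r ∧ y.ps.dist z.ps ≤ 2 * δ := by
  refine ⟨q.simplex _ (Finsupp.mem_support_iff.2 (UY_subset hy)) _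
    (Finsupp.mem_support_iff.2 (UY_subset hz)), ?_⟩
  have h := dist_le_dR y.ps z.ps q
  linarith [hy.2, hz.2]

theorem self_mem_UY {δ : ℝ} (hδ : 0 < δ) (y : YR X r) : toRips y.ps y.rips ∈ UY δ y :=
  ⟨fun _ hx => RPt.coord_pos hx, by rw [dR_self]; exact hδ⟩

/-- Approximation of functions on the Rips complex by cylinder functions. -/
theorem exists_cyl (f : C₀(Rips X r, ℂ)) {ε : ℝ} (hε : 0 < ε) :
    ∃ (g : RPt X → ℂ) (B : Finset X), Cyl g ∧
      (∀ p (h : InRips r p), ‖f (toRips p h) - g p‖ ≤ ε) ∧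
      ∀ p, InRips r p → g p ≠ 0 → p.1.support ⊆ B := by
  classical
  obtain ⟨K, hK, hKf⟩ : ∃ K : Set (Rips X r), IsCompact K ∧ ∀ q, q ∉ K → ‖f q‖ ≤ ε := by
    have h1 := (zero_at_infty f).eventually (Metric.closedBall_mem_nhds (0 : ℂ) hε)
    obtain ⟨K, hK, h2⟩ := mem_cocompact.1 h1
    exact ⟨K, hK, fun q hq => by simpa using h2 hq⟩
  obtain ⟨T, hT⟩ := hK.elim_finite_subcover (fun x : X => {q : Rips X r | 0 < q.t x})
    (fun x => isOpen_lt continuous_const (continuous_coord r x)) (fun q _ => by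
      obtain ⟨x, hx⟩ := q.support_nonempty
      exact Set.mem_iUnion.2 ⟨x, Rips.pos.1 hx⟩)
  set B₀ := T.biUnion fun x => (finite_closedBall x r).toFinset with hB₀
  set B₁ := B₀.biUnion fun x => (finite_closedBall x r).toFinset with hB₁
  have h1 : ∀ q : Rips X r, ¬ q.t.support ⊆ B₀ → ‖f q‖ ≤ ε := by
    intro q hq
    refine hKf q fun hqK => hq ?_
    obtain ⟨x, hx, hx'⟩ := Set.mem_iUnion₂.1 (hT hqK)
    exact (star_subset (ne_of_gt hx')).trans
      (Finset.subset_biUnion_of_mem (fun x => (finite_closedBall x r).toFinset) hx)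
  have h2 : ∀ p (h : InRips r p), mass B₀ p ≠ 0 → p.1.support ⊆ B₁ := by
    intro p h hp
    obtain ⟨x, hx, hx'⟩ := (mass_pos_iff B₀ p).1 (lt_of_le_of_ne (mass_nonneg B₀ p) hp.symm)
    rw [← support_toRips p h] at hx' ⊢
    exact (star_subset (Finsupp.mem_support_iff.1 hx')).trans
      (Finset.subset_biUnion_of_mem (fun x => (finite_closedBall x r).toFinset) hx)
  have : CompactSpace {q : Rips X r | q.t.support ⊆ B₁} :=
    isCompact_iff_compactSpace.1 (isCompact_sub r B₁)
  let e : {q : Rips X r | q.t.support ⊆ B₁} → (B₁ → ℝ) := fun q x => q.1.t x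
  have he : IsClosedEmbedding e := by
    refine Continuous.isClosedEmbedding
      (continuous_pi fun x => (continuous_coord r x.1).comp continuous_subtype_val) ?_
    intro q q' h
    refine Subtype.ext (Rips.ext' (Finsupp.ext fun x => ?_))
    by_cases hx : x ∈ B₁
    · exact congrFun h ⟨x, hx⟩
    · rw [Finsupp.notMem_support_iff.1 fun h0 => hx (q.2 h0),
        Finsupp.notMem_support_iff.1 fun h0 => hx (q'.2 h0)]
  obtain ⟨G, hG⟩ := ContinuousMap.exists_extension he
    ⟨fun q => f q.1, f.continuous.comp continuous_subtype_val⟩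
  refine ⟨fun p => G (fun x => (p.1 x : ℝ)) * (mass B₀ p : ℂ), B₁, ?_, fun p h => ?_,
    fun p h hp => h2 p h fun h0 => hp (by beta_reduce; rw [h0, Complex.ofReal_zero, mul_zero])⟩
  · exact Cyl.mul ⟨B₁, G, G.continuous, fun _ => rfl⟩ (Cyl.mass B₀ Complex.continuous_ofReal)
  · beta_reduce
    by_cases h0 : mass B₀ p = 0
    · rw [h0, Complex.ofReal_zero, mul_zero, sub_zero]
      refine h1 _ fun h3 => ?_
      rw [support_toRips, ← mass_eq_one_iff, h0] at h3
      exact zero_ne_one h3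
    · have h3 : G (fun x => (p.1 x : ℝ)) = f (toRips p h) :=
        DFunLike.congr_fun hG ⟨toRips p h, (support_toRips p h).subset.trans (h2 p h h0)⟩
      rw [h3, ← mul_one_sub, norm_mul]
      by_cases h4 : p.1.support ⊆ B₀
      · rw [(mass_eq_one_iff B₀ p).2 h4]
        simpa using hε.le
      · have h5 : ‖(1 - mass B₀ p : ℂ)‖ ≤ 1 := by
          rw [← Complex.ofReal_one, ← Complex.ofReal_sub, Complex.norm_real,
            Real.norm_of_nonneg (sub_nonneg.2 (mass_le_one B₀ p))]
          linarith [mass_nonneg B₀ p]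
        have h6 := h1 (toRips p h) (by rwa [support_toRips])
        calc _ ≤ ε * 1 := mul_le_mul h6 h5 (norm_nonneg _) hε.le
          _ = ε := mul_one ε

end Vale.Agent.P212Z
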