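import Vale.Agent.P212.Geo
import Mathlib.Analysis.CStarAlgebra.ContinuousMap
import Mathlib.Topology.ContinuousMap.ZeroAtInfty

/-! The Rips complexes with the weak topology, and functions on them. -/

namespace Vale.Agent.P212Z

open Vale.Agent.P212 Topology Filter ZeroAtInfty

/-- The simplices of the Rips complex `P_r(X)`: finite sets of diameter at most `r`. -/
def IsSimplex {X : Type} [MetricSpace X] (r : ℝ) (σ : Finset X) : Prop :=
  ∀ x ∈ σ, ∀ y ∈ σ, dist x y ≤ r

/-- The points of the Rips complex `P_r(X)`, given by their barycentric coordinates. -/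
structure Rips (X : Type) [MetricSpace X] (r : ℝ) : Type where
  /-- The barycentric coordinates. -/
  t : X →₀ ℝ
  nonneg : ∀ x, 0 ≤ t x
  sum_one : (t.sum fun _ a => a) = 1
  simplex : IsSimplex r t.support

/-- The weak topology: a set is open if and only if its intersection with each closed simplex
is open in the Euclidean topology of the simplex. -/
instance ripsTopology (X : Type) [MetricSpace X] (r : ℝ) : TopologicalSpace (Rips X r) :=
  ⨆ σ : {σ : Finset X // IsSimplex r σ},
    TopologicalSpace.coinduced (Subtype.val : {p : Rips X r // p.t.support ⊆ σ.1} → Rips X r)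
      (TopologicalSpace.induced (fun p => fun x : σ.1 => p.1.t x) Pi.topologicalSpace)

variable {X : Type} [MetricSpace X]

theorem continuous_coord (r : ℝ) (x : X) : Continuous fun p : Rips X r => p.t x := by
  refine continuous_iSup_dom.2 fun σ => continuous_coinduced_dom.2 ?_
  by_cases hx : x ∈ σ.1
  · exact @Continuous.comp _ (σ.1 → ℝ) ℝ (_) _ _
      (fun p : {p : Rips X r // p.t.support ⊆ σ.1} => fun x : σ.1 => p.1.t x)
      (fun f => f ⟨x, hx⟩) (continuous_apply (⟨x, hx⟩ : σ.1))
      (@continuous_induced_dom {p : Rips X r // p.t.support ⊆ σ.1} (σ.1 → ℝ)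
        (fun p => fun x : σ.1 => p.1.t x) Pi.topologicalSpace)
  · have h : ((fun p : Rips X r => p.t x) ∘
        (Subtype.val : {p : Rips X r // p.t.support ⊆ σ.1} → Rips X r)) = fun _ => 0 := by
      funext p
      by_contra h0
      exact hx (p.2 (Finsupp.mem_support_iff.2 h0))
    rw [h]
    exact @continuous_const _ _ (_) _ _

theorem Rips.ext' {r : ℝ} {p q : Rips X r} (h : p.t = q.t) : p = q := by
  cases p
  cases q
  cases h
  rfl

theorem Rips.pos {r : ℝ} {p : Rips X r} {x : X} : x ∈ p.t.support ↔ 0 < p.t x := by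
  rw [Finsupp.mem_support_iff]
  exact ⟨fun h => lt_of_le_of_ne (p.nonneg x) (Ne.symm h), fun h => h.ne'⟩

theorem Rips.support_nonempty {r : ℝ} (p : Rips X r) : p.t.support.Nonempty := by
  rw [Finset.nonempty_iff_ne_empty]
  intro h
  have h1 := p.sum_one
  rw [Finsupp.sum, h, Finset.sum_empty] at h1
  exact zero_ne_one h1

theorem Rips.sum_eq {r : ℝ} (p : Rips X r) {B : Finset X} (h : p.t.support ⊆ B) :
    ∑ x ∈ B, p.t x = 1 := by
  rw [← p.sum_one, Finsupp.sum_of_support_subset _ h _ (fun _ _ => rfl)]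

theorem Rips.le_one {r : ℝ} (p : Rips X r) (x : X) : p.t x ≤ 1 := by
  by_cases hx : x ∈ p.t.support
  · rw [← p.sum_eq subset_rfl]
    exact Finset.single_le_sum (f := fun x => p.t x) (fun y _ => p.nonneg y) hx
  · rw [Finsupp.notMem_support_iff.1 hx]
    exact zero_le_one

variable [BddGeometry X]

theorem finite_closedBall (x : X) (R : ℝ) : (Metric.closedBall x R).Finite := by
  obtain ⟨N, hN⟩ := BddGeometry.bdd (X := X) R
  exact Set.finite_of_encard_le_coe (hN x)

/-- For a locally finite complex the weak topology is the topology of pointwise convergence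
of the barycentric coordinates. -/
theorem isInducing_coords (r : ℝ) : IsInducing fun p : Rips X r => (p.t : X → ℝ) := by
  refine isInducing_iff_nhds.2 fun p => le_antisymm ?_ ?_
  · exact (continuous_pi fun x => continuous_coord r x).continuousAt.le_comap
  · intro U hU
    obtain ⟨V, hVU, hV, hp⟩ := mem_nhds_iff.1 hU
    have h1 : ∀ σ : {σ : Finset X // IsSimplex r σ}, ∃ O : Set (σ.1 → ℝ), IsOpen O ∧
        ∀ q : Rips X r, q.t.support ⊆ σ.1 → ((fun x : σ.1 => q.t x) ∈ O ↔ q ∈ V) := by
      intro σ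
      have h2 := isOpen_coinduced.1 (isOpen_iSup_iff.1 hV σ)
      obtain ⟨O, hO, h3⟩ := (@isOpen_induced_iff _ _ Pi.topologicalSpace _ _).1 h2
      refine ⟨O, hO, fun q hq => ?_⟩
      exact Set.ext_iff.1 h3 ⟨q, hq⟩
    choose O hO hO' using h1
    obtain ⟨x₀, hx₀⟩ := p.support_nonempty
    have hfin : {σ : {σ : Finset X // IsSimplex r σ} |
        (σ.1 : Set X) ⊆ Metric.closedBall x₀ r}.Finite := by
      have h2 : {σ : Finset X | (σ : Set X) ⊆ Metric.closedBall x₀ r}.Finite :=
        (finite_closedBall x₀ r).finite_subsets.preimage Finset.coe_injective.injOn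
      exact h2.preimage Subtype.val_injective.injOn
    set W : Set (X → ℝ) := {f | 0 < f x₀} ∩ ⋂ σ ∈ {σ : {σ : Finset X // IsSimplex r σ} |
        (σ.1 : Set X) ⊆ Metric.closedBall x₀ r},
        ({f | (fun x : σ.1 => f x) ∈ O σ} ∪ ⋃ x ∈ {x | x ∉ σ.1}, {f | 0 < f x}) with hW
    have hWo : IsOpen W := by
      refine (isOpen_lt continuous_const (continuous_apply x₀)).inter ?_
      refine hfin.isOpen_biInter fun σ _ => IsOpen.union ?_ ?_
      · exact (hO σ).preimage (continuous_pi fun x => continuous_apply x.1)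
      · exact isOpen_biUnion fun x _ => isOpen_lt continuous_const (continuous_apply x)
    refine mem_comap.2 ⟨W, hWo.mem_nhds ⟨Rips.pos.1 hx₀, ?_⟩, fun q hq => hVU ?_⟩
    · refine Set.mem_biInter fun σ _ => ?_
      by_cases h : p.t.support ⊆ σ.1
      · exact Or.inl ((hO' σ p h).2 hp)
      · obtain ⟨x, hx, hx'⟩ := Finset.not_subset.1 h
        exact Or.inr (Set.mem_biUnion hx' (Rips.pos.1 hx))
    · have hq0 : x₀ ∈ q.t.support := Rips.pos.2 hq.1
      have h2 := Set.mem_iInter₂.1 hq.2 ⟨q.t.support, q.simplex⟩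
        (fun x hx => Metric.mem_closedBall.2 (q.simplex x hx x₀ hq0))
      rcases h2 with h2 | h2
      · exact (hO' ⟨q.t.support, q.simplex⟩ q subset_rfl).1 h2
      · obtain ⟨x, hx, hx'⟩ := Set.mem_iUnion₂.1 h2
        exact absurd (Rips.pos.2 hx') hx

theorem isEmbedding_coords (r : ℝ) : IsEmbedding fun p : Rips X r => (p.t : X → ℝ) :=
  ⟨isInducing_coords r, fun _ _ h => Rips.ext' (DFunLike.coe_injective h)⟩

/-- Finite subcomplexes are compact. -/
theorem isCompact_sub (r : ℝ) (B : Finset X) : IsCompact {p : Rips X r | p.t.support ⊆ B} := by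
  classical
  have h1 : {p : Rips X r | p.t.support ⊆ B} =
      ⋃ σ ∈ {σ : Finset X | σ ⊆ B ∧ IsSimplex r σ}, {p : Rips X r | p.t.support ⊆ σ} := by
    ext p
    constructor
    · intro hp
      exact Set.mem_biUnion (show p.t.support ∈ {σ : Finset X | σ ⊆ B ∧ IsSimplex r σ} from
        ⟨hp, p.simplex⟩) (subset_rfl : p.t.support ⊆ p.t.support)
    · intro hp
      obtain ⟨σ, hσ, h⟩ := Set.mem_iUnion₂.1 hp
      exact Finset.Subset.trans h hσ.1
  rw [h1]
  refine Set.Finite.isCompact_biUnion ((B.powerset.finite_toSet).subset fun σ hσ =>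
    Finset.mem_coe.2 (Finset.mem_powerset.2 hσ.1)) fun σ hσ => ?_
  rw [(isInducing_coords r).isCompact_iff]
  have h2 : (fun p : Rips X r => (p.t : X → ℝ)) '' {p : Rips X r | p.t.support ⊆ σ} =
      Set.pi Set.univ (fun _ => Set.Icc (0 : ℝ) 1) ∩
        ({f | ∑ x ∈ σ, f x = 1} ∩ ⋂ x ∈ {x | x ∉ σ}, {f | f x = 0}) := by
    ext f
    constructor
    · rintro ⟨p, hp, rfl⟩
      refine ⟨fun x _ => ⟨p.nonneg x, p.le_one x⟩, p.sum_eq hp, Set.mem_biInter fun x hx => ?_⟩
      by_contra h0
      exact hx (hp (Finsupp.mem_support_iff.2 h0))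
    · rintro ⟨h3, h4, h5⟩
      have h6 : ∀ x, f x ≠ 0 → x ∈ σ := fun x hx => by
        by_contra h0
        exact hx (Set.mem_iInter₂.1 h5 x h0)
      have h7 : (Finsupp.onFinset σ f h6).support ⊆ σ := Finsupp.support_onFinset_subset
      refine ⟨⟨Finsupp.onFinset σ f h6, fun x => (h3 x trivial).1, ?_,
        fun x hx y hy => hσ.2 x (h7 hx) y (h7 hy)⟩, h7, rfl⟩
      rw [Finsupp.sum_of_support_subset _ h7 _ (fun _ _ => rfl)]
      exact h4
  rw [h2]
  refine (isCompact_univ_pi fun _ => isCompact_Icc).inter_right (IsClosed.inter ?_ ?_)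
  · exact isClosed_eq (continuous_finsetSum _ fun x _ => continuous_apply x) continuous_const
  · exact isClosed_biInter fun x _ => isClosed_eq (continuous_apply x) continuous_const

/-- The closed star of a vertex is contained in a finite subcomplex. -/
theorem star_subset {r : ℝ} {x : X} {p : Rips X r} (h : p.t x ≠ 0) :
    p.t.support ⊆ (finite_closedBall x r).toFinset := fun y hy =>
  (finite_closedBall x r).mem_toFinset.2
    (Metric.mem_closedBall.2 (p.simplex y hy x (Finsupp.mem_support_iff.2 h)))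

/-- The square root of the barycentric coordinate of the vertex `x`, as an element of
`C_0(P_r(X))`. -/
noncomputable def bary (r : ℝ) (x : X) : C₀(Rips X r, ℂ) where
  toFun p := (Real.sqrt (p.t x) : ℂ)
  continuous_toFun := Complex.continuous_ofReal.comp (continuous_coord r x).sqrt
  zero_at_infty' := by
    refine tendsto_const_nhds.congr' ?_
    filter_upwards [(isCompact_sub r (finite_closedBall x r).toFinset).compl_mem_cocompact]
      with p hp
    have h : p.t x = 0 := by
      by_contra h0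
      exact hp (star_subset h0)
    rw [h, Real.sqrt_zero, Complex.ofReal_zero]

/-- The inclusion `P_r(X) → P_s(X)`. -/
def ripsIncl {r s : ℝ} (h : r ≤ s) (p : Rips X r) : Rips X s :=
  ⟨p.t, p.nonneg, p.sum_one, fun x hx y hy => (p.simplex x hx y hy).trans h⟩

theorem isClosedEmbedding_ripsIncl {r s : ℝ} (h : r ≤ s) :
    IsClosedEmbedding (ripsIncl (X := X) h) := by
  refine ⟨(isEmbedding_coords s).of_comp_iff.1 (isEmbedding_coords r), ?_⟩
  rw [← isOpen_compl_iff, isOpen_iff_mem_nhds]
  intro q hq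
  have h1 : ¬ IsSimplex r q.t.support := fun h1 => hq ⟨⟨q.t, q.nonneg, q.sum_one, h1⟩, rfl⟩
  unfold IsSimplex at h1
  push Not at h1
  obtain ⟨x, hx, y, hy, hxy⟩ := h1
  have h2 : IsOpen ({p : Rips X s | 0 < p.t x} ∩ {p : Rips X s | 0 < p.t y}) :=
    (isOpen_lt continuous_const (continuous_coord s x)).inter
      (isOpen_lt continuous_const (continuous_coord s y))
  refine mem_of_superset (h2.mem_nhds ⟨Rips.pos.1 hx, Rips.pos.1 hy⟩) ?_
  rintro p ⟨h3, h4⟩ ⟨p', rfl⟩
  exact absurd (p'.simplex x (Rips.pos.2 h3) y (Rips.pos.2 h4)) (not_le.2 hxy)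

/-- The inclusion as a proper map. -/
def ripsInclCo {r s : ℝ} (h : r ≤ s) : CocompactMap (Rips X r) (Rips X s) where
  toFun := ripsIncl h
  continuous_toFun := (isClosedEmbedding_ripsIncl h).continuous
  cocompact_tendsto' := (isClosedEmbedding_ripsIncl h).tendsto_cocompact

/-- The restriction homomorphism `C_0(P_s(X)) → C_0(P_r(X))`. -/
noncomputable def ripsRes {r s : ℝ} (h : r ≤ s) : C₀(Rips X s, ℂ) →⋆ₙₐ[ℂ] C₀(Rips X r, ℂ) where
  toFun f := f.comp (ripsInclCo (X := X) h)
  map_smul' _ _ := rfl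
  map_zero' := rfl
  map_add' _ _ := rfl
  map_mul' _ _ := rfl
  map_star' _ := rfl

end Vale.Agent.P212Z
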