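import Vale.Agent.P212Z.Hat
import Mathlib.Analysis.PSeries

/-! The shift on `l^2(ℤ × ℕ)` and its compressions by block diagonal projections. -/

set_option linter.unusedSectionVars false

namespace Vale.Agent.P212Z

open Vale.Agent.P212 Filter Topology NNReal
open ContinuousLinearMap hiding proj

/-- The shift. -/
noncomputable def sh : OpY ℤ := permL (Equiv.prodCongr (Equiv.addRight (1 : ℤ)) (Equiv.refl ℕ))

theorem star_sh_mul : star sh * sh = 1 := by
  rw [sh, star_permL, ← permL_mul, inv_mul_cancel, permL_one]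

theorem sh_mul_star : sh * star sh = 1 := by
  rw [sh, star_permL, ← permL_mul, mul_inv_cancel, permL_one]

theorem norm_sh : ‖sh‖ ≤ 1 := norm_iso_le star_sh_mul

theorem slice_sh (k : ℤ) : slice (k + 1) ∘L sh = slice k := by
  ext1 f
  refine lp.ext (funext fun n => ?_)
  rw [comp_apply, slice_apply, slice_apply, sh, permL_apply]
  simp

theorem dg_sh {a b : ℤ → OpN} (ha : Bdd a) (hb : Bdd b) (h : ∀ k, a (k + 1) = b k) :
    dg a * sh = sh * dg b := by
  refine slice_ext fun k => ?_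
  obtain ⟨k, rfl⟩ : ∃ l, k = l + 1 := ⟨k - 1, by ring⟩
  rw [mul_def, mul_def, ← comp_assoc, ← comp_assoc, slice_dg ha, slice_sh, comp_assoc, slice_sh,
    slice_dg hb, h]

theorem sh_dg {a b : ℤ → OpN} (ha : Bdd a) (hb : Bdd b) (h : ∀ k, a (k + 1) = b k) :
    star sh * dg a = dg b * star sh := by
  calc star sh * dg a = star sh * (dg a * sh) * star sh := by
        rw [mul_assoc, mul_assoc, sh_mul_star, mul_one]
    _ = _ := by rw [dg_sh ha hb h, ← mul_assoc, star_sh_mul, one_mul]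

theorem amp_sh (m : OpN) : amp ℤ m * sh = sh * amp ℤ m :=
  dg_sh (Bdd.const m) (Bdd.const m) fun _ => rfl

theorem amp_star_sh (m : OpN) : amp ℤ m * star sh = star sh * amp ℤ m :=
  (sh_dg (Bdd.const m) (Bdd.const m) fun _ => rfl).symm

theorem dg_defect₀ {a : ℤ → OpN} (ha : Bdd a) :
    dg a - dg a * star sh * dg a * sh * dg a = dg fun k => a k - a k * a (k + 1) * a k := by
  have hb : Bdd fun k => a (k + 1) := ha.comp _
  rw [dg_sub ha ((ha.mul hb).mul ha), dg_mul (ha.mul hb) ha, dg_mul ha hb,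
    mul_assoc (dg a * star sh), dg_sh ha hb fun _ => rfl, ← mul_assoc, mul_assoc (dg a) (star sh),
    star_sh_mul, mul_one]

theorem dg_defect₁ {a : ℤ → OpN} (ha : Bdd a) :
    dg a - dg a * sh * dg a * star sh * dg a = dg fun k => a k - a k * a (k - 1) * a k := by
  have hb : Bdd fun k => a (k - 1) := ha.comp _
  rw [dg_sub ha ((ha.mul hb).mul ha), dg_mul (ha.mul hb) ha, dg_mul ha hb,
    mul_assoc (dg a) sh, ← dg_sh hb ha fun k => by rw [add_sub_cancel_right],
    ← mul_assoc, mul_assoc _ sh, sh_mul_star, mul_one]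

theorem bdd_ite {Y : Type} (p : Y → Prop) [DecidablePred p] (a b : OpN) :
    Bdd fun k => if p k then a else b := by
  refine ⟨max ‖a‖ ‖b‖, fun k => ?_⟩
  beta_reduce
  split_ifs
  exacts [le_max_left _ _, le_max_right _ _]

/-- The projection onto a slot. -/
noncomputable def slot (k : ℤ) : OpY ℤ := dg fun l => if l = k then 1 else 0

theorem dg_slot {a : ℤ → OpN} (ha : Bdd a) (k : ℤ) :
    dg a * slot k = inc k ∘L a k ∘L slice k := by
  rw [slot, ← dg_mul ha (bdd_ite _ _ _), ← Finset.sum_singleton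
    (fun y => inc y ∘L a y ∘L slice y), ← dg_finset]
  congr 1
  funext l
  simp

theorem slot_dg {a : ℤ → OpN} (ha : Bdd a) (k : ℤ) : slot k * dg a = dg a * slot k := by
  rw [slot, ← dg_mul ha (bdd_ite _ _ _), ← dg_mul (bdd_ite _ _ _) ha]
  congr 1
  funext l
  simp

theorem slot_idem (k : ℤ) : slot k * slot k = slot k := by
  rw [slot, ← dg_mul (bdd_ite _ _ _) (bdd_ite _ _ _)]
  congr 1
  funext l
  split_ifs <;> simp

theorem slot_sh (k : ℤ) : slot (k + 1) * sh = sh * slot k :=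
  dg_sh (bdd_ite _ _ _) (bdd_ite _ _ _) fun l => by simp

theorem sh_slot (k : ℤ) : star sh * slot (k + 1) = slot k * star sh :=
  sh_dg (bdd_ite _ _ _) (bdd_ite _ _ _) fun l => by simp

theorem norm_dg_slot {a : ℤ → OpN} (ha : Bdd a) (k : ℤ) {C : ℝ} (hC : 0 ≤ C)
    (h : ∀ l, l ≠ k → ‖a l‖ ≤ C) : ‖dg a * (1 - slot k)‖ ≤ C := by
  rw [slot, ← dg_one, ← dg_sub (Bdd.const _) (bdd_ite _ _ _),
    ← dg_mul ha ((Bdd.const _).sub (bdd_ite _ _ _))]
  refine norm_dg_le hC fun l => ?_
  split_ifs with hl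
  · rwa [sub_self, mul_zero, norm_zero]
  · rw [sub_zero, mul_one]
    exact h l hl

section Ring

variable {R : Type} [Ring R]

theorem defect_eq {a b : R} (ha : a * a = a) (hb : b * b = b) :
    a - a * b * a = a * (a - b) * (a - b) ∧ a - a * b * a = (a - b) * ((a - b) * a) := by
  constructor
  · rw [mul_sub, mul_sub, sub_mul, sub_mul, ha, ha, mul_assoc a b b, hb, sub_self, sub_zero]
  · rw [sub_mul, sub_mul, ha, mul_sub, mul_sub, ha, ← mul_assoc b b, hb, sub_self, sub_zero,
      mul_assoc]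

theorem cmp_comm {m D S : R} (h : m * D = D * m) (h' : m * S = S * m) :
    m * (D * S * D + (1 - D)) = (D * S * D + (1 - D)) * m :=
  ((((show Commute m D from h).mul_right h').mul_right h).add_right
    ((Commute.one_right m).sub_right h)).eq

theorem cmp_congr {m D D' S : R} (h : m * D = D * m) (h' : m * S = S * m) (e : m * D = m * D') :
    m * (D * S * D + (1 - D)) = m * (D' * S * D' + (1 - D')) := by
  have h1 : ∀ x, m * (D * S * x) = D * S * (m * x) := fun x => by
    rw [← mul_assoc, ← mul_assoc, h, mul_assoc D, h']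
    simp only [mul_assoc]
  rw [mul_add, mul_add, mul_sub, mul_sub, h1, e, ← h1, mul_assoc D, mul_assoc D', ← mul_assoc m,
    ← mul_assoc m, e]

theorem cmp_sq {D S S' : R} (h : D * D = D) :
    (D * S' * D + (1 - D)) * (D * S * D + (1 - D)) - 1 = -(D - D * S' * D * S * D) := by
  have h1 : D * (1 - D) = 0 := by rw [mul_sub, h, mul_one, sub_self]
  have h2 : (1 - D) * D = 0 := by rw [sub_mul, h, one_mul, sub_self]
  have h3 : D * S' * D * (D * S * D) = D * S' * D * S * D := by
    rw [← mul_assoc, ← mul_assoc, mul_assoc _ D D, h]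
  rw [add_mul, mul_add, mul_add, h3, mul_assoc _ D (1 - D), h1, mul_assoc D S D, ← mul_assoc (1 - D),
    h2, one_sub_idem h]
  noncomm_ring

end Ring

/-- Times with small steps. -/
theorem exists_times {δ : ℝ} (hδ : 0 < δ) : ∃ τ : ℕ → ℝ≥0, τ 0 = 0 ∧
    (∀ k, dist (τ (k + 1)) (τ k) ≤ δ) ∧
    Tendsto (fun k => dist (τ (k + 1)) (τ k)) atTop (𝓝 0) ∧ Tendsto τ atTop atTop := by
  let τ : ℕ → ℝ≥0 := fun k => ⟨δ * ∑ i ∈ Finset.range k, 1 / ((i : ℝ) + 1), by positivity⟩
  have h : ∀ k, dist (τ (k + 1)) (τ k) = δ * (1 / ((k : ℝ) + 1)) := by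
    intro k
    change |δ * ∑ i ∈ Finset.range (k + 1), 1 / ((i : ℝ) + 1) -
      δ * ∑ i ∈ Finset.range k, 1 / ((i : ℝ) + 1)| = _
    rw [Finset.sum_range_succ, mul_add, add_sub_cancel_left, abs_of_nonneg (by positivity)]
  refine ⟨τ, NNReal.eq (mul_zero δ), fun k => ?_, ?_, ?_⟩
  · rw [h]
    refine mul_le_of_le_one_right hδ.le ?_
    rw [div_le_one (by positivity)]
    linarith [Nat.cast_nonneg (α := ℝ) k]
  · simp only [h]
    simpa using tendsto_one_div_add_atTop_nhds_zero_nat.const_mul δ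
  · exact NNReal.tendsto_coe_atTop.1
      (Real.tendsto_sum_range_one_div_nat_succ_atTop.const_mul_atTop hδ)

end Vale.Agent.P212Z
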