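import Vale.Agent.P212Z.Rips
import Vale.Agent.P212.H268.Judge
import Mathlib.Algebra.Colimit.Module
import Mathlib.GroupTheory.FreeAbelianGroup

/-! K-theory, Kasparov's K-homology, the coarse K-homology group `KX_0(X)` and the coarse
assembly map: the definitions used in the statement. -/

namespace Vale.Agent.P212Z

open Vale.Agent.P212 Matrix ZeroAtInfty ContinuousLinearMap

universe u

/-! ### Abelian groups given by generators and relations -/

/-- The relations `[a] = [b]` for `E a b` and `[c] = [a] + [b]` for `D a b c`. -/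
def presRel {S : Type u} (E : S → S → Prop) (D : S → S → S → Prop) :
    AddSubgroup (FreeAbelianGroup S) :=
  AddSubgroup.closure ({z | ∃ a b, E a b ∧ z = .of a - .of b} ∪
    {z | ∃ a b c, D a b c ∧ z = .of c - .of a - .of b})

/-- The abelian group with generators `S` and these relations. -/
def Pres {S : Type u} (E : S → S → Prop) (D : S → S → S → Prop) : Type u :=
  FreeAbelianGroup S ⧸ presRel E D

instance presGroup {S : Type u} (E : S → S → Prop) (D : S → S → S → Prop) :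
    AddCommGroup (Pres E D) :=
  QuotientAddGroup.Quotient.addCommGroup _

/-- The class of a generator. -/
def Pres.of {S : Type u} (E : S → S → Prop) (D : S → S → S → Prop) (s : S) : Pres E D :=
  QuotientAddGroup.mk (FreeAbelianGroup.of s)

theorem presRel_map {S T : Type u} {E : S → S → Prop} {D : S → S → S → Prop}
    {E' : T → T → Prop} {D' : T → T → T → Prop} (f : S → T)
    (hE : ∀ a b, E a b → E' (f a) (f b)) (hD : ∀ a b c, D a b c → D' (f a) (f b) (f c)) :
    presRel E D ≤ (presRel E' D').comap (FreeAbelianGroup.map f) := by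
  refine (AddSubgroup.closure_le _).2 ?_
  rintro _ (⟨a, b, h, rfl⟩ | ⟨a, b, c, h, rfl⟩)
  · exact AddSubgroup.subset_closure (Or.inl ⟨_, _, hE a b h, by simp⟩)
  · exact AddSubgroup.subset_closure (Or.inr ⟨_, _, _, hD a b c h, by simp⟩)

/-- The homomorphism induced by a map of generators which preserves the relations. -/
def Pres.map {S T : Type u} {E : S → S → Prop} {D : S → S → S → Prop}
    {E' : T → T → Prop} {D' : T → T → T → Prop} (f : S → T)
    (hE : ∀ a b, E a b → E' (f a) (f b)) (hD : ∀ a b c, D a b c → D' (f a) (f b) (f c)) :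
    Pres E D →+ Pres E' D' :=
  QuotientAddGroup.map _ _ (FreeAbelianGroup.map f) (presRel_map f hE hD)

/-- The class in a direct limit of an element of the group `G r`. -/
noncomputable def limOf {G : ℝ → Type u} [∀ r, AddCommGroup (G r)]
    (f : ∀ r s, r ≤ s → G r →+ G s) (r : ℝ) (x : G r) : AddCommGroup.DirectLimit G f :=
  AddCommGroup.DirectLimit.of G f r x

/-! ### The group `K_0` -/

/-- An idempotent matrix over `R`. -/
structure Idem (R : Type) [Ring R] : Type where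
  n : ℕ
  e : Matrix (Fin n) (Fin n) R
  idem : e * e = e

/-- Algebraic equivalence: `a = x y` and `b = y x`. -/
def Idem.Sim {R : Type} [Ring R] (a b : Idem R) : Prop :=
  ∃ (x : Matrix (Fin a.n) (Fin b.n) R) (y : Matrix (Fin b.n) (Fin a.n) R),
    x * y = a.e ∧ y * x = b.e

/-- `c = a ⊕ b`. -/
def Idem.IsSum {R : Type} [Ring R] (a b c : Idem R) : Prop :=
  ∃ σ : Fin c.n ≃ Fin a.n ⊕ Fin b.n, c.e = (fromBlocks a.e 0 0 b.e).submatrix σ σ

/-- The group `K_0(R)` of a unital ring. -/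
abbrev KZero (R : Type) [Ring R] : Type := Pres (Idem.Sim (R := R)) Idem.IsSum

/-- The class in `K_0(R)` of an idempotent matrix. -/
noncomputable def KZero.cls {R : Type} [Ring R] {ι : Type} [Fintype ι] (e : Matrix ι ι R)
    (h : e * e = e) : KZero R :=
  Pres.of _ _ ⟨Fintype.card ι, e.submatrix (Fintype.equivFin ι).symm (Fintype.equivFin ι).symm,
    by rw [submatrix_mul_equiv, h]⟩

/-- The image of an idempotent matrix under a ring homomorphism. -/
def Idem.map {R S : Type} [Ring R] [Ring S] (φ : R →+* S) (a : Idem R) : Idem S :=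
  ⟨a.n, a.e.map φ, by rw [← Matrix.map_mul, a.idem]⟩

theorem Idem.map_sim {R S : Type} [Ring R] [Ring S] (φ : R →+* S) :
    ∀ a b : Idem R, a.Sim b → (a.map φ).Sim (b.map φ) := fun _ _ ⟨x, y, h1, h2⟩ =>
  ⟨x.map φ, y.map φ, (Matrix.map_mul (f := φ)).symm.trans (congrArg (fun m => m.map φ) h1),
    (Matrix.map_mul (f := φ)).symm.trans (congrArg (fun m => m.map φ) h2)⟩

theorem Idem.map_isSum {R S : Type} [Ring R] [Ring S] (φ : R →+* S) :
    ∀ a b c : Idem R, a.IsSum b c → (a.map φ).IsSum (b.map φ) (c.map φ) := by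
  rintro a b c ⟨σ, h⟩
  refine ⟨σ, ?_⟩
  change c.e.map φ = (fromBlocks (a.e.map φ) 0 0 (b.e.map φ)).submatrix σ σ
  rw [h, ← submatrix_map, fromBlocks_map, Matrix.map_zero _ (map_zero φ),
    Matrix.map_zero _ (map_zero φ)]

/-- Functoriality of `K_0`. -/
def KZero.map {R S : Type} [Ring R] [Ring S] (φ : R →+* S) : KZero R →+ KZero S :=
  Pres.map (Idem.map φ) (Idem.map_sim φ) (Idem.map_isSum φ)

/-- The kernel of `K_0(A^+) → K_0(ℂ)`. -/
noncomputable def KCStar (A : Type) [NonUnitalCStarAlgebra A] :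
    AddSubgroup (KZero (Unitization ℂ A)) :=
  (KZero.map (Unitization.fstHom ℂ A : Unitization ℂ A →+* ℂ)).ker

/-- The group `K_0(A)` of a C*-algebra. -/
def KC (A : Type) [NonUnitalCStarAlgebra A] : Type := KCStar A

noncomputable instance kcGroup (A : Type) [NonUnitalCStarAlgebra A] : AddCommGroup (KC A) :=
  (KCStar A).toAddCommGroup

/-- The inclusion of `K_0(A)` in `K_0(A^+)`. -/
noncomputable def KC.val {A : Type} [NonUnitalCStarAlgebra A] (z : KC A) :
    KZero (Unitization ℂ A) := z.1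

/-- The index idempotent `W (p₀ ⊕ 0) W⁻¹` of an element `T` from `p₀` to `p₁` with parametrix
`S`, where `W = [[2T - TST, TS - p₁], [p₀ - ST, S]]`. -/
def indexE {R : Type} [Ring R] (p₀ p₁ T S : R) : Matrix (Fin 2) (Fin 2) R :=
  !![2 * T - T * S * T, T * S - p₁; p₀ - S * T, S] * !![p₀, 0; 0, 0] *
    !![S, p₀ - S * T; T * S - p₁, 2 * T - T * S * T]

/-- The difference construction for idempotents `e`, `f` with `e - f` in `ℂ[X]`: the matrix
`z (e ⊕ (1 - f)) z = (1 ⊕ 0) + z ((e - f) ⊕ 0) z`, `z = [[f, 1 - f], [1 - f, f]]`, mapped to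
the unitization of `A` by `i`; its class minus `[1 ⊕ 0]` is the difference `[e] - [f]`. -/
noncomputable def diffIdem {R A : Type} [Ring R] [NonUnitalCStarAlgebra A] (i : R → A)
    (e f : Matrix (Fin 2) (Fin 2) R) :
    Matrix (Fin 2 ⊕ Fin 2) (Fin 2 ⊕ Fin 2) (Unitization ℂ A) :=
  fromBlocks 1 0 0 0 + (fromBlocks f (1 - f) (1 - f) f * fromBlocks (e - f) 0 0 0 *
    fromBlocks f (1 - f) (1 - f) f).map fun T => Unitization.inr (i T)

/-- `z ∈ K_0(A)` is the index `[W (p₀ ⊕ 0) W⁻¹] - [p₁ ⊕ 0]` of `T = p₁ Φ p₀` with its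
parametrix `S = p₀ Φ p₁`. -/
def IsIndex {R A : Type} [Ring R] [NonUnitalCStarAlgebra A] (i : R → A) (p₀ p₁ Φ : R)
    (z : KC A) : Prop :=
  ∃ (D O : Matrix (Fin 2 ⊕ Fin 2) (Fin 2 ⊕ Fin 2) (Unitization ℂ A))
    (hD : D * D = D) (hO : O * O = O),
    D = diffIdem i (indexE p₀ p₁ (p₁ * Φ * p₀) (p₀ * Φ * p₁)) !![p₁, 0; 0, 0] ∧
    O = fromBlocks 1 0 0 0 ∧ z.val = KZero.cls D hD - KZero.cls O hO

/-- The homomorphism `μ ⊗ id_ℚ` is injective. -/
def RatInj {G : Type 1} {K : Type} [AddCommGroup G] [AddCommGroup K] (μ : G →+ K) : Prop :=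
  Function.Injective (LinearMap.rTensor ℚ μ.toIntLinearMap)

/-- The kernel contains a linearly independent family indexed by the reals. -/
def BigKer {G : Type 1} {K : Type} [AddCommGroup G] [AddCommGroup K] (μ : G →+ K) : Prop :=
  ∃ y : ℝ → G, LinearIndependent ℤ y ∧ ∀ a, μ (y a) = 0

theorem c0_star {Y Z : Type} [TopologicalSpace Y] [TopologicalSpace Z] (f : CocompactMap Y Z)
    (g : C₀(Z, ℂ)) : (star g).comp f = star (g.comp f) := rfl

/-- The pull back of functions along a proper map. -/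
noncomputable def c0Comap {Y Z : Type} [TopologicalSpace Y] [TopologicalSpace Z]
    (f : CocompactMap Y Z) : C₀(Z, ℂ) →⋆ₙₐ[ℂ] C₀(Y, ℂ) :=
  ⟨ZeroAtInftyContinuousMap.compNonUnitalAlgHom f, c0_star f⟩

namespace Kas

/-! ### Kasparov's group `KK_0(A, ℂ)` -/

section

variable {A B : Type} [NonUnitalCStarAlgebra A] [NonUnitalCStarAlgebra B] {H K L : Type}
  [NormedAddCommGroup H] [InnerProductSpace ℂ H] [CompleteSpace H]
  [NormedAddCommGroup K] [InnerProductSpace ℂ K] [CompleteSpace K]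
  [NormedAddCommGroup L] [InnerProductSpace ℂ L] [CompleteSpace L]

/-- The adjoint operator. -/
noncomputable def adj (v : H →L[ℂ] K) : K →L[ℂ] H := adjoint v

/-- `H` is separable, `γ` is a grading operator, `ρ` is a representation by even operators,
`F` is odd, and `(F^2 - 1) ρ(a)`, `(F - F*) ρ(a)` and `[F, ρ(a)]` are compact. -/
structure IsFredholm (γ : H →L[ℂ] H) (ρ : A →⋆ₙₐ[ℂ] (H →L[ℂ] H)) (F : H →L[ℂ] H) : Prop where
  separable : TopologicalSpace.SeparableSpace H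
  γ_star : star γ = γ
  γ_sq : γ * γ = 1
  even : ∀ a, γ * ρ a = ρ a * γ
  odd : γ * F = -(F * γ)
  sq : ∀ a, IsCompactOperator ((F * F - 1) * ρ a : H →L[ℂ] H)
  sa : ∀ a, IsCompactOperator ((F - star F) * ρ a : H →L[ℂ] H)
  comm : ∀ a, IsCompactOperator (F * ρ a - ρ a * F : H →L[ℂ] H)

variable (A H) in
/-- A graded Fredholm module over `A` on `H`, that is, a Kasparov `(A, ℂ)`-cycle. -/
structure Fredholm : Type where
  γ : H →L[ℂ] H
  ρ : A →⋆ₙₐ[ℂ] (H →L[ℂ] H)
  F : H →L[ℂ] H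
  prop : IsFredholm γ ρ F

variable (A) in
/-- A Hilbert space with a graded Fredholm module on it. -/
structure Cyc : Type 1 where
  H : Type
  [nacg : NormedAddCommGroup H]
  [ips : InnerProductSpace ℂ H]
  [cs : CompleteSpace H]
  fm : Fredholm A H

/-- `v` is an isometry which intertwines the gradings, the representations and the
operators. -/
structure Embeds (a : Fredholm A H) (c : Fredholm A K) (v : H →L[ℂ] K) : Prop where
  iso : adj v ∘L v = 1
  γ : c.γ ∘L v = v ∘L a.γ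
  ρ : ∀ f, c.ρ f ∘L v = v ∘L a.ρ f
  F : c.F ∘L v = v ∘L a.F

/-- Unitary equivalence. -/
structure UnitEq (a : Fredholm A H) (b : Fredholm A K) : Prop where
  ex : ∃ u : H →L[ℂ] K, Embeds a b u ∧ u ∘L adj u = 1

/-- Operator homotopy. -/
structure OpHtpy (a b : Fredholm A H) : Prop where
  ex : ∃ c : unitInterval → Fredholm A H, c 0 = a ∧ c 1 = b ∧
    (∀ t, (c t).γ = a.γ ∧ (c t).ρ = a.ρ) ∧ Continuous fun t => (c t).F

/-- `c` is the orthogonal direct sum of `a` and `b`. -/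
structure OrthSum (a : Fredholm A H) (b : Fredholm A K) (c : Fredholm A L) : Prop where
  ex : ∃ (v : H →L[ℂ] L) (w : K →L[ℂ] L), Embeds a c v ∧ Embeds b c w ∧
    v ∘L adj v + w ∘L adj w = 1

theorem IsFredholm.comap {γ : H →L[ℂ] H} {ρ : A →⋆ₙₐ[ℂ] (H →L[ℂ] H)} {F : H →L[ℂ] H}
    (h : IsFredholm γ ρ F) (φ : B →⋆ₙₐ[ℂ] A) : IsFredholm γ (ρ.comp φ) F :=
  ⟨h.separable, h.γ_star, h.γ_sq, fun b => h.even (φ b), h.odd,
    fun b => h.sq (φ b), fun b => h.sa (φ b), fun b => h.comm (φ b)⟩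

/-- The pull back of a Fredholm module. -/
noncomputable def Fredholm.comap (φ : B →⋆ₙₐ[ℂ] A) (c : Fredholm A H) : Fredholm B H :=
  ⟨c.γ, c.ρ.comp φ, c.F, c.prop.comap φ⟩

/-- The pull back of a cycle. -/
noncomputable def Cyc.comap (φ : B →⋆ₙₐ[ℂ] A) (c : Cyc A) : Cyc B :=
  @Cyc.mk B _ c.H c.nacg c.ips c.cs
    (@Fredholm.comap A B _ _ c.H c.nacg c.ips c.cs φ c.fm)

end

variable {A B : Type} [NonUnitalCStarAlgebra A] [NonUnitalCStarAlgebra B]

/-- Unitary equivalence and operator homotopy. -/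
inductive Cyc.Sim : Cyc A → Cyc A → Prop
  | unitary {H K : Type} [NormedAddCommGroup H] [InnerProductSpace ℂ H] [CompleteSpace H]
      [NormedAddCommGroup K] [InnerProductSpace ℂ K] [CompleteSpace K]
      (a : Fredholm A H) (b : Fredholm A K) : UnitEq a b → Cyc.Sim ⟨H, a⟩ ⟨K, b⟩
  | homotopy {H : Type} [NormedAddCommGroup H] [InnerProductSpace ℂ H] [CompleteSpace H]
      (a b : Fredholm A H) : OpHtpy a b → Cyc.Sim ⟨H, a⟩ ⟨H, b⟩

/-- The third cycle is the direct sum of the first two. -/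
inductive Cyc.IsSum : Cyc A → Cyc A → Cyc A → Prop
  | mk {H K L : Type} [NormedAddCommGroup H] [InnerProductSpace ℂ H] [CompleteSpace H]
      [NormedAddCommGroup K] [InnerProductSpace ℂ K] [CompleteSpace K]
      [NormedAddCommGroup L] [InnerProductSpace ℂ L] [CompleteSpace L]
      (a : Fredholm A H) (b : Fredholm A K) (c : Fredholm A L) :
      OrthSum a b c → Cyc.IsSum ⟨H, a⟩ ⟨K, b⟩ ⟨L, c⟩

variable (A) in
/-- Kasparov's K-homology group `KK_0(A, ℂ) = K^0(A)`. -/
abbrev KK : Type 1 := Pres (Cyc.Sim (A := A)) Cyc.IsSum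

theorem Cyc.comap_sim (φ : B →⋆ₙₐ[ℂ] A) :
    ∀ a b : Cyc A, a.Sim b → (a.comap φ).Sim (b.comap φ) := by
  rintro _ _ (⟨a, b, u, h1, h2⟩ | ⟨_, _, c, rfl, rfl, h1, h2⟩)
  · exact .unitary (a.comap φ) (b.comap φ) ⟨u, ⟨h1.iso, h1.γ, fun f => h1.ρ (φ f), h1.F⟩, h2⟩
  · exact .homotopy _ _ ⟨fun t => (c t).comap φ, rfl, rfl,
      fun t => ⟨(h1 t).1, congrArg (·.comp φ) (h1 t).2⟩, h2⟩

theorem Cyc.comap_isSum (φ : B →⋆ₙₐ[ℂ] A) :
    ∀ a b c : Cyc A, a.IsSum b c → (a.comap φ).IsSum (b.comap φ) (c.comap φ) := by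
  rintro _ _ _ ⟨a, b, c, v, w, h1, h2, h3⟩
  exact .mk (a.comap φ) (b.comap φ) (c.comap φ) ⟨v, w, ⟨h1.iso, h1.γ, fun f => h1.ρ (φ f), h1.F⟩,
    ⟨h2.iso, h2.γ, fun f => h2.ρ (φ f), h2.F⟩, h3⟩

/-- Contravariant functoriality of `KK_0(A, ℂ)` in `A`. -/
noncomputable def KK.comap (φ : B →⋆ₙₐ[ℂ] A) : KK A →+ KK B :=
  Pres.map (Cyc.comap φ) (Cyc.comap_sim φ) (Cyc.comap_isSum φ)

/-- The coarse K-homology group `KX_0(X) = lim_r KK_0(C_0(P_r(X)), ℂ)`. -/
def KX0 (X : Type) [MetricSpace X] [BddGeometry X] : Type 1 :=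
  AddCommGroup.DirectLimit (fun r : ℝ => KK C₀(Rips X r, ℂ))
    (fun _ _ h => KK.comap (c0Comap (ripsInclCo h)))

noncomputable instance kx0Group (X : Type) [MetricSpace X] [BddGeometry X] :
    AddCommGroup (KX0 X) :=
  AddCommGroup.DirectLimit.addCommGroup _ _

/-- The class in `KX_0(X)` of a cycle over `C_0(P_r(X))`. -/
noncomputable def KX0.cls {X : Type} [MetricSpace X] [BddGeometry X] (r : ℝ)
    (c : Cyc C₀(Rips X r, ℂ)) : KX0 X :=
  limOf (G := fun r : ℝ => KK C₀(Rips X r, ℂ))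
    (fun _ _ h => KK.comap (c0Comap (ripsInclCo h))) r (Pres.of _ _ c)

/-! ### The assembly map -/

section

variable {X H K E : Type} [NormedAddCommGroup H] [InnerProductSpace ℂ H] [CompleteSpace H]
  [NormedAddCommGroup K] [InnerProductSpace ℂ K] [CompleteSpace K]
  [NormedAddCommGroup E] [InnerProductSpace ℂ E] [CompleteSpace E]

/-- The operator `T` on `H = l^2(X) ⊗ l^2(ℕ)` has the matrix entries `M x y`, which are
operators on `K = l^2(ℕ)`. -/
def HasEntries (b : HilbertBasis (X × ℕ) ℂ H) (e : HilbertBasis ℕ ℂ K) (T : H →L[ℂ] H)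
    (M : X → X → K →L[ℂ] K) : Prop :=
  ∀ x y m n, inner ℂ (b (x, m)) (T (b (y, n))) = inner ℂ (e m) (M x y (e n))

open Classical in
/-- The operators on `l^2(X) ⊗ l^2(ℕ)` attached to a Fredholm module `c = (E, γ, ρ, F)`, the
square roots `φ x` of a partition of unity and an isometry `w : E → l^2(ℕ)`: `p₀` and `p₁` have
the entries `w ρ(φ_x φ_y) (1 ± γ)/2 w*`, and `Φ = 1 ⊗ w F w*`. -/
structure IsAmplification (b : HilbertBasis (X × ℕ) ℂ H) (e : HilbertBasis ℕ ℂ K) (φ : X → B)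
    (c : Fredholm B E) (w : E →L[ℂ] K) (p₀ p₁ Φ : H →L[ℂ] H) : Prop where
  iso : adj w ∘L w = 1
  even : HasEntries b e p₀ fun x y =>
    w ∘L (c.ρ (φ x * φ y) * ((1 / 2 : ℂ) • (1 + c.γ))) ∘L adj w
  odd : HasEntries b e p₁ fun x y =>
    w ∘L (c.ρ (φ x * φ y) * ((1 / 2 : ℂ) • (1 - c.γ))) ∘L adj w
  op : HasEntries b e Φ fun x y => if x = y then w ∘L c.F ∘L adj w else 0

end

/-- `μ : KX_0(X) → K_0(A)` is the coarse assembly map for the completion `i : ℂ[X] → A`: the
image of the class of a Fredholm module over `C_0(P_r(X))` is the index of the finite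
propagation operator `p₁ Φ p₀`, that is, of `∑_x ρ(√t_x) F ρ(√t_x)`, where the `t_x` are the
barycentric coordinates. -/
def IsAssembly {X H : Type} [MetricSpace X] [BddGeometry X] [NormedAddCommGroup H]
    [InnerProductSpace ℂ H] [CompleteSpace H]
    (b : HilbertBasis (X × ℕ) ℂ H) (i : (H →L[ℂ] H) → A) (μ : KX0 X →+ KC A) : Prop :=
  ∀ (r : ℝ) (E K : Type) [NormedAddCommGroup E] [InnerProductSpace ℂ E] [CompleteSpace E]
    [NormedAddCommGroup K] [InnerProductSpace ℂ K] [CompleteSpace K] (e : HilbertBasis ℕ ℂ K)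
    (c : Fredholm C₀(Rips X r, ℂ) E),
    (∃ w p₀ p₁ Φ, IsAmplification b e (bary r) c w p₀ p₁ Φ) ∧
    ∀ w p₀ p₁ Φ, IsAmplification b e (bary r) c w p₀ p₁ Φ →
      IsIndex i p₀ p₁ Φ (μ (KX0.cls r ⟨E, c⟩))

end Kas

end Vale.Agent.P212Z
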