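import Vale.Agent.P212Z.Lam

/-! The target algebra of the local index map as a localization system. -/

set_option linter.unusedSectionVars false

namespace Vale.Agent.P212Z

open Vale.Agent.P212 Filter Topology ZeroAtInfty NNReal
open ContinuousLinearMap hiding proj

variable {X : Type} [MetricSpace X] [BddGeometry X] {r : ℝ}

/-- The basis vector of `l^2(X × ℕ)` at a given position. -/
noncomputable def iot (X : Type) [MetricSpace X] [BddGeometry X] (r : ℝ) (j : YR X r × ℕ) :
    X × ℕ := (j.1.σ, (enum j.1.σ).symm (⟨j.1.ps, j.1.mem⟩, j.2))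

theorem pos_iot (j : YR X r × ℕ) : pos (iot X r j) = j.1.ps := by
  change (((enum j.1.σ) ((enum j.1.σ).symm (⟨j.1.ps, j.1.mem⟩, j.2))).1).1 = _
  rw [Equiv.apply_symm_apply]

theorem iot_inj : Function.Injective (iot X r) := by
  rintro ⟨⟨⟨p, x⟩, h⟩, n⟩ ⟨⟨⟨p', x'⟩, h'⟩, n'⟩ e
  obtain rfl : x = x' := congrArg Prod.fst e
  have h1 := (enum x).symm.injective (congrArg Prod.snd e)
  obtain rfl : p = p' := congrArg (fun a => a.1.1) h1
  obtain rfl : n = n' := congrArg Prod.snd h1
  rfl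

/-- The position and the vertex of a basis vector. -/
noncomputable def unio (j : X × ℕ) (h : InRips r (pos j)) : YR X r × ℕ :=
  (⟨(pos j, j.1), fst_mem_support_pos j, h⟩, (enum j.1 j.2).2)

theorem iot_unio (j : X × ℕ) (h : InRips r (pos j)) : iot X r (unio j h) = j :=
  Prod.ext rfl ((enum j.1).symm_apply_apply j.2)

theorem range_iot : Set.range (iot X r) = RP X r := by
  ext j
  constructor
  · rintro ⟨k, rfl⟩
    change InRips r (pos (iot X r k))
    rw [pos_iot]
    exact k.1.rips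
  · exact fun h => ⟨unio j h, iot_unio j h⟩

/-- The isometry onto the part over the Rips complex. -/
noncomputable def io (X : Type) [MetricSpace X] [BddGeometry X] (r : ℝ) :
    LP (YR X r) →L[ℂ] HX X := pushL2 (iot X r) iot_inj

theorem io_iso : adjoint (io X r) ∘L io X r = 1 := adjoint_pushL2_comp _

theorem io_adj : io X r ∘L adjoint (io X r) = proj (RP X r) := by
  rw [← range_iot]
  exact pushL2_comp_adjoint _

theorem mulG_io {g : RPt X → ℂ} (hg : Bd g) : mulG g ∘L io X r = io X r ∘L mY r g := by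
  have h := mulOp_push (iot_inj (X := X) (r := r)) (hg.comp pos)
  simp only [pos_iot] at h
  exact h

theorem adj_io_mulG {g : RPt X → ℂ} (hg : Bd g) :
    adjoint (io X r) ∘L mulG g = mY r g ∘L adjoint (io X r) := by
  have h := adj_push_mulOp (iot_inj (X := X) (r := r)) (hg.comp pos)
  simp only [pos_iot] at h
  exact h

theorem proj_io (B : Finset X) :
    proj (gX X ⁻¹' (B : Set X)) ∘L io X r = io X r ∘L pB r B := proj_comp_pushL2 _ _

theorem adj_io_proj (B : Finset X) :
    adjoint (io X r) ∘L proj (gX X ⁻¹' (B : Set X)) = pB r B ∘L adjoint (io X r) :=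
  adjoint_pushL2_comp_proj _ _

section Comm

variable {E F : Type} [NormedAddCommGroup E] [InnerProductSpace ℂ E] [CompleteSpace E]
  [NormedAddCommGroup F] [InnerProductSpace ℂ F] [CompleteSpace F]

theorem mul_cj {w : E →L[ℂ] F} {m : E →L[ℂ] E} {m' : F →L[ℂ] F} (h : m' ∘L w = w ∘L m)
    (T : E →L[ℂ] E) : m' * cj w T = cj w (m * T) := by
  rw [mul_def, cj, ← comp_assoc, h]
  rfl

theorem cj_mul' {w : E →L[ℂ] F} {m : E →L[ℂ] E} {m' : F →L[ℂ] F}
    (h : adjoint w ∘L m' = m ∘L adjoint w) (T : E →L[ℂ] E) : cj w T * m' = cj w (T * m) := by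
  rw [mul_def, cj, comp_assoc, comp_assoc, h]
  rfl

theorem cj_one_mul {w : E →L[ℂ] F} (hw : adjoint w ∘L w = 1) (T : E →L[ℂ] E) :
    (w ∘L adjoint w) * cj w T = cj w T := ((cj_mul hw 1 T).symm.trans (by rw [one_mul]))

theorem cj_mul_one {w : E →L[ℂ] F} (hw : adjoint w ∘L w = 1) (T : E →L[ℂ] E) :
    cj w T * (w ∘L adjoint w) = cj w T := ((cj_mul hw T 1).symm.trans (by rw [mul_one]))

/-- Compression by `w`. -/
noncomputable def cb (w : E →L[ℂ] F) (T : F →L[ℂ] F) : E →L[ℂ] E := adjoint w ∘L T ∘L w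

theorem cb_eq (w : E →L[ℂ] F) (T : F →L[ℂ] F) : cb w T = cj (adjoint w) T := by
  rw [cj, adjoint_adjoint]
  rfl

theorem cb_add (w : E →L[ℂ] F) (S T : F →L[ℂ] F) : cb w (S + T) = cb w S + cb w T := by
  rw [cb_eq, cb_eq, cb_eq, cj_add]

theorem cb_sub (w : E →L[ℂ] F) (S T : F →L[ℂ] F) : cb w (S - T) = cb w S - cb w T := by
  rw [cb_eq, cb_eq, cb_eq, cj_sub]

theorem cb_star (w : E →L[ℂ] F) (T : F →L[ℂ] F) : cb w (star T) = star (cb w T) := by
  rw [cb_eq, cb_eq, cj_star]

theorem cb_scal {w : E →L[ℂ] F} (hw : adjoint w ∘L w = 1) (c : ℂ) :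
    cb w (c • 1) = c • 1 := by
  rw [cb, smul_comp, comp_smul, ← hw]
  rfl

theorem cb_mul {w : E →L[ℂ] F} (hw : adjoint w ∘L w = 1) (S : F →L[ℂ] F) {T : F →L[ℂ] F}
    (h : T * (w ∘L adjoint w) = (w ∘L adjoint w) * T) : cb w (S * T) = cb w S * cb w T := by
  ext1 x
  have h1 := congrArg (fun A : F →L[ℂ] F => A (w x)) h
  simp only [mul_apply_eq_comp, comp_apply, iso_apply hw] at h1
  simp only [cb, mul_apply_eq_comp, comp_apply, ← h1]

theorem cj_cb (w : E →L[ℂ] F) (T : F →L[ℂ] F) :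
    cj w (cb w T) = (w ∘L adjoint w) * T * (w ∘L adjoint w) := rfl

theorem norm_cb_le {w : E →L[ℂ] F} (hw : ‖w‖ ≤ 1) (T : F →L[ℂ] F) : ‖cb w T‖ ≤ ‖T‖ := by
  rw [cb_eq]
  exact norm_cj_le (by rw [LinearIsometryEquiv.norm_map]; exact hw) T

theorem Cpt.cb {T : F →L[ℂ] F} (hT : Cpt T) (w : E →L[ℂ] F) : Cpt (cb w T) :=
  (hT.comp_right _).comp_left _

theorem mul_cb {w : E →L[ℂ] F} {m : E →L[ℂ] E} {m' : F →L[ℂ] F}
    (h : adjoint w ∘L m' = m ∘L adjoint w) (T : F →L[ℂ] F) : m * cb w T = cb w (m' * T) := by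
  rw [mul_def, cb, ← comp_assoc, ← h]
  rfl

theorem cb_mul' {w : E →L[ℂ] F} {m : E →L[ℂ] E} {m' : F →L[ℂ] F} (h : m' ∘L w = w ∘L m)
    (T : F →L[ℂ] F) : cb w T * m = cb w (T * m') := by
  rw [mul_def, cb, comp_assoc, comp_assoc, ← h]
  rfl

end Comm

theorem evB_eq (b : BB X r) : ∃ a : MM X r, (∀ t, LC (evM t a)) ∧ ∀ t,
    (lamD X r).evB (cjHom (io X r) io_iso) t b =
      (lamD X r).aug b • (1 : BX X) + cj (io X r) (evM t a) := by
  obtain ⟨a, h1, h2⟩ := LocD.exists_evB b
  refine ⟨a, q_lam.1 h1, fun t => ?_⟩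
  rw [h2, Algebra.algebraMap_eq_smul_one]
  rfl

/-- The localization system of the target algebra. -/
noncomputable def sysB (X : Type) [MetricSpace X] [BddGeometry X] (r : ℝ) :
    LocSys X r (BB X r) where
  ev t := (lamD X r).evB (cjHom (io X r) io_iso) t
  aug := (lamD X r).aug
  bdd b := ⟨‖b‖, fun _ => NonUnitalStarAlgHom.norm_apply_le _ b⟩
  comm b g hg := by
    obtain ⟨a, -, h⟩ := evB_eq b
    have h1 := (ac_iff.1 (LocD.ac a) g hg).norm
    rw [norm_zero] at h1
    refine squeeze_zero (fun _ => norm_nonneg _) (fun t => ?_) h1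
    rw [h, add_mul, mul_add, smul_mul_assoc, mul_smul_comm, one_mul, mul_one,
      add_sub_add_left_eq_sub, mul_cj (mulG_io (bd_cyl hg)), cj_mul' (adj_io_mulG (bd_cyl hg)),
      ← cj_sub]
    exact norm_cj_le (norm_iso_le io_iso) _
  cpt b t B := by
    obtain ⟨a, h0, h⟩ := evB_eq b
    rw [h, add_sub_cancel_left, mul_cj (proj_io B)]
    exact (h0 t B).1.cj _
  rips b t j k hjk := by
    obtain ⟨a, -, h⟩ := evB_eq b
    rw [h, add_sub_cancel_left] at hjk
    constructor
    · by_contra h0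
      rw [← cj_one_mul io_iso, io_adj, ent_proj_mul, Set.indicator_of_notMem h0] at hjk
      exact hjk rfl
    · by_contra h0
      rw [← cj_mul_one io_iso, io_adj, ent_mul_proj, Set.indicator_of_notMem h0] at hjk
      exact hjk rfl

section Psi

variable {A : Type} [Ring A] [StarRing A] [Algebra ℂ A] (S : LocSys X r A)

theorem sys_lc (a : A) (t : ℝ≥0) : LC (cb (io X r) (S.ev t a - S.aug a • 1)) := by
  have h : ∀ (a : A) (B : Finset X), Cpt (pB r B * cb (io X r) (S.ev t a - S.aug a • 1)) := by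
    intro a B
    rw [mul_cb (adj_io_proj B)]
    exact Cpt.cb (S.cpt a t B) _
  refine fun B => ⟨h a B, Cpt.of_star ?_⟩
  have h1 := h (star a) B
  rwa [map_star, map_star, ← star_one (BX X), ← star_smul, ← star_sub, cb_star, ← star_pB,
    ← star_mul] at h1

theorem sys_cb (a : A) (t : ℝ≥0) :
    cb (io X r) (S.ev t a) - S.aug a • 1 = cb (io X r) (S.ev t a - S.aug a • 1) := by
  rw [cb_sub, cb_scal io_iso]

theorem sys_proj (a : A) (t : ℝ≥0) :
    proj (RP X r) * (S.ev t a - S.aug a • 1) * proj (RP X r) = S.ev t a - S.aug a • 1 := by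
  refine ext_ent fun j k => ?_
  by_cases h : ent (S.ev t a - S.aug a • 1) j k = 0
  · rw [h, ent_mul_proj]
    refine Set.indicator_apply_eq_zero.2 fun _ => ?_
    rw [ent_proj_mul]
    exact Set.indicator_apply_eq_zero.2 fun _ => h
  · have h1 := S.rips a t j k h
    rw [ent_mul_proj, Set.indicator_of_mem (show k ∈ RP X r from h1.2), ent_proj_mul,
      Set.indicator_of_mem (show j ∈ RP X r from h1.1)]

theorem exists_psiM (a : A) : ∃ m : MM X r, ∀ t, evM t m = cb (io X r) (S.ev t a) := by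
  obtain ⟨C, hC⟩ := S.bdd a
  refine exists_MM _ C (fun t => (norm_cb_le (norm_iso_le io_iso) _).trans (hC t))
    (fun g hg => ?_) fun t => ?_
  · rw [tendsto_zero_iff_norm_tendsto_zero]
    refine squeeze_zero (fun _ => norm_nonneg _) (fun t => ?_) (S.comm a g hg)
    rw [mul_cb (adj_io_mulG (bd_cyl hg)), cb_mul' (mulG_io (bd_cyl hg)), ← cb_sub]
    exact norm_cb_le (norm_iso_le io_iso) _
  · rw [← sub_add_cancel (cb (io X r) (S.ev t a)) (S.aug a • 1), sys_cb]
    exact (sys_lc S a t).idl.add (idl_iff.1 (LocD.Idl.one.smul _))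

/-- The compression to the Rips complex. -/
noncomputable def psiM : A →+* MM X r where
  toFun a := (exists_psiM S a).choose
  map_one' := evM_ext fun t => by
    rw [(exists_psiM S 1).choose_spec, map_one, map_one, ← io_iso]
    rfl
  map_mul' a b := evM_ext fun t => by
    rw [map_mul, (exists_psiM S _).choose_spec, (exists_psiM S _).choose_spec,
      (exists_psiM S _).choose_spec, map_mul, cb_mul io_iso]
    rw [io_adj, S.comm_proj]
  map_zero' := evM_ext fun t => by
    rw [(exists_psiM S 0).choose_spec, map_zero, map_zero, cb, zero_comp, comp_zero]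
  map_add' a b := evM_ext fun t => by
    rw [map_add, (exists_psiM S _).choose_spec, (exists_psiM S _).choose_spec,
      (exists_psiM S _).choose_spec, map_add, cb_add]

theorem evM_psiM (a : A) (t : ℝ≥0) : evM t (psiM S a) = cb (io X r) (S.ev t a) :=
  (exists_psiM S a).choose_spec t

/-- The same with the scalar part. -/
noncomputable def psiP : A →+* (lamD X r).rel.P :=
  (RingHom.prod (S.aug : A →+* ℂ) (psiM S)).codRestrict _ fun a => by
    rw [Rel.mem_P, q_lam_eq]
    intro t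
    change LC (evM t (psiM S a) - evM t (algebraMap ℂ (MM X r) (S.aug a)))
    rw [evM_psiM, evM_algebraMap, sys_cb]
    exact sys_lc S a t

theorem psiP_sc (a : A) : (lamD X r).rel.sc (psiP S a) = S.aug a := rfl

theorem psiP_pr (a : A) : (lamD X r).rel.pr (psiP S a) = psiM S a := rfl

/-- The map to the target algebra. -/
noncomputable def phiB : A →+* BB X r := (lamD X r).rel.L.comp (psiP S)

theorem phiB_aug (a : A) : (sysB X r).aug (phiB S a) = S.aug a := LocD.aug_L (psiP S a)

theorem phiB_ev (t : ℝ≥0) (a : A) : (sysB X r).ev t (phiB S a) = S.ev t a := by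
  refine (LocD.evB_L (cjHom (io X r) io_iso) t (psiP S a)).trans ?_
  rw [psiP_sc, psiP_pr]
  change _ + cj (io X r) (evM t (psiM S a - algebraMap ℂ (MM X r) (S.aug a))) = _
  rw [map_sub, evM_psiM, evM_algebraMap, sys_cb, cj_cb, io_adj, sys_proj,
    Algebra.algebraMap_eq_smul_one, add_sub_cancel]

end Psi

end Vale.Agent.P212Z
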