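import Vale.Agent.P212Z.Sys

/-! The local index of a module given by multiplication operators. -/

set_option linter.unusedSectionVars false

namespace Vale.Agent.P212Z

open Vale.Agent.P212 Filter Topology ZeroAtInfty NNReal
open ContinuousLinearMap hiding proj

variable {X : Type} [MetricSpace X] [BddGeometry X] {r : ℝ} {J : Type}

/-- The point of the Rips complex. -/
noncomputable def ptY (y : YR X r) : Rips X r := toRips y.ps y.rips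

/-- The representation given by a placement of the basis vectors. -/
noncomputable def mK (code : J → YR X r × ℕ) : C₀(Rips X r, ℂ) →⋆ₙₐ[ℂ] (L2 J →L[ℂ] L2 J) :=
  mulHom fun j => ptY (code j).1

variable {δ : ℝ} {π : Part C₀(Rips X r, ℂ) (YR X r)} {code : J → YR X r × ℕ}

theorem exists_sum_one (hδ : 0 < δ) (hπ : Fine δ π) (code : J → YR X r × ℕ) (B : Finset X) :
    ∃ F : Finset (YR X r),
      proj (code ⁻¹' (Prod.fst ⁻¹' (YR.σ ⁻¹' (B : Set X)))) * mK code (∑ y ∈ F, π.s y * π.s y) =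
        proj (code ⁻¹' (Prod.fst ⁻¹' (YR.σ ⁻¹' (B : Set X)))) ∧
      mK code (∑ y ∈ F, π.s y * π.s y) * proj (code ⁻¹' (Prod.fst ⁻¹' (YR.σ ⁻¹' (B : Set X)))) =
        proj (code ⁻¹' (Prod.fst ⁻¹' (YR.σ ⁻¹' (B : Set X)))) := by
  have h : proj (code ⁻¹' (Prod.fst ⁻¹' (YR.σ ⁻¹' (B : Set X)))) *
      mK code (∑ y ∈ (hπ.fin (nbh r B)).toFinset, π.s y * π.s y) =
        proj (code ⁻¹' (Prod.fst ⁻¹' (YR.σ ⁻¹' (B : Set X)))) := by
    refine proj_mul_mulOp_one ((bd_c0 _).comp _) fun j hj => ?_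
    rw [c0_sum_apply]
    refine hπ.sum _ _ fun y hy => (hπ.fin _).mem_toFinset.2 ⟨?_, fun h0 => hy (by rw [h0]; rfl)⟩
    exact mem_nbh hj (close_of_mem (hπ.sub y _ hy) (self_mem_UY hδ (code j).1)).1
  exact ⟨_, h, (proj_comm_mulOp _ ((bd_c0 _).comp _)).symm.trans h⟩

theorem lc_cj (hδ : 0 < δ) (hπ : Fine δ π) (hc : Function.Injective code)
    {N : L2 J →L[ℂ] L2 J} (h : ∀ y, Cpt (mK code (π.s y) * N) ∧ Cpt (N * mK code (π.s y))) :
    LC (cj (pushL2 code hc) N) := by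
  intro B
  obtain ⟨F, h1, h2⟩ := exists_sum_one hδ hπ code B
  rw [pB, mul_cj (proj_comp_pushL2 hc _), cj_mul' (adjoint_pushL2_comp_proj hc _)]
  constructor
  · rw [← h1, mul_assoc, map_sum, Finset.sum_mul]
    refine (Cpt.mul_left (Cpt.sum _ _ fun y _ => ?_) _).cj _
    rw [map_mul, mul_assoc]
    exact (h y).1.mul_left _
  · rw [← h2, ← mul_assoc, map_sum, Finset.mul_sum]
    refine (Cpt.mul_right (Cpt.sum _ _ fun y _ => ?_) _).cj _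
    rw [map_mul, ← mul_assoc]
    exact (h y).2.mul_right _

variable {w w₀ w₁ : L2 J →L[ℂ] L2 ℕ} {ρ ρ₀ ρ₁ : C₀(Rips X r, ℂ) →⋆ₙₐ[ℂ] OpN}

theorem adjV_V_w (hδ : 0 < δ) (hπ : Fine δ π) (hw : adjoint w ∘L w = 1)
    (hρ : ∀ f, ρ f = cj w (mK code f)) : adjoint (π.V ρ) ∘L π.V ρ ∘L w = w := by
  refine ext_proj fun j => ⟨code ⁻¹' (Prod.fst ⁻¹' (YR.σ ⁻¹' (({(code j).1.σ} : Finset X) : Set X))),
    Finset.mem_coe.2 (Finset.mem_singleton_self _), ?_⟩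
  obtain ⟨F, -, h2⟩ := exists_sum_one hδ hπ code {(code j).1.σ}
  have h3 : (adjoint (π.V ρ) ∘L π.V ρ ∘L w) ∘L mK code (∑ y ∈ F, π.s y * π.s y) =
      w ∘L mK code (∑ y ∈ F, π.s y * π.s y) := by
    rw [comp_assoc, comp_assoc, ← cj_comp_iso hw, ← hρ, map_sum, finsetSum_comp, comp_finsetSum,
      comp_finsetSum]
    refine Finset.sum_congr rfl fun y _ => ?_
    rw [map_mul, mul_def, comp_assoc, ← comp_assoc (π.V ρ), ← comp_assoc (adjoint (π.V ρ)),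
      π.adj_V_V_rho]
  rw [← h2, mul_def, ← comp_assoc, h3, comp_assoc]

theorem w_adjV (hw : adjoint w ∘L w = 1) (hρ : ∀ f, ρ f = cj w (mK code f)) :
    w ∘L adjoint w ∘L adjoint (π.V ρ) = adjoint (π.V ρ) := by
  refine inc_ext fun y => ?_
  rw [comp_assoc, comp_assoc, π.adj_V_inc, hρ]
  exact cj_one_mul hw _

theorem exists_tr (hc : Function.Injective code) (hw : adjoint w ∘L w = 1)
    (hρ : ∀ f, ρ f = cj w (mK code f)) : ∃ a : MM X r, ∀ t,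
      evM t a = (lamPart X r t).V ρ ∘L w ∘L adjoint (pushL2 code hc) := by
  refine exists_MM_of_bl _ 1 (fun t => ?_) r tendsto_mesh fun t y z h => ?_
  · refine (opNorm_comp_le _ _).trans (mul_le_one₀ (Part.norm_V _ _) (norm_nonneg _) ?_)
    refine (opNorm_comp_le _ _).trans (mul_le_one₀ (norm_iso_le hw) (norm_nonneg _) ?_)
    rw [LinearIsometryEquiv.norm_map]
    exact norm_pushL2_le hc
  · refine close_of_mem ((lamPart_fine t).sub y _ fun h0 => h ?_) (self_mem_UY (mesh_pos t) z)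
    have h1 := adj_push_mulOp hc ((bd_c0 ((lamPart X r t).s y)).comp fun j => ptY j.1)
    have h2 := mulOp_inc ((bd_c0 ((lamPart X r t).s y)).comp fun j : YR X r × ℕ => ptY j.1) z
    have h3 : (mulOp fun _ : ℕ => (lamPart X r t).s y (ptY z)) = 0 := by
      rw [show (lamPart X r t).s y (ptY z) = 0 from h0]
      exact mulOp_zero
    rw [h3, comp_zero] at h2
    rw [bl_def, comp_assoc, ← comp_assoc, Part.slice_V, hρ, comp_assoc, ← comp_assoc,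
      cj_comp_iso hw, comp_assoc, ← comp_assoc (mK code _)]
    change w ∘L ((mulOp fun j => (lamPart X r t).s y (ptY (code j).1)) ∘L _) ∘L _ = 0
    rw [← h1, comp_assoc, h2, comp_zero, comp_zero]

theorem tr_lc (hδ : 0 < δ) (hπ : Fine δ π) (hc : Function.Injective code)
    (hw₀ : adjoint w₀ ∘L w₀ = 1) (hw₁ : adjoint w₁ ∘L w₁ = 1)
    (hρ₀ : ∀ f, ρ₀ f = cj w₀ (mK code f)) (hρ₁ : ∀ f, ρ₁ f = cj w₁ (mK code f)) {U : OpN}
    (hU : ∀ a, Cpt (U * ρ₀ a - ρ₁ a * U)) {T : L2 J →L[ℂ] L2 J}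
    (hT : ∀ f, Cpt (mK code f * (T - adjoint w₁ ∘L U ∘L w₀)) ∧
      Cpt ((T - adjoint w₁ ∘L U ∘L w₀) * mK code f)) :
    LC (cj (pushL2 code hc) T - star (π.V ρ₁ ∘L w₁ ∘L adjoint (pushL2 code hc)) *
      (π.P ρ₁ * amp _ U * π.P ρ₀) * (π.V ρ₀ ∘L w₀ ∘L adjoint (pushL2 code hc))) := by
  have h0 := adjV_V_w hδ hπ hw₀ hρ₀
  have h1 := congrArg adjoint (adjV_V_w hδ hπ hw₁ hρ₁)
  rw [adjoint_comp, adjoint_comp, adjoint_adjoint] at h1
  have h2 : star (π.V ρ₁ ∘L w₁ ∘L adjoint (pushL2 code hc)) *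
      (π.P ρ₁ * amp _ U * π.P ρ₀) * (π.V ρ₀ ∘L w₀ ∘L adjoint (pushL2 code hc)) =
      cj (pushL2 code hc) (((adjoint w₁ ∘L adjoint (π.V ρ₁)) ∘L π.V ρ₁) ∘L π.Ut ρ₁ ρ₀ U ∘L
        (adjoint (π.V ρ₀) ∘L π.V ρ₀ ∘L w₀)) := by
    rw [π.P_amp_P, star_eq_adjoint, adjoint_comp, adjoint_comp, adjoint_adjoint]
    rfl
  rw [h2, h0, h1, ← cj_sub]
  refine lc_cj hδ hπ hc fun y => ?_
  have h3 : T - adjoint w₁ ∘L π.Ut ρ₁ ρ₀ U ∘L w₀ = (T - adjoint w₁ ∘L U ∘L w₀) -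
      adjoint w₁ ∘L (π.Ut ρ₁ ρ₀ U - U) ∘L w₀ := by
    rw [sub_comp, comp_sub]
    abel
  rw [h3, mul_sub, sub_mul]
  refine ⟨(hT _).1.sub ?_, (hT _).2.sub ?_⟩
  · have h4 := calk_eq_iff.1 (π.calk_rho_Ut hU y)
    rw [← mul_sub] at h4
    rw [mul_def, ← comp_assoc, ← adj_comp_cj hw₁, ← hρ₁, comp_assoc]
    exact (h4.comp_right w₀).comp_left _
  · have h4 := calk_eq_iff.1 (π.calk_Ut_rho hU y)
    rw [← sub_mul] at h4
    rw [mul_def, comp_assoc, comp_assoc, ← cj_comp_iso hw₀, ← hρ₀]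
    exact (h4.comp_right w₀).comp_left _

/-- Transport of the local index to the Hilbert space of the placement. -/
theorem ind_trans (hc : Function.Injective code) (d : Quad C₀(Rips X r, ℂ))
    (hw₀ : adjoint w₀ ∘L w₀ = 1) (hw₁ : adjoint w₁ ∘L w₁ = 1)
    (hρ₀ : ∀ f, d.ρ₀ f = cj w₀ (mK code f)) (hρ₁ : ∀ f, d.ρ₁ f = cj w₁ (mK code f))
    (d' : IDat (lamD X r).rel) (T S : ℝ≥0 → L2 J →L[ℂ] L2 J)
    (h₀ : ∀ t, evM t d'.p₀ = cj (pushL2 code hc) 1) (h₁ : ∀ t, evM t d'.p₁ = cj (pushL2 code hc) 1)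
    (eT : ∀ t, evM t d'.T = cj (pushL2 code hc) (T t))
    (eS : ∀ t, evM t d'.S = cj (pushL2 code hc) (S t))
    (hT : ∀ t f, Cpt (mK code f * (T t - adjoint w₁ ∘L d.U ∘L w₀)) ∧
      Cpt ((T t - adjoint w₁ ∘L d.U ∘L w₀) * mK code f))
    (hS : ∀ t f, Cpt (mK code f * (S t - adjoint w₀ ∘L d.U' ∘L w₁)) ∧
      Cpt ((S t - adjoint w₀ ∘L d.U' ∘L w₁) * mK code f)) :
    ((lamCtx X r).dat d).ind = d'.ind := by
  have k1 : ∀ {w : L2 J →L[ℂ] L2 ℕ} {ρ : C₀(Rips X r, ℂ) →⋆ₙₐ[ℂ] OpN} {a : MM X r},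
      adjoint w ∘L w = 1 → (∀ f, ρ f = cj w (mK code f)) →
      (∀ t, evM t a = (lamPart X r t).V ρ ∘L w ∘L adjoint (pushL2 code hc)) →
      a * star a = (lamCtx X r).P ρ ∧ ∀ t, evM t (star a * a) = cj (pushL2 code hc) 1 := by
    intro w ρ a hw hρ ha
    refine ⟨evM_ext fun t => ?_, fun t => ?_⟩
    · rw [map_mul, evM_star, ha, evM_P, star_eq_adjoint, adjoint_comp, adjoint_comp,
        adjoint_adjoint, Part.P, ← w_adjV hw hρ]
      ext1 ξ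
      simp only [mul_apply_eq_comp, comp_apply, iso_apply (adjoint_pushL2_comp hc), iso_apply hw]
    · have h := adjV_V_w (mesh_pos t) (lamPart_fine t) hw hρ
      rw [map_mul, evM_star, ha, star_eq_adjoint, adjoint_comp, adjoint_comp, adjoint_adjoint,
        ← hw]
      conv_rhs => rw [← h]
      rw [h]
      change _ = pushL2 code hc ∘L (adjoint w ∘L w) ∘L adjoint (pushL2 code hc)
      conv_rhs => enter [2, 1, 2]; rw [← h]
      rfl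
  obtain ⟨a₀, ha₀⟩ := exists_tr hc hw₀ hρ₀
  obtain ⟨a₁, ha₁⟩ := exists_tr hc hw₁ hρ₁
  obtain ⟨b1, b2⟩ := k1 hw₀ hρ₀ ha₀
  obtain ⟨c1, c2⟩ := k1 hw₁ hρ₁ ha₁
  refine IDat.ind_transport _ d' a₀ (star a₀) a₁ (star a₁) b1
    (evM_ext fun t => (b2 t).trans (h₀ t).symm) c1 (evM_ext fun t => (c2 t).trans (h₁ t).symm)
    (q_lam_eq.2 fun t => ?_) (q_lam_eq.2 fun t => ?_)
  · change LC (_ - evM t (star a₁ * ((lamCtx X r).P d.ρ₁ * (lamCtx X r).am d.U *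
      (lamCtx X r).P d.ρ₀) * a₀))
    rw [eT, map_mul, map_mul, map_mul, map_mul, evM_star, ha₀, ha₁, evM_P, evM_P, evM_am]
    exact tr_lc (mesh_pos t) (lamPart_fine t) hc hw₀ hw₁ hρ₀ hρ₁ d.c₀ (hT t)
  · change LC (_ - evM t (star a₀ * ((lamCtx X r).P d.ρ₀ * (lamCtx X r).am d.U' *
      (lamCtx X r).P d.ρ₁) * a₁))
    rw [eS, map_mul, map_mul, map_mul, map_mul, evM_star, ha₀, ha₁, evM_P, evM_P, evM_am]
    exact tr_lc (mesh_pos t) (lamPart_fine t) hc hw₁ hw₀ hρ₁ hρ₀ d.c₁ (hS t)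

end Vale.Agent.P212Z
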