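import Vale.Agent.P212Z.Shift
import Vale.Agent.P212Z.Trans

/-! The cycle given by an asymptotically local path of projections. -/

set_option linter.unusedSectionVars false

namespace Vale.Agent.P212Z

open Vale.Agent.P212 Filter Topology ZeroAtInfty NNReal
open ContinuousLinearMap hiding proj

variable {X : Type} [MetricSpace X] [BddGeometry X] {r : ℝ}

/-- Multiplication by a function of the position. -/
noncomputable def mN (loc : ℕ → YR X r) (g : RPt X → ℂ) : OpN := mulOp fun n => g (loc n).ps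

/-- The projection onto the part over a finite set. -/
noncomputable def pN (loc : ℕ → YR X r) (B : Finset X) : OpN := proj {n | (loc n).σ ∈ B}

/-- An asymptotically local path of projections. -/
structure Wd (X : Type) [MetricSpace X] [BddGeometry X] (r : ℝ) where
  loc : ℕ → YR X r
  e : OpN
  E : ℝ≥0 → OpN
  e_idem : e * e = e
  e_star : star e = e
  E_idem : ∀ t, E t * E t = E t
  E_star : ∀ t, star (E t) = E t
  e_comm : ∀ g : YR X r → ℂ, Bd g →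
    e * mulOp (fun n => g (loc n)) = mulOp (fun n => g (loc n)) * e
  cpt : ∀ t B, Cpt (pN loc B * (E t - e))
  comm : ∀ g, Cyl g → Tendsto (fun t => E t * mN loc g - mN loc g * E t) atTop (𝓝 0)
  unif : UniformContinuous E

variable (W : Wd X r)

/-- Multipliers which are compatible with the path. -/
structure Wd.Good (m : OpN) : Prop where
  comm : W.e * m = m * W.e
  l : ∀ t, Cpt (m * (W.E t - W.e))
  r : ∀ t, Cpt ((W.E t - W.e) * m)
  lim : Tendsto (fun t => W.E t * m - m * W.E t) atTop (𝓝 0)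

theorem norm_proj_le' {a : OpN} (h : a * a = a) (h' : star a = a) : ‖a‖ ≤ 1 := by
  have h1 := CStarRing.norm_star_mul_self (x := a)
  rw [h', h] at h1
  nlinarith [norm_nonneg a]

theorem Wd.good_cyl {g : RPt X → ℂ} (hg : Cyl g) {B : Finset X}
    (hB : ∀ p, InRips r p → g p ≠ 0 → p.1.support ⊆ B) : W.Good (mN W.loc g) := by
  have hb : Bd fun n => g (W.loc n).ps := (bd_cyl hg).comp _
  have h1 : pN W.loc B * mN W.loc g = mN W.loc g :=
    proj_mul_mulOp_self hb fun n hn => hB _ (W.loc n).rips hn (W.loc n).mem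
  have h2 : pN W.loc B * mN W.loc g = mN W.loc g * pN W.loc B := proj_comm_mulOp _ hb
  refine ⟨W.e_comm _ ((bd_cyl hg).comp YR.ps), fun t => ?_, fun t => ?_, W.comm g hg⟩
  · rw [← h1, h2, mul_assoc]
    exact (W.cpt t B).mul_left _
  · have h3 := (W.cpt t B).star
    rw [star_mul, star_sub, W.E_star, W.e_star, pN, star_proj] at h3
    rw [← h1, ← mul_assoc]
    exact h3.mul_right _

theorem Wd.good_mass (B : Finset X) : W.Good (mN W.loc fun p => (mass B p : ℂ)) :=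
  W.good_cyl (cyl_mass B) fun _ hp h => mem_nbh_of_mass hp h

/-- The representation on `l^2(ℕ)`. -/
noncomputable def Wd.ρN : C₀(Rips X r, ℂ) →⋆ₙₐ[ℂ] OpN := mulHom fun n => ptY (W.loc n)

theorem Wd.good_c0 (f : C₀(Rips X r, ℂ)) : W.Good (W.ρN f) := by
  have h : ∀ ε > 0, ∃ m, W.Good m ∧ ‖W.ρN f - m‖ ≤ ε := by
    intro ε hε
    obtain ⟨g, B, h1, h2, h3⟩ := exists_cyl f hε
    refine ⟨_, W.good_cyl h1 h3, ?_⟩
    rw [Wd.ρN, mulHom_apply, mN, ← mulOp_sub ((bd_c0 f).comp _) ((bd_cyl h1).comp _)]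
    exact norm_mulOp_le (fun n => h2 _ _) hε.le
  have hE : ∀ t, ‖W.E t - W.e‖ ≤ 2 := fun t => (norm_sub_le _ _).trans (by
    linarith [norm_proj_le' (W.E_idem t) (W.E_star t), norm_proj_le' W.e_idem W.e_star])
  refine ⟨W.e_comm _ ((bd_c0 f).comp ptY), fun t => Cpt.of_approx fun ε hε => ?_,
    fun t => Cpt.of_approx fun ε hε => ?_, ?_⟩
  · obtain ⟨m, h1, h2⟩ := h (ε / 2) (half_pos hε)
    refine ⟨_, h1.l t, ?_⟩
    rw [← sub_mul]
    refine (norm_mul_le _ _).trans ?_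
    calc _ ≤ ε / 2 * 2 := mul_le_mul h2 (hE t) (norm_nonneg _) (half_pos hε).le
      _ = ε := by ring
  · obtain ⟨m, h1, h2⟩ := h (ε / 2) (half_pos hε)
    refine ⟨_, h1.r t, ?_⟩
    rw [← mul_sub]
    refine (norm_mul_le _ _).trans ?_
    calc _ ≤ 2 * (ε / 2) := mul_le_mul (hE t) h2 (norm_nonneg _) two_pos.le
      _ = ε := by ring
  · rw [NormedAddGroup.tendsto_nhds_zero]
    intro ε hε
    obtain ⟨m, h1, h2⟩ := h (ε / 4) (by positivity)
    filter_upwards [NormedAddGroup.tendsto_nhds_zero.1 h1.lim (ε / 2) (half_pos hε)] with t ht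
    have h3 : W.E t * W.ρN f - W.ρN f * W.E t =
        (W.E t * m - m * W.E t) + (W.E t * (W.ρN f - m) - (W.ρN f - m) * W.E t) := by noncomm_ring
    have h4 := norm_proj_le' (W.E_idem t) (W.E_star t)
    have h5 := (norm_mul_le (W.E t) (W.ρN f - m)).trans
      (mul_le_mul h4 h2 (norm_nonneg _) zero_le_one)
    have h6 := (norm_mul_le (W.ρN f - m) (W.E t)).trans
      (mul_le_mul h2 h4 (norm_nonneg _) (by positivity))
    rw [h3]
    linarith [norm_add_le (W.E t * m - m * W.E t) (W.E t * (W.ρN f - m) - (W.ρN f - m) * W.E t),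
      norm_sub_le (W.E t * (W.ρN f - m)) ((W.ρN f - m) * W.E t)]

theorem Wd.exists_τ : ∃ τ : ℕ → ℝ≥0, τ 0 = 0 ∧
    (∀ t k, ‖W.E (max t (τ (k + 1))) - W.E (max t (τ k))‖ ≤ 1 / 2) ∧
    (∀ t, Tendsto (fun k => W.E (max t (τ (k + 1))) - W.E (max t (τ k))) atTop (𝓝 0)) ∧
    Tendsto τ atTop atTop := by
  have hd : ∀ t a b : ℝ≥0, dist (max t a) (max t b) ≤ dist a b := fun t a b => by
    rw [NNReal.dist_eq, NNReal.dist_eq, NNReal.coe_max, NNReal.coe_max, max_comm, max_comm (t : ℝ)]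
    exact abs_max_sub_max_le_abs _ _ _
  have hu := Metric.uniformContinuous_iff_le.1 W.unif
  obtain ⟨δ, hδ, h⟩ := hu (1 / 2) one_half_pos
  obtain ⟨τ, h0, h1, h2, h3⟩ := exists_times hδ
  refine ⟨τ, h0, fun t k => ?_, fun t => ?_, h3⟩
  · rw [← dist_eq_norm]
    exact h ((hd _ _ _).trans (h1 k))
  · rw [NormedAddGroup.tendsto_nhds_zero]
    intro ε hε
    obtain ⟨η, hη, h4⟩ := hu (ε / 2) (half_pos hε)
    filter_upwards [h2.eventually (ge_mem_nhds hη)] with k hk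
    rw [← dist_eq_norm]
    exact (h4 ((hd _ _ _).trans hk)).trans_lt (half_lt_self hε)

/-- The times. -/
noncomputable def Wd.τ : ℕ → ℝ≥0 := W.exists_τ.choose

/-- The sequence of projections at time `t`. -/
noncomputable def Wd.ε (t : ℝ≥0) (k : ℤ) : OpN :=
  if k < 0 then W.e else W.E (max t (W.τ k.toNat))

theorem Wd.ε_neg (t : ℝ≥0) {k : ℤ} (h : k < 0) : W.ε t k = W.e := if_pos h

theorem Wd.ε_nat (t : ℝ≥0) (k : ℕ) : W.ε t k = W.E (max t (W.τ k)) := by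
  rw [Wd.ε, if_neg (by omega), Int.toNat_natCast]

theorem Wd.ε_zero (t : ℝ≥0) : W.ε t 0 = W.E t := by
  have h := W.ε_nat t 0
  rwa [Wd.τ, W.exists_τ.choose_spec.1, max_eq_left zero_le] at h

theorem Wd.ε_idem (t : ℝ≥0) (k : ℤ) : W.ε t k * W.ε t k = W.ε t k := by
  unfold Wd.ε
  split_ifs
  exacts [W.e_idem, W.E_idem _]

theorem Wd.ε_star (t : ℝ≥0) (k : ℤ) : star (W.ε t k) = W.ε t k := by
  unfold Wd.ε
  split_ifs
  exacts [W.e_star, W.E_star _]

theorem Wd.norm_ε (t : ℝ≥0) (k : ℤ) : ‖W.ε t k‖ ≤ 1 := norm_proj_le' (W.ε_idem t k) (W.ε_star t k)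

theorem Wd.bdd_ε (t : ℝ≥0) : Bdd (W.ε t) := ⟨1, W.norm_ε t⟩

theorem Wd.step (t : ℝ≥0) {k : ℤ} (hk : k ≠ -1) : ‖W.ε t k - W.ε t (k + 1)‖ ≤ 1 / 2 := by
  by_cases h : k < 0
  · rw [W.ε_neg t h, W.ε_neg t (by omega), sub_self, norm_zero]
    norm_num
  · obtain ⟨n, rfl⟩ := Int.eq_ofNat_of_zero_le (not_lt.1 h)
    rw [← Nat.cast_succ, W.ε_nat, W.ε_nat, norm_sub_rev]
    exact W.exists_τ.choose_spec.2.1 t n

theorem finite_int {a : ℤ → OpN} (h0 : ∀ k < -1, a k = 0)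
    (h : Tendsto (fun k : ℕ => a k) atTop (𝓝 0)) : ∀ η > 0, {k | η < ‖a k‖}.Finite := by
  intro η hη
  obtain ⟨K, hK⟩ := eventually_atTop.1 (NormedAddGroup.tendsto_nhds_zero.1 h η hη)
  refine (Set.finite_Icc (-1 : ℤ) K).subset fun k hk => ⟨?_, ?_⟩
  · by_contra h1
    rw [Set.mem_ofPred_eq, h0 k (not_le.1 h1), norm_zero] at hk
    exact lt_asymm hη hk
  · by_contra h1
    obtain ⟨n, rfl⟩ := Int.eq_ofNat_of_zero_le (show 0 ≤ k by omega)
    exact lt_asymm (hK n (by omega)) hk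

theorem Wd.step_fin (t : ℝ≥0) : ∀ η > 0, {k | η < ‖W.ε t k - W.ε t (k + 1)‖}.Finite := by
  refine finite_int (fun k hk => ?_) ?_
  · rw [W.ε_neg t (by omega), W.ε_neg t (by omega), sub_self]
  · have h := (W.exists_τ.choose_spec.2.2.1 t).neg
    rw [neg_zero] at h
    refine h.congr fun k => ?_
    rw [← Nat.cast_succ, W.ε_nat, W.ε_nat, neg_sub]
    rfl

variable {W} {m : OpN}

theorem Wd.Good.ε_l (h : W.Good m) (s t : ℝ≥0) (k l : ℤ) : Cpt (m * (W.ε s k - W.ε t l)) := by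
  have h1 : ∀ t k, Cpt (m * (W.ε t k - W.e)) := fun t k => by
    unfold Wd.ε
    split_ifs
    · rw [sub_self, mul_zero]
      exact Cpt.zero
    · exact h.l _
  rw [← sub_sub_sub_cancel_right _ _ W.e, mul_sub]
  exact (h1 s k).sub (h1 t l)

theorem Wd.Good.ε_r (h : W.Good m) (s t : ℝ≥0) (k l : ℤ) : Cpt ((W.ε s k - W.ε t l) * m) := by
  have h1 : ∀ t k, Cpt ((W.ε t k - W.e) * m) := fun t k => by
    unfold Wd.ε
    split_ifs
    · rw [sub_self, zero_mul]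
      exact Cpt.zero
    · exact h.r _
  rw [← sub_sub_sub_cancel_right _ _ W.e, sub_mul]
  exact (h1 s k).sub (h1 t l)

theorem dg_comm {Y : Type} {a : Y → OpN} (ha : Bdd a) (m : OpN) :
    dg a * amp Y m - amp Y m * dg a = dg fun k => a k * m - m * a k := by
  rw [dg_sub (ha.mul (Bdd.const m)) ((Bdd.const m).mul ha), dg_mul ha (Bdd.const m),
    dg_mul (Bdd.const m) ha]
  rfl

theorem Wd.Good.cpt_comm (h : W.Good m) (t : ℝ≥0) :
    Cpt (dg (W.ε t) * amp ℤ m - amp ℤ m * dg (W.ε t)) := by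
  rw [dg_comm (W.bdd_ε t)]
  refine cpt_dg (fun k => ?_) (finite_int (fun k hk => ?_) ?_)
  · have h1 := (h.ε_r t t k (-1)).sub (h.ε_l t t k (-1))
    rwa [W.ε_neg t (k := -1) (by omega), sub_mul, mul_sub, h.comm, sub_sub_sub_cancel_right] at h1
  · rw [W.ε_neg t (by omega), h.comm, sub_self]
  · simp only [W.ε_nat]
    exact h.lim.comp (tendsto_atTop_mono (fun k => le_max_right _ _) W.exists_τ.choose_spec.2.2.2)

theorem Wd.lim_comm (W : Wd X r) {g : RPt X → ℂ} (hg : Cyl g) : Tendsto (fun t =>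
    dg (W.ε t) * amp ℤ (mN W.loc g) - amp ℤ (mN W.loc g) * dg (W.ε t)) atTop (𝓝 0) := by
  rw [NormedAddGroup.tendsto_nhds_zero]
  intro η hη
  obtain ⟨t₀, h⟩ := eventually_atTop.1
    (NormedAddGroup.tendsto_nhds_zero.1 (W.comm g hg) (η / 2) (half_pos hη))
  refine eventually_atTop.2 ⟨t₀, fun t ht => ?_⟩
  rw [dg_comm (W.bdd_ε t)]
  refine (norm_dg_le (half_pos hη).le fun k => ?_).trans_lt (half_lt_self hη)
  unfold Wd.ε
  split_ifs
  · rw [show W.e * mN W.loc g = _ from W.e_comm _ ((bd_cyl hg).comp YR.ps), mN, sub_self,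
      norm_zero]
    exact (half_pos hη).le
  · exact (h _ (ht.trans (le_max_left _ _))).le

theorem Wd.Good.cpt_diff (h : W.Good m) (t : ℝ≥0) :
    Cpt (amp ℤ m * dg (W.ε t) - amp ℤ m * dg (W.ε 0)) := by
  rw [← mul_sub, ← dg_sub (W.bdd_ε t) (W.bdd_ε 0), amp,
    ← dg_mul (Bdd.const m) ((W.bdd_ε t).sub (W.bdd_ε 0))]
  refine cpt_dg (fun k => h.ε_l _ _ _ _) (finite_int (fun k hk => ?_) ?_)
  · rw [W.ε_neg t (by omega), W.ε_neg 0 (by omega), sub_self, mul_zero]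
  · refine tendsto_const_nhds.congr' ?_
    filter_upwards [W.exists_τ.choose_spec.2.2.2.eventually (eventually_ge_atTop t)] with k hk
    rw [W.ε_nat, W.ε_nat, max_eq_right (show t ≤ W.τ k from hk), max_eq_right zero_le, sub_self,
      mul_zero]

theorem norm_defect {a : OpN} (b : OpN) (ha : a * a = a) (h1 : ‖a‖ ≤ 1) :
    ‖a - a * b * a‖ ≤ ‖a - b‖ := by
  have h : a - a * b * a = a * (a - b) * a := by rw [mul_sub, sub_mul, ha, ha]
  rw [h]
  calc _ ≤ ‖a‖ * ‖a - b‖ * ‖a‖ :=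
        (norm_mul_le _ _).trans (mul_le_mul_of_nonneg_right (norm_mul_le _ _) (norm_nonneg _))
    _ ≤ 1 * ‖a - b‖ * 1 := by gcongr
    _ = _ := by ring

theorem Wd.Good.cpt_defect (h : W.Good m) (t : ℝ≥0) {u : ℤ → ℤ}
    (hu : ∀ η > 0, {k | η < ‖W.ε t k - W.ε t (u k)‖}.Finite) :
    Cpt (amp ℤ m * dg fun k => W.ε t k - W.ε t k * W.ε t (u k) * W.ε t k) ∧
    Cpt ((dg fun k => W.ε t k - W.ε t k * W.ε t (u k) * W.ε t k) * amp ℤ m) := by
  have hb : Bdd fun k => W.ε t k - W.ε t k * W.ε t (u k) * W.ε t k :=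
    (W.bdd_ε t).sub (((W.bdd_ε t).mul ((W.bdd_ε t).comp u)).mul (W.bdd_ε t))
  have hn := fun k => norm_defect (W.ε t (u k)) (W.ε_idem t k) (W.norm_ε t k)
  have hf : ∀ a : ℤ → OpN, (∀ k, ‖a k‖ ≤ ‖m‖ * ‖W.ε t k - W.ε t (u k)‖) →
      ∀ η > 0, {k | η < ‖a k‖}.Finite := by
    intro a ha η hη
    refine (hu (η / (‖m‖ + 1)) (by positivity)).subset fun k hk => ?_
    rw [Set.mem_ofPred_eq, div_lt_iff₀ (by positivity)]
    have h1 := lt_of_lt_of_le hk (ha k)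
    nlinarith [norm_nonneg (W.ε t k - W.ε t (u k))]
  rw [amp, ← dg_mul (Bdd.const m) hb, ← dg_mul hb (Bdd.const m)]
  refine ⟨cpt_dg (fun k => ?_) (hf _ fun k => ?_), cpt_dg (fun k => ?_) (hf _ fun k => ?_)⟩
  · rw [(defect_eq (W.ε_idem t k) (W.ε_idem t (u k))).2, ← mul_assoc]
    exact (h.ε_l _ _ _ _).mul_right _
  · exact (norm_mul_le _ _).trans (mul_le_mul_of_nonneg_left (hn k) (norm_nonneg _))
  · rw [(defect_eq (W.ε_idem t k) (W.ε_idem t (u k))).1, mul_assoc]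
    exact (h.ε_r _ _ _ _).mul_left _
  · rw [mul_comm]
    exact (norm_mul_le _ _).trans (mul_le_mul_of_nonneg_right (hn k) (norm_nonneg _))

theorem Wd.step_fin' (W : Wd X r) (t : ℝ≥0) :
    ∀ η > 0, {k | η < ‖W.ε t k - W.ε t (k - 1)‖}.Finite := by
  intro η hη
  refine ((W.step_fin t η hη).image fun k => k + 1).subset fun k hk => ⟨k - 1, ?_, by simp⟩
  rwa [Set.mem_ofPred_eq, sub_add_cancel, norm_sub_rev]

variable (W)

/-- The block diagonal projection. -/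
noncomputable def Wd.D (t : ℝ≥0) : OpY ℤ := dg (W.ε t)

theorem Wd.D_idem (t : ℝ≥0) : W.D t * W.D t = W.D t := by
  rw [Wd.D, ← dg_mul (W.bdd_ε t) (W.bdd_ε t)]
  simp only [W.ε_idem]

theorem Wd.D_star (t : ℝ≥0) : star (W.D t) = W.D t := by
  rw [Wd.D, ← dg_star (W.bdd_ε t)]
  simp only [W.ε_star]

/-- The compressed shift. -/
noncomputable def Wd.U (t : ℝ≥0) (S : OpY ℤ) : OpY ℤ := W.D t * S * W.D t + (1 - W.D t)

theorem Wd.U_star (t : ℝ≥0) (S : OpY ℤ) : star (W.U t S) = W.U t (star S) := by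
  rw [Wd.U, Wd.U, star_add, star_sub, star_mul, star_mul, W.D_star, star_one, mul_assoc]

variable {W}

theorem Wd.Good.calk_D (h : W.Good m) (t : ℝ≥0) :
    calk _ (amp ℤ m) * calk _ (W.D t) = calk _ (W.D t) * calk _ (amp ℤ m) := by
  rw [← map_mul, ← map_mul, eq_comm, calk_eq_iff]
  exact h.cpt_comm t

theorem Wd.Good.U_comm (h : W.Good m) (t : ℝ≥0) {S : OpY ℤ} (hS : amp ℤ m * S = S * amp ℤ m) :
    calk _ (amp ℤ m) * calk _ (W.U t S) = calk _ (W.U t S) * calk _ (amp ℤ m) := by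
  rw [Wd.U, map_add, map_sub, map_mul, map_mul, map_one]
  exact cmp_comm (h.calk_D t) (by rw [← map_mul, ← map_mul, hS])

theorem Wd.Good.U_diff (h : W.Good m) (t : ℝ≥0) {S : OpY ℤ} (hS : amp ℤ m * S = S * amp ℤ m) :
    Cpt (amp ℤ m * (W.U t S - W.U 0 S)) ∧ Cpt ((W.U t S - W.U 0 S) * amp ℤ m) := by
  have h1 : calk _ (amp ℤ m) * calk _ (W.U t S) = calk _ (amp ℤ m) * calk _ (W.U 0 S) := by
    rw [Wd.U, Wd.U, map_add, map_sub, map_mul, map_mul, map_add, map_sub, map_mul, map_mul,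
      map_one]
    refine cmp_congr (h.calk_D t) (by rw [← map_mul, ← map_mul, hS]) ?_
    rw [← map_mul, ← map_mul, calk_eq_iff]
    exact h.cpt_diff t
  rw [mul_sub, sub_mul, ← calk_eq_iff, ← calk_eq_iff, map_mul, map_mul, map_mul, map_mul,
    ← h.U_comm t hS, ← h.U_comm 0 hS]
  exact ⟨h1, h1⟩

variable (W)

/-- The representation on `l^2(ℤ × ℕ)`. -/
noncomputable def Wd.ρK : C₀(Rips X r, ℂ) →⋆ₙₐ[ℂ] OpY ℤ := mulHom fun j => ptY (W.loc j.2)

theorem Wd.ρK_eq (f : C₀(Rips X r, ℂ)) : W.ρK f = amp ℤ (W.ρN f) :=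
  (amp_mulOp ((bd_c0 f).comp fun n => ptY (W.loc n))).symm

/-- The cycle. -/
noncomputable def Wd.cyc : Cycle C₀(Rips X r, ℂ) :=
  dblCyc W.ρK (U := W.U 0 sh)
    (fun f => by
      rw [W.ρK_eq, ← calk_eq_iff, map_mul, map_mul, (W.good_c0 f).U_comm 0 (amp_sh _)])
    (fun f => by
      rw [W.U_star, Wd.U, Wd.U, cmp_sq (W.D_idem 0), Wd.D, dg_defect₀ (W.bdd_ε 0), W.ρK_eq,
        neg_mul]
      exact ((W.good_c0 f).cpt_defect 0 (W.step_fin 0)).2.neg)
    (fun f => by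
      rw [W.U_star, Wd.U, Wd.U, cmp_sq (W.D_idem 0), Wd.D, dg_defect₁ (W.bdd_ε 0), W.ρK_eq,
        neg_mul]
      exact ((W.good_c0 f).cpt_defect 0 (W.step_fin' 0)).2.neg)

theorem Wd.cyc_bary {x : X} (h : ∀ n, x ∉ (W.loc n).ps.1.support) : W.cyc.M.ρ (bary r x) = 0 := by
  have h1 : W.ρK (bary r x) = 0 := by
    rw [Wd.ρK, mulHom_apply, ← mulOp_zero]
    congr 1
    funext j
    change ((Real.sqrt (((W.loc j.2).ps.1 x : ℚ) : ℝ) : ℝ) : ℂ) = 0
    rw [Finsupp.notMem_support_iff.1 (h j.2), Rat.cast_zero, Real.sqrt_zero, Complex.ofReal_zero]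
  have h2 := map_zero (dblRep W.ρK).ρ
  rw [dblRep_ρ, map_zero] at h2
  change (dblRep W.ρK).ρ (bary r x) = 0
  rw [dblRep_ρ, h1]
  exact h2

end Vale.Agent.P212Z
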