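import Vale.Agent.P212Z.WitA
import Vale.Agent.P212Z.Jump

/-! The local index of the cycle of a path of projections. -/

set_option linter.unusedSectionVars false

namespace Vale.Agent.P212Z

open Vale.Agent.P212 Filter Topology ZeroAtInfty NNReal
open ContinuousLinearMap hiding proj

variable {X : Type} [MetricSpace X] [BddGeometry X] {r s : ℝ}

/-- The inclusion of the positions. -/
def YR.incl (h : r ≤ s) (y : YR X r) : YR X s := ⟨y.1, y.2.1, y.2.2.mono h⟩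

variable (W : Wd X r) (h : r ≤ s)

/-- The placement of the basis vectors. -/
noncomputable def Wd.code (j : ℤ × ℕ) : YR X s × ℕ := ((W.loc j.2).incl h, Encodable.encode j)

theorem Wd.code_inj : Function.Injective (W.code h) := fun _ _ e =>
  Encodable.encode_injective (congrArg Prod.snd e)

/-- The isometry of the placement. -/
noncomputable def Wd.κ : LP ℤ →L[ℂ] LP (YR X s) := pushL2 (W.code h) (W.code_inj h)

theorem Wd.κ_iso : adjoint (W.κ h) ∘L W.κ h = 1 := adjoint_pushL2_comp _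

theorem Wd.mK_eq (f : C₀(Rips X s, ℂ)) : mK (W.code h) f = amp ℤ (W.ρN (ripsRes h f)) :=
  W.ρK_eq (ripsRes h f)

theorem Wd.cj_comm {g : RPt X → ℂ} (hg : Bd g) (T : OpY ℤ) :
    cj (W.κ h) T * mY s g - mY s g * cj (W.κ h) T =
      cj (W.κ h) (T * amp ℤ (mN W.loc g) - amp ℤ (mN W.loc g) * T) := by
  have h1 := mulOp_push (W.code_inj h) (hg.comp fun j : YR X s × ℕ => j.1.ps)
  have h2 := adj_push_mulOp (W.code_inj h) (hg.comp fun j : YR X s × ℕ => j.1.ps)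
  rw [cj_sub, mN, amp_mulOp (hg.comp _)]
  exact congrArg₂ (· - ·) (cj_mul' h2 T) (mul_cj h1 T)

theorem Wd.exists_MK (f : ℝ≥0 → OpY ℤ) (C : ℝ) (hC : ∀ t, ‖f t‖ ≤ C)
    (h1 : ∀ g, Cyl g → Tendsto (fun t =>
      f t * amp ℤ (mN W.loc g) - amp ℤ (mN W.loc g) * f t) atTop (𝓝 0))
    (h2 : ∀ t m, W.Good m → Cpt (f t * amp ℤ m - amp ℤ m * f t)) :
    ∃ a : MM X s, ∀ t, evM t a = cj (W.κ h) (f t) := by
  refine exists_MM _ C (fun t => (norm_cj_le (norm_iso_le (W.κ_iso h)) _).trans (hC t))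
    (fun g hg => ?_) fun t => idl_of_comm fun B => ?_
  · simp only [W.cj_comm h (bd_cyl hg)]
    have h3 := ((continuous_cj (W.κ h)).tendsto 0).comp (h1 g hg)
    rwa [cj_zero] at h3
  · rw [W.cj_comm h (bd_cyl (cyl_mass B))]
    exact (h2 t _ (W.good_mass B)).cj _

theorem Wd.exists_const (a : OpY ℤ) (ha : ∀ m, amp ℤ m * a = a * amp ℤ m) :
    ∃ b : MM X s, ∀ t, evM t b = cj (W.κ h) a :=
  W.exists_MK h (fun _ => a) ‖a‖ (fun _ => le_rfl)
    (fun _ _ => tendsto_const_nhds.congr fun _ => by rw [ha, sub_self])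
    fun _ _ _ => by rw [ha, sub_self]; exact Cpt.zero

theorem Wd.lc_defect (t : ℝ≥0) {u : ℤ → ℤ}
    (hu : ∀ η > 0, {k | η < ‖W.ε t k - W.ε t (u k)‖}.Finite) :
    LC (cj (W.κ h) (dg fun k => W.ε t k - W.ε t k * W.ε t (u k) * W.ε t k)) :=
  lc_cj (mesh_pos 0) (lamPart_fine 0) (W.code_inj h) fun y => by
    rw [W.mK_eq]
    exact (W.good_c0 _).cpt_defect t hu

theorem Wd.norm_cut (N Q : OpY ℤ) :
    ‖cj (W.κ h) N * (1 - cj (W.κ h) Q)‖ ≤ ‖N * (1 - Q)‖ := by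
  rw [mul_sub, mul_one, ← cj_mul (W.κ_iso h), ← cj_sub, mul_sub, mul_one]
  exact norm_cj_le (norm_iso_le (W.κ_iso h)) _

theorem Wd.jumpD {π ε S S' Q₀ Q₁ : MM X s} (hπ : ∀ t, evM t π = cj (W.κ h) 1)
    (hε : ∀ t, evM t ε = cj (W.κ h) (W.D t)) (hS : ∀ t, evM t S = cj (W.κ h) sh)
    (hS' : ∀ t, evM t S' = cj (W.κ h) (star sh)) (h₀ : ∀ t, evM t Q₀ = cj (W.κ h) (slot (-1)))
    (h₁ : ∀ t, evM t Q₁ = cj (W.κ h) (slot 0)) : JumpD (lamD X s).rel π ε S S' Q₀ Q₁ := by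
  have m := fun a b => (cj_mul (W.κ_iso h) a b).symm
  have d₀ : ∀ t, evM t (ε - ε * S' * ε * S * ε) =
      cj (W.κ h) (dg fun k => W.ε t k - W.ε t k * W.ε t (k + 1) * W.ε t k) := fun t => by
    simp only [map_sub, map_mul, hε, hS, hS', m]
    rw [← cj_sub, Wd.D, dg_defect₀ (W.bdd_ε t)]
  have d₁ : ∀ t, evM t (ε - ε * S * ε * S' * ε) =
      cj (W.κ h) (dg fun k => W.ε t k - W.ε t k * W.ε t (k - 1) * W.ε t k) := fun t => by
    simp only [map_sub, map_mul, hε, hS, hS', m]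
    rw [← cj_sub, Wd.D, dg_defect₁ (W.bdd_ε t)]
  have hb : ∀ t (u : ℤ → ℤ), Bdd fun k => W.ε t k - W.ε t k * W.ε t (u k) * W.ε t k := fun t u =>
    (W.bdd_ε t).sub (((W.bdd_ε t).mul ((W.bdd_ε t).comp u)).mul (W.bdd_ε t))
  refine ⟨evM_ext fun t => ?_, evM_ext fun t => ?_, evM_ext fun t => ?_, evM_ext fun t => ?_,
    evM_ext fun t => ?_, evM_ext fun t => ?_, evM_ext fun t => ?_, evM_ext fun t => ?_,
    evM_ext fun t => ?_, evM_ext fun t => ?_, Eq.symm (q_lam_eq.2 fun t => ?_),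
    Eq.symm (q_lam_eq.2 fun t => ?_),
    (norm_MM_le _ one_half_pos.le fun t => ?_).trans_lt one_half_lt_one,
    (norm_MM_le _ one_half_pos.le fun t => ?_).trans_lt one_half_lt_one⟩
  · rw [map_mul, hπ, m, mul_one]
  · rw [map_mul, hπ, hε, m, one_mul]
  · rw [map_mul, hπ, hε, m, mul_one]
  · rw [map_mul, hε, m, W.D_idem]
  · rw [map_mul, h₀, m, slot_idem]
  · rw [map_mul, h₁, m, slot_idem]
  · rw [map_mul, map_mul, h₀, hε, m, m, Wd.D, slot_dg (W.bdd_ε t)]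
  · rw [map_mul, map_mul, h₁, hε, m, m, Wd.D, slot_dg (W.bdd_ε t)]
  · rw [map_mul, map_mul, h₀, h₁, hS, m, m, ← slot_sh, neg_add_cancel]
  · rw [map_mul, map_mul, h₀, h₁, hS', m, m, ← sh_slot, neg_add_cancel]
  · rw [← map_sub, d₀]
    exact W.lc_defect h t (W.step_fin t)
  · rw [← map_sub, d₁]
    exact W.lc_defect h t (W.step_fin' t)
  · rw [map_mul, d₀, map_sub, map_one, h₀]
    refine (W.norm_cut h _ _).trans (norm_dg_slot (hb t _) _ one_half_pos.le fun l hl => ?_)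
    exact (norm_defect _ (W.ε_idem t l) (W.norm_ε t l)).trans (W.step t hl)
  · rw [map_mul, d₁, map_sub, map_one, h₁]
    refine (W.norm_cut h _ _).trans (norm_dg_slot (hb t _) _ one_half_pos.le fun l hl => ?_)
    refine (norm_defect _ (W.ε_idem t l) (W.norm_ε t l)).trans ?_
    have h2 := W.step t (k := l - 1) (by omega)
    rwa [sub_add_cancel, norm_sub_rev] at h2

theorem Wd.quad_spec : ∃ (d : Quad C₀(Rips X s, ℂ)) (w₀ w₁ : LP ℤ →L[ℂ] L2 ℕ),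
    (lamCtx X s).hom (KK.comap (ripsRes h) (KK.cls W.cyc)) = ((lamCtx X s).dat d).ind ∧
    adjoint w₀ ∘L w₀ = 1 ∧ adjoint w₁ ∘L w₁ = 1 ∧
    (∀ f, d.ρ₀ f = cj w₀ (mK (W.code h) f)) ∧ (∀ f, d.ρ₁ f = cj w₁ (mK (W.code h) f)) ∧
    adjoint w₁ ∘L d.U ∘L w₀ = W.U 0 sh ∧ adjoint w₀ ∘L d.U' ∘L w₁ = W.U 0 (star sh) := by
  obtain ⟨w, hw⟩ := @exists_iso_L2 (L2 (Fin 2 × (ℤ × ℕ))) _ _ _ (separable_L2 _)
  have h1 := dbl_F (W.U 0 sh) w hw
  rw [W.U_star] at h1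
  refine ⟨(W.cyc.quad w hw).comap (ripsRes h), w ∘L vv _ 0, w ∘L vv _ 1,
    (lamCtx X s).hom_comap_cls _ W.cyc hw, iso_comp hw (vv_iso 0), iso_comp hw (vv_iso 1),
    fun f => ?_, fun f => ?_, ?_, ?_⟩
  · rw [cj_comp]
    exact congrArg (cj w) (dblRep_e₀ W.ρK (ripsRes h f))
  · rw [cj_comp]
    exact congrArg (cj w) (dblRep_e₁ W.ρK (ripsRes h f))
  · rw [← h1.1, ← W.U_star]
    rfl
  · rw [← h1.2, ← W.U_star]
    rfl

/-- The local index of the cycle. -/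
theorem Wd.lam_cyc (v : IPair (lamD X s).rel Unit)
    (he : ∀ t, evM t (v.e () ()) = cj (W.κ h ∘L inc 0) W.e)
    (hf : ∀ t, evM t (v.f () ()) = cj (W.κ h ∘L inc 0) (W.E t)) :
    (lamCtx X s).hom (KK.comap (ripsRes h) (KK.cls W.cyc)) = v.del := by
  obtain ⟨π, hπ⟩ := W.exists_const h 1 fun m => by rw [mul_one, one_mul]
  obtain ⟨S, hS⟩ := W.exists_const h sh amp_sh
  obtain ⟨S', hS'⟩ := W.exists_const h (star sh) amp_star_sh
  obtain ⟨Q₀, h₀⟩ := W.exists_const h (slot (-1)) fun m => (slot_dg (Bdd.const m) _).symm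
  obtain ⟨Q₁, h₁⟩ := W.exists_const h (slot 0) fun m => (slot_dg (Bdd.const m) _).symm
  obtain ⟨ε, hε⟩ := W.exists_MK h W.D 1 (fun t => norm_dg_le zero_le_one (W.norm_ε t))
    (fun g hg => W.lim_comm hg) fun t m hm => hm.cpt_comm t
  have J := W.jumpD h hπ hε hS hS' h₀ h₁
  have m := fun a b => (cj_mul (W.κ_iso h) a b).symm
  obtain ⟨d, w₀, w₁, e, hw₀, hw₁, hρ₀, hρ₁, hU, hU'⟩ := W.quad_spec h
  have eT : ∀ {a : MM X s} {b : OpY ℤ}, (∀ t, evM t a = cj (W.κ h) b) → ∀ t,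
      evM t (ε * a * ε + (π - ε)) = cj (W.κ h) (W.U t b) := by
    intro a b ha t
    rw [map_add, map_sub, map_mul, map_mul, hε, ha, hπ, m, m, ← cj_sub, ← cj_add, Wd.U]
  rw [e, ind_trans (W.code_inj h) d hw₀ hw₁ hρ₀ hρ₁ J.d (fun t => W.U t sh)
    (fun t => W.U t (star sh)) hπ hπ (eT hS) (eT hS')
    (fun t f => by rw [hU, W.mK_eq]; exact (W.good_c0 _).U_diff t (amp_sh _))
    (fun t f => by rw [hU', W.mK_eq]; exact (W.good_c0 _).U_diff t (amp_star_sh _))]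
  refine J.ind_eq (evM_ext fun t => ?_) v (evM_ext fun t => ?_) (evM_ext fun t => ?_)
  · rw [map_mul, map_mul, hS, hS', hε, m, m, star_sh_mul, one_mul]
  · have hb : Bdd fun k => W.ε t (k - 1) := (W.bdd_ε t).comp _
    rw [he, map_mul, map_mul, map_mul, hS, hS', hε, h₀, m, m, m, cj_comp, Wd.D, ← mul_assoc,
      ← dg_sh hb (W.bdd_ε t) fun k => by rw [add_sub_cancel_right], mul_assoc _ sh, ← slot_sh,
      neg_add_cancel, ← mul_assoc, mul_assoc _ sh, sh_mul_star, mul_one, dg_slot hb,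
      W.ε_neg t (by omega)]
    rfl
  · rw [hf, map_mul, hε, h₁, m, cj_comp, Wd.D, dg_slot (W.bdd_ε t), W.ε_zero]
    rfl

end Vale.Agent.P212Z
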