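import Vale.Agent.P212Z.WitB

/-! The cycle of a path of matrices of operators on `l^2(X × ℕ)`. -/

set_option linter.unusedSectionVars false

namespace Vale.Agent.P212Z

open Vale.Agent.P212 Filter Topology ZeroAtInfty NNReal Matrix
open ContinuousLinearMap hiding proj

variable {X : Type} [MetricSpace X] [BddGeometry X] {r s : ℝ}

/-- An enumeration of two copies of `G`. -/
noncomputable def bG (G : Set (X × ℕ)) : Fin 2 × G → ℕ := (exists_injective_nat (Fin 2 × G)).choose

theorem bG_inj (G : Set (X × ℕ)) : Function.Injective (bG G) :=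
  (exists_injective_nat (Fin 2 × G)).choose_spec

theorem bG_inj' (G : Set (X × ℕ)) (a : Fin 2) : Function.Injective fun j : G => bG G (a, j) :=
  fun _ _ h => (Prod.mk.inj (bG_inj G h)).2

/-- The partial isometries. -/
noncomputable def mG (G : Set (X × ℕ)) (a : Fin 2) : HX X →L[ℂ] L2 ℕ :=
  pushL2 _ (bG_inj' G a) ∘L adjoint (pushL2 (Subtype.val : G → X × ℕ) Subtype.val_injective)

variable {G : Set (X × ℕ)}

theorem push_val_adj : pushL2 (Subtype.val : G → X × ℕ) Subtype.val_injective ∘L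
    adjoint (pushL2 (Subtype.val : G → X × ℕ) Subtype.val_injective) = proj G := by
  rw [pushL2_comp_adjoint, Subtype.range_val]

theorem push_bG_orth (a b : Fin 2) :
    adjoint (pushL2 _ (bG_inj' G a)) ∘L pushL2 _ (bG_inj' G b) = if a = b then 1 else 0 := by
  split_ifs with h
  · subst h
    exact adjoint_pushL2_comp _
  · exact adj_push_push_zero _ _ fun j k e => h (Prod.mk.inj (bG_inj G e)).1

theorem mG_orth (a b : Fin 2) : adjoint (mG G a) ∘L mG G b = if a = b then proj G else 0 := by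
  rw [mG, mG, adjoint_comp, adjoint_adjoint, comp_assoc, ← comp_assoc (adjoint _), push_bG_orth]
  split_ifs
  · exact push_val_adj
  · rw [zero_comp, comp_zero]

theorem mG_proj {S : Set (X × ℕ)} (h : G ⊆ S) (a : Fin 2) : mG G a ∘L proj S = mG G a := by
  have h1 : (Subtype.val : G → X × ℕ) ⁻¹' S = (∅ : Set G)ᶜ := by
    ext j
    simpa using h j.2
  rw [mG, comp_assoc, adjoint_pushL2_comp_proj, h1, proj_compl_eq, proj_empty, sub_zero]
  rfl

theorem proj_adj_mG {S : Set (X × ℕ)} (h : G ⊆ S) (a : Fin 2) :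
    proj S ∘L adjoint (mG G a) = adjoint (mG G a) := by
  have h1 := congrArg adjoint (mG_proj h a)
  rwa [adjoint_comp, ← star_eq_adjoint (proj S), star_proj] at h1

theorem norm_mG (a : Fin 2) : ‖mG G a‖ ≤ 1 := by
  refine (opNorm_comp_le _ _).trans (mul_le_one₀ (norm_pushL2_le _) (norm_nonneg _) ?_)
  rw [LinearIsometryEquiv.norm_map]
  exact norm_pushL2_le _

theorem hat_e11 : hat (mG G) (e11 (BX X)) = proj (Set.range fun j : G => bG G (0, j)) := by
  rw [← pushL2_comp_adjoint (bG_inj' G 0)]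
  simp only [hat, e11, Fin.sum_univ_two, of_apply, cons_val', cons_val_zero, cons_val_one,
    cons_val_fin_one, zero_comp, comp_zero, add_zero]
  ext1 ξ
  simp only [mG, adjoint_comp, adjoint_adjoint, ContinuousLinearMap.comp_apply, one_apply_eq_self,
    iso_apply (adjoint_pushL2_comp (Subtype.val_injective (p := fun j => j ∈ G)))]

variable (hG : ∀ j ∈ G, InRips r (pos j)) (y₀ : YR X r)

/-- The positions of the basis vectors of `l^2(ℕ)`. -/
noncomputable def locG : ℕ → YR X r :=
  Function.extend (bG G) (fun x => (unio x.2.1 (hG _ x.2.2)).1) fun _ => y₀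

theorem locG_bG (x : Fin 2 × G) : locG hG y₀ (bG G x) = (unio x.2.1 (hG _ x.2.2)).1 :=
  (bG_inj G).extend_apply _ _ _

theorem mN_mG {g : RPt X → ℂ} (hg : Bd g) (a : Fin 2) :
    mN (locG hG y₀) g ∘L mG G a = mG G a ∘L mulG g := by
  rw [mN, mG, ← comp_assoc, mulOp_push _ (hg.comp _), comp_assoc, comp_assoc, mulG,
    adj_push_mulOp _ (hg.comp _)]
  simp only [locG_bG]
  rfl

theorem adj_mG_mN {g : RPt X → ℂ} (hg : Bd g) (a : Fin 2) :
    adjoint (mG G a) ∘L mN (locG hG y₀) g = mulG g ∘L adjoint (mG G a) := by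
  rw [mN, mG, adjoint_comp, adjoint_adjoint, comp_assoc, adj_push_mulOp _ (hg.comp _), mulG,
    ← comp_assoc (mulOp _) (pushL2 _ _), mulOp_push _ (hg.comp _)]
  simp only [locG_bG]
  rfl

theorem pN_mG (B : Finset X) (a : Fin 2) :
    pN (locG hG y₀) B ∘L mG G a = mG G a ∘L proj (gX X ⁻¹' (B : Set X)) := by
  rw [pN, mG, ← comp_assoc, proj_comp_pushL2, comp_assoc, comp_assoc, adjoint_pushL2_comp_proj]
  congr 3
  ext j
  change (locG hG y₀ (bG G (a, j))).σ ∈ B ↔ _
  rw [locG_bG]
  rfl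

/-- An asymptotically local path of projections supported on `G`. -/
structure Pth (G : Set (X × ℕ)) (T : ℝ≥0 → Matrix (Fin 2) (Fin 2) (BX X)) : Prop where
  idem : ∀ t, T t * T t = T t
  sa : ∀ t, (T t)ᴴ = T t
  supp : ∀ t a b, proj G * (T t - e11 (BX X)) a b = (T t - e11 (BX X)) a b
  cpt : ∀ t a b (B : Finset X), Cpt (proj (gX X ⁻¹' (B : Set X)) * (T t - e11 (BX X)) a b)
  comm : ∀ a b g, Cyl g → Tendsto (fun t => T t a b * mulG g - mulG g * T t a b) atTop (𝓝 0)
  unif : ∀ a b, UniformContinuous fun t => T t a b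

theorem e11_star' {R : Type} [Ring R] [StarRing R] : (e11 R)ᴴ = e11 R := by
  rw [e11, star_fin_two, star_one, star_zero]

theorem e11_comm {R : Type} [Ring R] (p : R) (a b : Fin 2) : p * e11 R a b = e11 R a b * p := by
  fin_cases a <;> fin_cases b <;> simp [e11]

variable {T : ℝ≥0 → Matrix (Fin 2) (Fin 2) (BX X)}

theorem Pth.pc (hT : Pth G T) (t : ℝ≥0) (a b : Fin 2) : proj G * T t a b = T t a b * proj G := by
  have h1 := congrArg star (hT.supp t b a)
  rw [star_mul, star_proj, ← conjTranspose_apply, conjTranspose_sub, hT.sa, e11_star'] at h1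
  have h2 := (hT.supp t a b).trans h1.symm
  rwa [Matrix.sub_apply, mul_sub, sub_mul, e11_comm, sub_left_inj] at h2

theorem tendsto_hat {N : ℝ≥0 → Matrix (Fin 2) (Fin 2) (BX X)}
    (h : ∀ a b, Tendsto (fun t => N t a b) atTop (𝓝 0)) :
    Tendsto (fun t => hat (mG G) (N t)) atTop (𝓝 0) := by
  rw [tendsto_zero_iff_norm_tendsto_zero]
  refine squeeze_zero (fun _ => norm_nonneg _) (fun t => norm_hat_le _ norm_mG _) ?_
  have h1 := tendsto_finsetSum Finset.univ fun a _ => tendsto_finsetSum Finset.univ fun b _ =>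
    tendsto_zero_iff_norm_tendsto_zero.1 (h a b)
  simpa using h1

/-- The path on `l^2(ℕ)`. -/
noncomputable def Pth.wd (hT : Pth G T) : Wd X r where
  loc := locG hG y₀
  e := hat (mG G) (e11 (BX X))
  E t := hat (mG G) (T t)
  e_idem := by rw [hat_e11, proj_idem]
  e_star := by rw [hat_e11, star_proj]
  E_idem t := by rw [← hat_mul mG_orth (proj_adj_mG subset_rfl) _ (hT.pc t), hT.idem]
  E_star t := by rw [← hat_star, hT.sa]
  e_comm g hg := by
    rw [hat_e11]
    exact proj_comm_mulOp _ (hg.comp _)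
  cpt t B := by
    rw [← hat_sub, mul_hat (pN_mG hG y₀ B)]
    exact cpt_hat _ fun a b => hT.cpt t a b B
  comm g hg := by
    simp only [mul_hat (mN_mG hG y₀ (bd_cyl hg)), hat_mul' (adj_mG_mN hG y₀ (bd_cyl hg)),
      ← hat_sub]
    exact tendsto_hat fun a b => hT.comm a b g hg
  unif := by
    refine Metric.uniformContinuous_iff_le.2 fun ε hε => ?_
    choose δ hδ h using fun a b =>
      Metric.uniformContinuous_iff_le.1 (hT.unif a b) (ε / 4) (by positivity)
    refine ⟨min (min (δ 0 0) (δ 0 1)) (min (δ 1 0) (δ 1 1)),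
      lt_min (lt_min (hδ _ _) (hδ _ _)) (lt_min (hδ _ _) (hδ _ _)), fun {u v} huv => ?_⟩
    simp only [le_min_iff] at huv
    rw [dist_eq_norm, ← hat_sub]
    refine (norm_hat_le _ norm_mG _).trans ?_
    simp only [Fin.sum_univ_two, Matrix.sub_apply, ← dist_eq_norm]
    linarith [h 0 0 huv.1.1, h 0 1 huv.1.2, h 1 0 huv.2.1, h 1 1 huv.2.2]

theorem unio_inj (h : ∀ j ∈ G, InRips s (pos j)) :
    Function.Injective fun j : G => unio j.1 (h _ j.2) := fun j k e =>
  Subtype.ext (by
    have h1 := congrArg (iot X s) e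
    rwa [iot_unio, iot_unio] at h1)

theorem adj_val_io (h : ∀ j ∈ G, InRips s (pos j)) :
    adjoint (pushL2 (Subtype.val : G → X × ℕ) Subtype.val_injective) ∘L io X s =
      adjoint (pushL2 _ (unio_inj h)) := by
  have h2 : io X s ∘L pushL2 _ (unio_inj h) =
      pushL2 (Subtype.val : G → X × ℕ) Subtype.val_injective :=
    (push_push iot_inj (unio_inj h)).trans (push_congr _ _ fun j => iot_unio j.1 (h _ j.2))
  rw [← h2, adjoint_comp, comp_assoc, io_iso]
  rfl

theorem exists_yM (hT : Pth G T) (h : r ≤ s) (a : Fin 2) : ∃ y : MM X s, ∀ t,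
    evM t y = ((hT.wd hG y₀).κ h ∘L inc 0) ∘L mG G a ∘L io X s := by
  have hG' : ∀ j ∈ G, InRips s (pos j) := fun j hj => (hG j hj).mono h
  have h3 : Function.Injective fun n : ℕ => ((0 : ℤ), n) := fun _ _ e => (Prod.mk.inj e).2
  have h4 : (hT.wd hG y₀).κ h ∘L inc 0 = pushL2 (fun n => (hT.wd hG y₀).code h (0, n))
      (((hT.wd hG y₀).code_inj h).comp h3) := push_push ((hT.wd hG y₀).code_inj h) h3
  rw [mG, comp_assoc _ _ (io X s), adj_val_io hG', ← comp_assoc, h4, push_push]
  refine exists_MM_of_diag _ 1 (fun _ => norm_push_adj_le _ _) fun _ y z =>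
    bl_push_adj _ _ fun j => ?_
  change (locG hG y₀ (bG G (a, j))).incl h = _
  rw [locG_bG]
  rfl

theorem ev_cut {κ : L2 ℕ →L[ℂ] LP (YR X s)} (hG' : G ⊆ RP X s) {y : Fin 2 → MM X s}
    (hy : ∀ a t, evM t (y a) = κ ∘L mG G a ∘L io X s) (N : Matrix (Fin 2) (Fin 2) (MM X s))
    (t : ℝ≥0) (N' : Matrix (Fin 2) (Fin 2) (BX X))
    (hN : ∀ a b, evM t (N a b) = cb (io X s) (N' a b)) :
    evM t (((of fun (_ : Unit) a => y a) * N * of fun a (_ : Unit) => star (y a)) () ()) =
      cj κ (hat (mG G) N') := by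
  rw [hat, cj, finsetSum_comp, comp_finsetSum, Matrix.mul_assoc, Matrix.mul_apply, map_sum]
  refine Finset.sum_congr rfl fun a _ => ?_
  rw [finsetSum_comp, comp_finsetSum, Matrix.mul_apply, Finset.mul_sum, map_sum]
  refine Finset.sum_congr rfl fun b _ => ?_
  rw [of_apply, of_apply, map_mul, map_mul, evM_star, hy, hy, hN, star_eq_adjoint, adjoint_comp,
    adjoint_comp]
  conv_rhs => rw [← proj_adj_mG hG' b]; enter [2, 1, 1]; rw [← mG_proj hG' a]
  rw [← io_adj]
  rfl

theorem Pth.del (hT : Pth G T) (hG' : G ⊆ RP X s) {A : Type} [Ring A] [StarRing A] [Algebra ℂ A]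
    (S : LocSys X s A) {E : Matrix (Fin 2) (Fin 2) A} (hE : E * E = E)
    (h1 : ∀ t a b, S.ev t (E a b) = T t a b) (h2 : E.map S.aug = e11 ℂ)
    {κ : L2 ℕ →L[ℂ] LP (YR X s)} (hκi : adjoint κ ∘L κ = 1) {y : Fin 2 → MM X s}
    (hy : ∀ a t, evM t (y a) = κ ∘L mG G a ∘L io X s) : ∃ v : IPair (lamD X s).rel Unit,
      (∀ t, evM t (v.e () ()) = cj κ (hat (mG G) (e11 (BX X)))) ∧
      (∀ t, evM t (v.f () ()) = cj κ (hat (mG G) (T t))) ∧
      v.del = K0.cls (e11 (BB X s)) (e11_idem _) - K0.cls (E.map (phiB S)) (mapMat_idem _ hE) := by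
  have e1 : ∀ t a b, evM t (e11 (MM X s) a b) = cb (io X s) (e11 (BX X) a b) := by
    intro t a b
    fin_cases a <;> fin_cases b
    · exact (map_one _).trans io_iso.symm
    all_goals exact (map_zero _).trans (by simp [cb, e11])
  have e2 : ∀ t a b, evM t (E.map (psiM S) a b) = cb (io X s) (T t a b) := fun t a b => by
    rw [Matrix.map_apply, evM_psiM, h1]
  have sc : (e11 (lamD X s).rel.P).map (lamD X s).rel.sc = (E.map (psiP S)).map (lamD X s).rel.sc :=
    (e11_map _).trans h2.symm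
  let w : IPair (lamD X s).rel (Fin 2) := ⟨e11 (MM X s), E.map (psiM S), e11_idem _,
    mapMat_idem _ hE, by
      have h3 := (lamD X s).rel.map_q_pr (E.map (psiP S))
      rw [← sc, ← Rel.map_q_pr, e11_map] at h3
      exact h3.symm⟩
  have hw : w.del = K0.cls (e11 (BB X s)) (e11_idem _) -
      K0.cls (E.map (phiB S)) (mapMat_idem _ hE) := by
    rw [w.del_of_P (e11 _) (E.map (psiP S)) (e11_idem _) (mapMat_idem _ hE) (e11_map _) rfl sc]
    exact congrArg₂ (· - ·) (K0.cls_congr _ (e11_map _)) rfl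
  have yy : ∀ t a b, evM t (star (y a) * y b) =
      if a = b then cb (io X s) (proj G) else 0 := by
    intro t a b
    have h3 : evM t (star (y a) * y b) = cb (io X s) (adjoint (mG G a) ∘L mG G b) := by
      rw [map_mul, evM_star, hy, hy, star_eq_adjoint, adjoint_comp, adjoint_comp]
      ext1 ξ
      simp only [cb, mul_apply_eq_comp, ContinuousLinearMap.comp_apply, iso_apply hκi]
    rw [h3, mG_orth]
    split_ifs
    · rfl
    · rw [cb, zero_comp, comp_zero]
  obtain ⟨p, hp⟩ : ∃ p, p = star (y 0) * y 0 := ⟨_, rfl⟩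
  have pe : ∀ t, evM t p = proj (iot X s ⁻¹' G) := fun t => by
    rw [hp, yy, if_pos rfl, cb, io, proj_comp_pushL2, ← comp_assoc, adjoint_pushL2_comp]
    rfl
  have pl : adjoint (io X s) ∘L proj G = proj (iot X s ⁻¹' G) ∘L adjoint (io X s) :=
    adjoint_pushL2_comp_proj _ _
  have pr : proj G ∘L io X s = io X s ∘L proj (iot X s ⁻¹' G) := proj_comp_pushL2 _ _
  have xy : ((of fun a (_ : Unit) => star (y a)) * of fun (_ : Unit) a => y a) =
      diagonal fun _ => p := by
    ext1 a b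
    rw [Matrix.mul_apply, Fintype.sum_unique, of_apply, of_apply, diagonal_apply]
    refine evM_ext fun t => ?_
    rw [yy]
    split_ifs
    · rw [hp, yy, if_pos rfl]
    · rw [map_zero]
  have yp : ∀ a, y a * p = y a := fun a => evM_ext fun t => by
    rw [map_mul, pe, hy, mul_def, comp_assoc, comp_assoc, ← pr, ← comp_assoc (mG G a),
      mG_proj subset_rfl]
  have py : ∀ a, p * star (y a) = star (y a) := fun a => by
    have h3 := congrArg star (yp a)
    rwa [star_mul, hp, star_mul, star_star, ← hp] at h3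
  have a1 : ((of fun a (_ : Unit) => star (y a)) * of fun (_ : Unit) a => y a) *
      (of fun a (_ : Unit) => star (y a)) = of fun a (_ : Unit) => star (y a) := by
    rw [xy]
    ext1 a b
    rw [diagonal_mul]
    exact py a
  have a2 : (of fun (_ : Unit) a => y a) * ((of fun a (_ : Unit) => star (y a)) *
      of fun (_ : Unit) a => y a) = of fun (_ : Unit) a => y a := by
    rw [xy]
    ext1 a b
    rw [mul_diagonal]
    exact yp b
  have a3 : ((of fun a (_ : Unit) => star (y a)) * of fun (_ : Unit) a => y a) * w.e =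
      w.e * ((of fun a (_ : Unit) => star (y a)) * of fun (_ : Unit) a => y a) := by
    rw [xy]
    ext1 a b
    rw [diagonal_mul, mul_diagonal]
    exact e11_comm p a b
  have a4 : ((of fun a (_ : Unit) => star (y a)) * of fun (_ : Unit) a => y a) * w.f =
      w.f * ((of fun a (_ : Unit) => star (y a)) * of fun (_ : Unit) a => y a) := by
    rw [xy]
    ext1 a b
    rw [diagonal_mul, mul_diagonal]
    refine evM_ext fun t => ?_
    change evM t (p * E.map (psiM S) a b) = evM t (E.map (psiM S) a b * p)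
    rw [map_mul, map_mul, pe, e2, mul_cb pl, cb_mul' pr, hT.pc]
  refine ⟨w.cut _ _ a1 a3 a4, fun t => ev_cut hG' hy _ t _ (e1 t),
    fun t => ev_cut hG' hy _ t _ (e2 t), (w.del_cut _ _ _ a1 a2 a3 a4 ?_ rfl rfl).trans hw⟩
  rw [xy, ← sub_eq_zero, ← mul_sub, sub_mul, one_mul, sub_eq_zero]
  ext1 a b
  rw [diagonal_mul]
  refine evM_ext fun t => ?_
  change evM t (e11 (MM X s) a b - E.map (psiM S) a b) =
    evM t (p * (e11 (MM X s) a b - E.map (psiM S) a b))
  rw [map_mul, pe, map_sub, e1, e2, ← cb_sub, mul_cb pl, ← neg_sub, mul_neg]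
  exact congrArg (fun A => cb (io X s) (-A)) (hT.supp t a b).symm

/-- The local index of the cycle. -/
theorem Pth.lam (hT : Pth G T) (h : r ≤ s) {A : Type} [Ring A] [StarRing A] [Algebra ℂ A]
    (S : LocSys X s A) {E : Matrix (Fin 2) (Fin 2) A} (hE : E * E = E)
    (h1 : ∀ t a b, S.ev t (E a b) = T t a b) (h2 : E.map S.aug = e11 ℂ) :
    (lamCtx X s).hom (KK.comap (ripsRes h) (KK.cls (hT.wd hG y₀).cyc)) =
      K0.cls (e11 (BB X s)) (e11_idem _) - K0.cls (E.map (phiB S)) (mapMat_idem _ hE) := by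
  choose y hy using exists_yM hG y₀ hT h
  obtain ⟨v, a1, a2, a3⟩ := hT.del (fun j hj => (hG j hj).mono h) S hE h1 h2
    (iso_comp ((hT.wd hG y₀).κ_iso h) (slice_inc_self 0)) hy
  exact ((hT.wd hG y₀).lam_cyc h v a1 a2).trans a3

end Vale.Agent.P212Z
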