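import Vale.Agent.P212Z.WitC
import Vale.Agent.P212Z.MuZero
import Vale.Agent.P212.H268.J

/-! The cycles given by the paths of Bott projections. -/

set_option linter.unusedSectionVars false

namespace Vale.Agent.P212Z

open Vale.Agent.P212 Vale.Agent.P212.H268 Filter Topology ZeroAtInfty NNReal Matrix
open BoundedContinuousFunction
open ContinuousLinearMap hiding proj

section Sup

variable {J : Type} {G : Set J}

/-- The operator is the identity off `G`. -/
def Sup (G : Set J) (U : L2 J →L[ℂ] L2 J) : Prop :=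
  proj G * (U - 1) = U - 1 ∧ (U - 1) * proj G = U - 1

theorem Sup.comm {U : L2 J →L[ℂ] L2 J} (h : Sup G U) : Commute (proj G) U := by
  have h1 := h.1.trans h.2.symm
  rwa [mul_sub, sub_mul, mul_one, one_mul, sub_left_inj] at h1

theorem Sup.cut_eq {U : L2 J →L[ℂ] L2 J} (h : Sup G U) : cut G U = U :=
  sub_left_inj.1 ((cut_sub_one G U).trans h.1)

theorem sup_perm {ρ : Equiv.Perm J} (h : ∀ j, j ∉ G → ρ j = j) : Sup G (permL ρ) := by
  have h1 : ∀ j, ρ j ∈ G ↔ j ∈ G := fun j => by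
    refine ⟨fun h2 => by_contra fun h3 => h3 (h j h3 ▸ h2), fun h2 => by_contra fun h3 => ?_⟩
    exact h3 ((ρ.injective (h _ h3)).symm ▸ h2)
  have h2 := permL_sub_one_mul_compl h
  rw [mul_sub, mul_one, sub_eq_zero] at h2
  refine ⟨?_, h2.symm⟩
  rw [((permL_commute_proj h1).sub_right (Commute.one_right _)).eq]
  exact h2.symm

theorem Sup.rot {S T : L2 J →L[ℂ] L2 J} (hS : Sup G S) (hT : Sup G T) (s : ℝ) :
    Sup G (ra s • S + rb s • T) := by
  unfold Sup
  rw [rot_sub_one, mul_add, add_mul, mul_smul_comm, mul_smul_comm, smul_mul_assoc,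
    smul_mul_assoc, hS.1, hS.2, hT.1, hT.2]
  exact ⟨rfl, rfl⟩

theorem Sup.cut {U : L2 J →L[ℂ] L2 J} (h : Sup G U) (S : Set J) : Sup G (cut S U) := by
  unfold Sup
  rw [cut_sub_one, ← mul_assoc, proj_mul_proj, Set.inter_comm, ← proj_mul_proj, mul_assoc,
    mul_assoc, h.1, h.2]
  exact ⟨rfl, rfl⟩

theorem e11_smul (a b : Fin 2) :
    e11 (L2 J →L[ℂ] L2 J) a b = e11 ℂ a b • (1 : L2 J →L[ℂ] L2 J) := by
  fin_cases a <;> fin_cases b <;> simp [e11]

theorem sup_bottE {U V : L2 J →L[ℂ] L2 J} (hU : Sup G U) (hV : Sup G V) (a b : Fin 2) :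
    proj G * (bottE U V - e11 (L2 J →L[ℂ] L2 J)) a b =
      (bottE U V - e11 (L2 J →L[ℂ] L2 J)) a b := by
  have h1 := bottE_cut hU.comm hV.comm a b
  rw [hU.cut_eq, hV.cut_eq] at h1
  rw [Matrix.sub_apply, e11_smul, mul_sub, mul_smul_comm, mul_one]
  conv_rhs => rw [h1, smul_sub]
  abel

end Sup

theorem bottE_star {A : Type} [CStarAlgebra A] (u v : A) : (bottE u v)ᴴ = bottE u v := by
  rw [bottE, bott, conjTranspose_add, conjTranspose_add, conjTranspose_conjTranspose, e11_star',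
    add_right_comm]

theorem unif_locU {X : Type} [MetricSpace X] [BddGeometry X] [Nonempty X] (r : ℝ)
    (F : locU X r) : UniformContinuous fun t => (locSys X r).ev t F := by
  refine Metric.uniformContinuous_iff_le.2 fun ε hε => ?_
  obtain ⟨g, -, -, hg, -, -, h⟩ := exists_approx_locU r F (show 0 < ε / 3 by positivity)
  obtain ⟨δ, hδ, h1⟩ := Metric.uniformContinuous_iff_le.1 hg (ε / 3) (by positivity)
  refine ⟨δ, hδ, fun {u v} huv => ?_⟩
  rw [dist_eq_norm, locSys_ev, locSys_ev, ← map_sub]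
  refine (norm_opC_le _).trans ?_
  have h2 := h1 huv
  have h3 := h u
  have h4 := h v
  rw [← dist_eq_norm] at h3 h4 ⊢
  rw [dist_comm] at h4
  linarith [dist_triangle4 ((F : ℝ≥0 →ᵇ CM (gX X)) u) (g u) (g v) ((F : ℝ≥0 →ᵇ CM (gX X)) v)]

variable (τ : Tower) (I : Set ℕ)

/-- The basis vectors placed in the Rips complex of the base. -/
def GB : Set (XT τ × ℕ) := {j | InRips 2 (pos j) ∧ ∀ x ∈ (pos j).1.support, x ∈ base τ}

theorem ji_mem (m : ℕ) (g : GI m) : ji τ m g ∈ GB τ := by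
  change InRips 2 (pos _) ∧ ∀ x ∈ (pos _).1.support, x ∈ base τ
  rw [pos_ji]
  exact ⟨inRips_gpt τ _ _ _, fun x hx => (support_gpt τ _ _ _ hx).2⟩

theorem sup_pL (m : ℕ) (π : Equiv.Perm (GI m)) : Sup (GB τ) (pL τ m π) :=
  sup_perm fun _ hj => Equiv.Perm.viaEmbedding_apply_of_notMem _ _ _ fun ⟨g, e⟩ =>
    hj (e ▸ ji_mem τ m g)

/-- The path of Bott projections. -/
noncomputable def TB (t : ℝ≥0) : Matrix (Fin 2) (Fin 2) (BX (XT τ)) :=
  (bottE (UpathI τ I t) (VpathI τ I t)).map (opC (XT τ))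

theorem TB_ev {s : ℝ} (hs : 2 ≤ s) (t : ℝ≥0) (a b : Fin 2) :
    (locSys (XT τ) s).ev t (EI τ I s hs a b) = TB τ I t a b := by
  rw [locSys_ev, EI_spec]
  rfl

theorem pth_TB : Pth (GB τ) (TB τ I) where
  idem t := mapMat_idem (opC (XT τ) : CM (gX (XT τ)) →+* BX (XT τ)) (bottE_pathI_idem τ I t)
  sa t := by rw [TB, map_bottE, bottE_star]
  supp t a b := by
    rw [TB, map_bottE, UpathI, VpathI, opC_toMax, opC_toMax]
    exact sup_bottE (((sup_pL τ _ _).rot (sup_pL τ _ _) _).cut _)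
      (((sup_pL τ _ _).rot (sup_pL τ _ _) _).cut _) a b
  cpt t a b B := by
    have h1 : (locSys (XT τ) 2).aug (EI τ I 2 le_rfl a b) = e11 ℂ a b :=
      congrFun (congrFun (EI_aug τ I 2 le_rfl) a) b
    have h2 := (locSys (XT τ) 2).cpt (EI τ I 2 le_rfl a b) t B
    rw [h1, TB_ev, ← e11_smul] at h2
    exact h2
  comm a b g hg := by
    have h1 := (locSys (XT τ) 2).comm (EI τ I 2 le_rfl a b) g hg
    simp only [TB_ev] at h1
    exact tendsto_zero_iff_norm_tendsto_zero.2 h1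
  unif a b := by
    have h1 := unif_locU 2 (EI τ I 2 le_rfl a b)
    simpa only [TB_ev] using h1

theorem GB_rips : ∀ j ∈ GB τ, InRips 2 (pos j) := fun _ h => h.1

/-- A point of the grid. -/
noncomputable def g0 : GI 0 := ⟨⟨3, le_rfl⟩, (0, 0)⟩

/-- A position over the base. -/
noncomputable def yB : YR (XT τ) 2 := (unio (ji τ 0 g0) (ji_mem τ 0 g0).1).1

/-- The Fredholm module given by the path of Bott projections. -/
noncomputable def wit : Cycle C₀(Rips (XT τ) 2, ℂ) :=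
  ((pth_TB τ I).wd (GB_rips τ) (yB τ)).cyc

theorem wit_bary (x : XT τ) (hx : x ∉ base τ) : (wit τ I).M.ρ (bary 2 x) = 0 := by
  refine Wd.cyc_bary _ fun n hn => hx ?_
  change x ∈ (locG (GB_rips τ) (yB τ) n).ps.1.support at hn
  by_cases h : ∃ y, bG (GB τ) y = n
  · obtain ⟨y, rfl⟩ := h
    rw [locG_bG] at hn
    exact y.2.2.2 x hn
  · rw [locG, Function.extend_apply' _ _ _ h] at hn
    exact (ji_mem τ 0 g0).2 x hn

theorem mu_wit {A : Type} [NonUnitalCStarAlgebra A] {i : BX (XT τ) → A} (hi : H35.Cpl i) :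
    mu hi.hom (KX0.cls 2 (wit τ I)) = 0 :=
  haveI : Nonempty (base τ) := ⟨⟨vtx τ 0 0 0, rfl⟩⟩
  mu_eq_zero_of_sub hi (base τ) (fun x hx => K0incl_eq_zero τ x hx) 2 _ (wit_bary τ I)

theorem lam_wit {s : ℝ} (hs : 2 ≤ s) :
    (lamCtx (XT τ) s).hom (KK.comap (ripsRes hs) (KK.cls (wit τ I))) =
      -yC τ hs (phiB (locSys (XT τ) s)) I := by
  rw [yC, neg_sub]
  exact (pth_TB τ I).lam (GB_rips τ) (yB τ) hs (locSys (XT τ) s) (EI_idem τ I s hs)
    (TB_ev τ I hs) (EI_aug τ I s hs)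

end Vale.Agent.P212Z
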